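import Vale.Agent.P050.SpA

namespace P050
open Module

namespace Arith

theorem edge (c u : ℤ) (h0 : 0 ≤ c) (h1 : u ≤ 2 * c) :
    -1 ≤ u ^ 2 + 2 * u - 8 * c * u + 4 * c * (3 * c - 1) ∧
      (0 ≤ u → 0 ≤ u ^ 2 + 2 * u - 8 * c * u + 4 * c * (3 * c - 1)) := by
  rcases h0.eq_or_lt with rfl | h
  · exact ⟨by nlinarith [sq_nonneg (u + 1)], fun h => by nlinarith⟩
  · have : 0 ≤ (2 * c - u) * (2 * c - u + 4 * c - 2) := mul_nonneg (by omega) (by omega)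
    exact ⟨by nlinarith, fun _ => by nlinarith⟩

theorem sqn {n j1 j2 j3 : ℝ} (hn : 0 < n) (h : n ≤ j1 + j2 + j3) :
    n ≤ 3 * ((j1 ^ 2 + j2 ^ 2 + j3 ^ 2) / n) := by
  rw [← mul_div_assoc, le_div_iff₀ hn]
  nlinarith [sq_nonneg (j1 - j2), sq_nonneg (j1 - j3), sq_nonneg (j2 - j3),
    mul_le_mul h h hn.le (hn.le.trans h)]

theorem gam3Z (k j1 j2 j3 a c1 c2 c3 i μ m : ℤ) (hm : m = 2 * k - j1 - j2 - j3 + 2 * a)
    (hi : 0 ≤ i) (hia : i ≤ a) (h1 : i ≤ c1) (h2 : i ≤ c2) (h3 : i ≤ c3) (g1 : j1 ≤ 2 * c1)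
    (g2 : j2 ≤ 2 * c2) (g3 : j3 ≤ 2 * c3) (a1 : a ≤ j1) (a2 : a ≤ j2) (a3 : a ≤ j3)
    (hμ : a ≤ μ) (hμ' : a - 2 * i ≤ μ - a) :
    8 * i * (a - 2 * i + 1 + k) + (c1 - i) * (8 * (j1 - 2 * i) - 4 * (3 * (c1 - i) - 1)) +
      (c2 - i) * (8 * (j2 - 2 * i) - 4 * (3 * (c2 - i) - 1)) +
      (c3 - i) * (8 * (j3 - 2 * i) - 4 * (3 * (c3 - i) - 1)) + 4 * (a - i) * (m - 1) ≤
    4 * a * m + 2 * a ^ 2 + 2 * a + 2 * a * (j1 + j2 + j3 - 3 * a) + 2 * a * (μ - a) +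
      ((j1 - a) ^ 2 + (j2 - a) ^ 2 + (j3 - a) ^ 2) + 2 * (j1 + j2 + j3 - 3 * a) := by
  obtain ⟨e1, f1⟩ := edge (c1 - i) (j1 - 2 * i) (by omega) (by omega)
  obtain ⟨e2, f2⟩ := edge (c2 - i) (j2 - 2 * i) (by omega) (by omega)
  obtain ⟨e3, f3⟩ := edge (c3 - i) (j3 - 2 * i) (by omega) (by omega)
  subst hm
  rcases le_or_gt 0 (a - 2 * i) with h | h
  · have := f1 (by omega); have := f2 (by omega); have := f3 (by omega)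
    have : 0 ≤ a * (μ - a - (a - 2 * i)) := mul_nonneg (by omega) (by omega)
    nlinarith [sq_nonneg (a - 2 * i)]
  · have : 1 * 1 ≤ a * (μ - a - (a - 2 * i)) :=
      mul_le_mul (by omega) (by omega) (by omega) (by omega)
    have : 1 * 1 ≤ (2 * i - a) * (2 * i - a) :=
      mul_le_mul (by omega) (by omega) (by omega) (by omega)
    nlinarith

theorem gam3N (k j1 j2 j3 a c1 c2 c3 i : ℕ) (hk : 1 ≤ k) (hm : j1 + j2 + j3 ≤ 2 * k + 2 * a)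
    (hia : i ≤ a) (h1 : i ≤ c1) (h2 : i ≤ c2) (h3 : i ≤ c3) (g1 : j1 ≤ 2 * c1)
    (g2 : j2 ≤ 2 * c2) (g3 : j3 ≤ 2 * c3) (b1 : c1 + a ≤ j1 + i) (b2 : c2 + a ≤ j2 + i)
    (b3 : c3 + a ≤ j3 + i) :
    Ex ((2 * k : ℕ) : ℝ) k k k j1 j2 j3 a c1 c2 c3 i - Tn ((2 * k : ℕ) : ℝ) + 3 * Tn k ≤
      Gam ((2 * k : ℕ) : ℝ) j1 j2 j3 a := by
  have H := gam3Z k j1 j2 j3 a c1 c2 c3 i (min (min j1 j2) j3) _ rfl (by omega) (by omega)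
    (by omega) (by omega) (by omega) (by omega) (by omega) (by omega) (by omega) (by omega)
    (by omega) (by omega) (by omega)
  have H' := (Int.cast_le (R := ℝ)).2 H
  have hn : (0 : ℝ) < 2 * k := by positivity
  have hi : (i : ℝ) ≤ a := by exact_mod_cast hia
  have : -(12 * (((j1 : ℝ) ^ 2 + j2 ^ 2 + j3 ^ 2) / (2 * k))) ≤
      4 * (a - i) * (2 * k - j1 - j2 - j3 + 2 * a - 1) := by
    rcases hm.eq_or_lt with h | h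
    · have h' : (j1 : ℝ) + j2 + j3 = 2 * k + 2 * a := by exact_mod_cast h
      have ha : (a : ℝ) ≤ 2 * k := by exact_mod_cast (by omega : a ≤ 2 * k)
      have := sqn hn (show 2 * (k : ℝ) ≤ j1 + j2 + j3 by rw [h']; linarith [a.cast_nonneg (α := ℝ)])
      rw [show 2 * (k : ℝ) - j1 - j2 - j3 + 2 * a - 1 = -1 by linarith]
      linarith [i.cast_nonneg (α := ℝ)]
    · have h' : (j1 : ℝ) + j2 + j3 + 1 ≤ 2 * k + 2 * a := by exact_mod_cast h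
      have : 0 ≤ (a - i : ℝ) * (2 * k - j1 - j2 - j3 + 2 * a - 1) :=
        mul_nonneg (by linarith) (by linarith)
      have : (0 : ℝ) ≤ ((j1 : ℝ) ^ 2 + j2 ^ 2 + j3 ^ 2) / (2 * k) := by positivity
      linarith
  simp only [Ex, Gam, pr, Tn, mul_div_assoc]
  push_cast at H' ⊢
  linarith

theorem gamR {n j1 j2 j3 a : ℝ} (hn : 0 ≤ n) (hm : j1 + j2 + j3 ≤ n + 2 * a) (ha : 0 ≤ a)
    (a1 : a ≤ j1) (a2 : a ≤ j2) (a3 : a ≤ j3) {j : ℝ} (hj : j = a ∨ j = j1 ∨ j = j2 ∨ j = j3) :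
    (j ^ 2 + 2 * j) / 8 ≤ Gam n j1 j2 j3 a := by
  have h1 : 0 ≤ a * (n - j1 - j2 - j3 + 2 * a) := mul_nonneg ha (by linarith)
  have h2 : 0 ≤ a * (min (min j1 j2) j3 - a) :=
    mul_nonneg ha (sub_nonneg.2 (le_min (le_min a1 a2) a3))
  have h3 : 0 ≤ 12 * (j1 ^ 2 + j2 ^ 2 + j3 ^ 2) / n := by positivity
  have h4 := mul_nonneg ha (sub_nonneg.2 a1)
  have h5 := mul_nonneg ha (sub_nonneg.2 a2)
  have h6 := mul_nonneg ha (sub_nonneg.2 a3)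
  unfold Gam
  rcases hj with h | h | h | h <;> rw [h] <;>
    nlinarith [sq_nonneg (j1 - a), sq_nonneg (j2 - a), sq_nonneg (j3 - a), sq_nonneg a]

/-- sum of squares -/
noncomputable def Sq (j1 j2 j3 : ℝ) : ℝ := j1 ^ 2 + j2 ^ 2 + j3 ^ 2

/-- potential -/
noncomputable def Pot (n j1 j2 j3 a : ℝ) : ℝ :=
  (-Tn j1 - Tn j2 - Tn j3 - a * (n - j1 - j2 - j3 + 2 * a) + Tn a) / 2

theorem div_le {n s : ℝ} (hn : 10 ^ 7 ≤ n) (hs : 0 ≤ s) : s / n ≤ s / 10 ^ 7 :=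
  div_le_div_of_nonneg_left hs (by norm_num) hn

theorem endR {n j1 j2 j3 a : ℝ} (hn : 10 ^ 7 ≤ n) (ha : 0 ≤ a) (a1 : a ≤ j1) (a2 : a ≤ j2) :
    ∃ s, 0 ≤ s ∧ Sq j1 j2 j3 ≤ 3 * s ∧
      8 * (Pot n j1 j2 j3 a + Gam n j1 j2 j3 a) ≤ -s + 12 * (Sq j1 j2 j3 / 10 ^ 7) := by
  refine ⟨2 * a ^ 2 + (j1 - a) ^ 2 + (j2 - a) ^ 2 + (j3 - a) ^ 2, by positivity, ?_, ?_⟩
  · unfold Sq
    nlinarith [sq_nonneg (j1 - 2 * a), sq_nonneg (j2 - 2 * a), sq_nonneg (j3 - 2 * a),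
      sq_nonneg (j1 - a), sq_nonneg (j2 - a), sq_nonneg (j3 - a)]
  · have h1 := div_le hn (show 0 ≤ j1 ^ 2 + j2 ^ 2 + j3 ^ 2 by positivity)
    have h2 := mul_le_mul_of_nonneg_left (min_le_right (min j1 j2) j3) ha
    have h4 := mul_nonneg ha (sub_nonneg.2 a1)
    have h5 := mul_nonneg ha (sub_nonneg.2 a2)
    simp only [Pot, Gam, Tn, Sq, mul_div_assoc]
    nlinarith

theorem alm (n j1 j2 j3 a i : ℕ) (hn : 10 ^ 7 ≤ n) (hm : j1 + j2 + j3 ≤ n + 2 * a)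
    (a1 : a ≤ j1) (a2 : a ≤ j2) (a3 : a ≤ j3) (hi : i ≤ a) :
    2 * ((a : ℝ) - i) * (1 - 2 * (n - j1 - j2 - j3 + 2 * a)) ≤ 6 * (Sq j1 j2 j3 / 10 ^ 7) := by
  have hn' : (10 : ℝ) ^ 7 ≤ n := by exact_mod_cast hn
  have h0 : 0 ≤ (j1 : ℝ) ^ 2 + j2 ^ 2 + j3 ^ 2 := by positivity
  have h1 := div_le hn' h0
  have hi' : (i : ℝ) ≤ a := by exact_mod_cast hi
  unfold Sq
  rcases hm.eq_or_lt with h | h
  · have h' : (j1 : ℝ) + j2 + j3 = n + 2 * a := by exact_mod_cast h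
    have ha : (a : ℝ) ≤ n := by exact_mod_cast (by omega : a ≤ n)
    have := sqn (show (0 : ℝ) < n by linarith)
      (show (n : ℝ) ≤ j1 + j2 + j3 by rw [h']; linarith [a.cast_nonneg (α := ℝ)])
    rw [show (n : ℝ) - j1 - j2 - j3 + 2 * a = 0 by linarith]
    linarith [i.cast_nonneg (α := ℝ)]
  · have h' : (j1 : ℝ) + j2 + j3 + 1 ≤ n + 2 * a := by exact_mod_cast h
    have : 0 ≤ (a - i : ℝ) * (2 * (n - j1 - j2 - j3 + 2 * a) - 1) :=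
      mul_nonneg (by linarith) (by linarith)
    have : (0 : ℝ) ≤ ((j1 : ℝ) ^ 2 + j2 ^ 2 + j3 ^ 2) / 10 ^ 7 := by positivity
    linarith

theorem sq2 {j a b : ℝ} (ha : 0 ≤ a) (hb : a ≤ b) : j ^ 2 ≤ 2 * b ^ 2 + 2 * (j - a) ^ 2 := by
  nlinarith [sq_nonneg (j - 2 * a), mul_le_mul hb hb ha (ha.trans hb)]

theorem stepR {n xy xb xc yb yc bc a1 a2 a3 a4 i : ℝ} (hn : 10 ^ 7 ≤ n) (hi : 0 ≤ i)
    (i1 : i ≤ a1) (i2 : i ≤ a2) (i3 : i ≤ a3) (i4 : i ≤ a4)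
    (hxb : a1 + a3 ≤ xb + i) (hxc : a1 + a4 ≤ xc + i) (hyb : a2 + a3 ≤ yb + i)
    (hyc : a2 + a4 ≤ yc + i) (hbc : a1 + a2 ≤ bc + i)
    (m3 : xy + xb + yb ≤ n + 2 * a3) (m4 : xy + xc + yc ≤ n + 2 * a4)
    (m1 : 2 * (a1 - i) * (1 - 2 * (n - xb - xc - bc + 2 * a1)) ≤ 6 * (Sq xb xc bc / 10 ^ 7))
    (m2 : 2 * (a2 - i) * (1 - 2 * (n - yb - yc - bc + 2 * a2)) ≤ 6 * (Sq yb yc bc / 10 ^ 7)) :
    ∃ s, 0 ≤ s ∧ Sq xy xb yb ≤ 5 * Sq xb xc bc + 2 * s ∧ Sq xy xc yc ≤ 5 * Sq xb xc bc + 2 * s ∧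
      Sq yb yc bc ≤ 5 * Sq xb xc bc + 2 * s ∧
      8 * (Ex n xy yb yc xb xc bc a1 a3 a4 a2 i - Tn n + Gam n xy xb yb a3 + Gam n xy xc yc a4 +
        Pot n xb xc bc a1 - Pot n yb yc bc a2) ≤ -s + 6 * (Sq xb xc bc / 10 ^ 7) +
        6 * (Sq yb yc bc / 10 ^ 7) + 12 * (Sq xy xb yb / 10 ^ 7) + 12 * (Sq xy xc yc / 10 ^ 7) := by
  have q : ∀ {u v : ℝ}, 0 ≤ u → u ≤ v → u ^ 2 ≤ v ^ 2 := fun h1 h2 => by gcongr
  have s1 := q (u := a1 - i) (v := xb - a3) (by linarith) (by linarith)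
  have s2 := q (u := a1 - i) (v := xc - a4) (by linarith) (by linarith)
  have s3 := q (u := a2 - i) (v := yb - a3) (by linarith) (by linarith)
  have s4 := q (u := a2 - i) (v := yc - a4) (by linarith) (by linarith)
  have s5 := q (u := a2 - i) (v := bc) (by linarith) (by linarith)
  have t1 := sq2 (j := xy) (a := a3) (b := xb) (by linarith) (by linarith)
  have t2 := sq2 (j := yb) (a := a3) (b := xb) (by linarith) (by linarith)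
  have t3 := sq2 (j := xy) (a := a4) (b := xc) (by linarith) (by linarith)
  have t4 := sq2 (j := yc) (a := a4) (b := xc) (by linarith) (by linarith)
  have u1 := sq_nonneg (xy - a3)
  have u2 := sq_nonneg (xy - a4)
  have u3 := sq_nonneg xb
  have u4 := sq_nonneg xc
  have u5 := sq_nonneg bc
  refine ⟨(xy - a3) ^ 2 + (xy - a4) ^ 2 + ((xb - a3) ^ 2 - (a1 - i) ^ 2) +
    ((xc - a4) ^ 2 - (a1 - i) ^ 2) + ((yb - a3) ^ 2 - (a2 - i) ^ 2) +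
    ((yc - a4) ^ 2 - (a2 - i) ^ 2), by linarith, by unfold Sq; linarith, by unfold Sq; linarith,
    by unfold Sq; linarith, ?_⟩
  have d3 := div_le hn (show 0 ≤ xy ^ 2 + xb ^ 2 + yb ^ 2 by positivity)
  have d4 := div_le hn (show 0 ≤ xy ^ 2 + xc ^ 2 + yc ^ 2 by positivity)
  have e3 := mul_le_mul_of_nonneg_left ((min_le_left (min xy xb) yb).trans (min_le_left _ _))
    (hi.trans i3)
  have e4 := mul_le_mul_of_nonneg_left ((min_le_left (min xy xc) yc).trans (min_le_left _ _))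
    (hi.trans i4)
  have f3 : 0 ≤ (a3 - i) * (n - xy - xb - yb + 2 * a3) := mul_nonneg (by linarith) (by linarith)
  have f4 : 0 ≤ (a4 - i) * (n - xy - xc - yc + 2 * a4) := mul_nonneg (by linarith) (by linarith)
  have g3 : i * (a1 - i + (a2 - i)) ≤ a3 * (xb - a3 + (yb - a3)) :=
    mul_le_mul i3 (by linarith) (by linarith) (by linarith)
  have g4 : i * (a1 - i + (a2 - i)) ≤ a4 * (xc - a4 + (yc - a4)) :=
    mul_le_mul i4 (by linarith) (by linarith) (by linarith)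
  simp only [Pot, Gam, Ex, pr, Tn, Sq, mul_div_assoc] at m1 m2 ⊢
  linarith

variable {F Ω : Type} [Field F] [AddCommGroup Ω] [Module F Ω] [FiniteDimensional F Ω]
  {B : LinearMap.BilinForm F Ω} {n k : ℕ}

theorem sub2 {A A' C I : Submodule F Ω} (h : ∀ x ∈ A, x ∈ C) (h' : ∀ x ∈ A', x ∈ C)
    (hI : ∀ x ∈ A, x ∈ A' → x ∈ I) :
    finrank F A + finrank F A' ≤ finrank F C + finrank F I := by
  rw [← Submodule.finrank_sup_add_finrank_inf_eq]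
  exact add_le_add (Submodule.finrank_mono (sup_le h h'))
    (Submodule.finrank_mono fun x hx => hI x hx.1 hx.2)

theorem mono {A C : Submodule F Ω} (h : ∀ x ∈ A, x ∈ C) : finrank F A ≤ finrank F C :=
  Submodule.finrank_mono h

theorem monoR {A C : Submodule F Ω} (h : ∀ x ∈ A, x ∈ C) : dm A ≤ dm C :=
  Nat.cast_le.2 (mono h)

theorem sub2R {A A' C I : Submodule F Ω} (h : ∀ x ∈ A, x ∈ C) (h' : ∀ x ∈ A', x ∈ C)
    (hI : ∀ x ∈ A, x ∈ A' → x ∈ I) : dm A + dm A' ≤ dm C + dm I := by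
  unfold dm
  exact_mod_cast sub2 h h' hI

theorem c3R (hB : Symp B n) {L1 L2 L3 : Submodule F Ω} (h1 : Lag B L1) (h2 : Lag B L2)
    (h3 : Lag B L3) : dm (L1 ⊓ L2) + dm (L1 ⊓ L3) + dm (L2 ⊓ L3) ≤ n + 2 * dm (L1 ⊓ L2 ⊓ L3) := by
  unfold dm
  exact_mod_cast c3 hB h1 h2 h3

omit [FiniteDimensional F Ω] in
theorem dm_nonneg (A : Submodule F Ω) : 0 ≤ dm A := Nat.cast_nonneg _

omit [FiniteDimensional F Ω] in
theorem dm_bot : dm (⊥ : Submodule F Ω) = 0 := by simp [dm]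

/-- sum of squares of the three pairwise dimensions -/
noncomputable def SqL (L1 L2 L3 : Submodule F Ω) : ℝ :=
  Sq (dm (L1 ⊓ L2)) (dm (L1 ⊓ L3)) (dm (L2 ⊓ L3))

/-- potential of a triangle -/
noncomputable def PotL (n : ℝ) (L1 L2 L3 : Submodule F Ω) : ℝ :=
  Pot n (dm (L1 ⊓ L2)) (dm (L1 ⊓ L3)) (dm (L2 ⊓ L3)) (dm (L1 ⊓ L2 ⊓ L3))

omit [FiniteDimensional F Ω] in
theorem SqL_swap (L1 L2 L3 : Submodule F Ω) : SqL L1 L2 L3 = SqL L2 L1 L3 := by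
  simp only [SqL, Sq, inf_comm L1 L2]; ring

omit [FiniteDimensional F Ω] in
theorem PotL_swap (n : ℝ) (L1 L2 L3 : Submodule F Ω) : PotL n L1 L2 L3 = PotL n L2 L1 L3 := by
  simp only [PotL, Pot, inf_comm L1 L2]; ring

theorem endL (hn : 10 ^ 7 ≤ n) (L1 L2 L3 : Submodule F Ω) : ∃ s, 0 ≤ s ∧ SqL L1 L2 L3 ≤ 3 * s ∧
    8 * (PotL n L1 L2 L3 + GamL n L1 L2 L3) ≤ -s + 12 * (SqL L1 L2 L3 / 10 ^ 7) :=
  endR (by exact_mod_cast hn) (dm_nonneg _) (monoR fun _ h => h.1) (monoR fun _ h => ⟨h.1.1, h.2⟩)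

theorem almL (hB : Symp B n) (hn : 10 ^ 7 ≤ n) {L1 L2 L3 I : Submodule F Ω} (h1 : Lag B L1)
    (h2 : Lag B L2) (h3 : Lag B L3) (hI : ∀ x ∈ I, x ∈ L1 ⊓ L2 ⊓ L3) :
    2 * (dm (L1 ⊓ L2 ⊓ L3) - dm I) * (1 - 2 * (n - dm (L1 ⊓ L2) - dm (L1 ⊓ L3) - dm (L2 ⊓ L3) +
      2 * dm (L1 ⊓ L2 ⊓ L3))) ≤ 6 * (SqL L1 L2 L3 / 10 ^ 7) :=
  alm _ _ _ _ _ _ hn (c3 hB h1 h2 h3) (mono fun _ h => h.1) (mono fun _ h => ⟨h.1.1, h.2⟩)
    (mono fun _ h => ⟨h.1.2, h.2⟩) (mono hI)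

theorem stepL (hB : Symp B n) (hn : 10 ^ 7 ≤ n) {x b c y : Submodule F Ω} (hx : Lag B x)
    (hb : Lag B b) (hc : Lag B c) (hy : Lag B y) :
    ∃ s, 0 ≤ s ∧ SqL x y b ≤ 5 * SqL x b c + 2 * s ∧ SqL x y c ≤ 5 * SqL x b c + 2 * s ∧
      SqL y b c ≤ 5 * SqL x b c + 2 * s ∧
      8 * (ExL n x b c y - Tn n + GamL n x y b + GamL n x y c + PotL n x b c - PotL n y b c) ≤
        -s + 6 * (SqL x b c / 10 ^ 7) + 6 * (SqL y b c / 10 ^ 7) + 12 * (SqL x y b / 10 ^ 7) +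
        12 * (SqL x y c / 10 ^ 7) := by
  have m3 := c3R hB hx hy hb
  have m4 := c3R hB hx hy hc
  have m1 := almL (I := y ⊓ x ⊓ b ⊓ c) hB hn hx hb hc fun _ h => ⟨⟨h.1.1.2, h.1.2⟩, h.2⟩
  have m2 := almL (I := y ⊓ x ⊓ b ⊓ c) hB hn hy hb hc fun _ h => ⟨⟨h.1.1.1, h.1.2⟩, h.2⟩
  simp only [SqL, PotL, GamL, ExL, inf_comm x y] at *
  refine stepR (by exact_mod_cast hn) (dm_nonneg _) (monoR ?_) (monoR ?_) (monoR ?_) (monoR ?_)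
    (sub2R ?_ ?_ ?_) (sub2R ?_ ?_ ?_) (sub2R ?_ ?_ ?_) (sub2R ?_ ?_ ?_) (sub2R ?_ ?_ ?_)
    m3 m4 m1 m2 <;> simp only [Submodule.mem_inf] <;> tauto

theorem one_le {A : Submodule F Ω} (h : A ≠ ⊥) : 1 ≤ dm A ^ 2 := by
  have : 1 ≤ dm A := Nat.one_le_cast.2 (Submodule.one_le_finrank_iff.2 h)
  nlinarith

end Arith

open Arith

variable {F Ω : Type} [Field F] [AddCommGroup Ω] [Module F Ω] [FiniteDimensional F Ω]
  {B : LinearMap.BilinForm F Ω} {n k : ℕ}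

theorem gam3L (hB : Symp B n) (hn : n = 2 * k) (hk : 1 ≤ k) {L1 L2 L3 w : Submodule F Ω}
    (h1 : Lag B L1) (h2 : Lag B L2) (h3 : Lag B L3) (hw : Lag B w)
    (e1 : finrank F ↥(w ⊓ L1) = k) (e2 : finrank F ↥(w ⊓ L2) = k)
    (e3 : finrank F ↥(w ⊓ L3) = k) :
    ExL n L1 L2 L3 w - Tn n + 3 * Tn k ≤ GamL n L1 L2 L3 := by
  have a1 := c3 hB hw h1 h2
  have a2 := c3 hB hw h1 h3
  have a3 := c3 hB hw h2 h3
  have a4 := c3 hB h1 h2 h3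
  subst hn
  simp only [ExL, GamL, dm, e1, e2, e3]
  refine gam3N _ _ _ _ _ _ _ _ _ hk a4 (mono ?_) (mono ?_) (mono ?_) (mono ?_) (by omega)
    (by omega) (by omega) (sub2 ?_ ?_ ?_) (sub2 ?_ ?_ ?_) (sub2 ?_ ?_ ?_) <;>
    simp only [Submodule.mem_inf] <;> tauto

theorem gam2L (hB : Symp B n) (hn : n = 2 * k) {L1 L2 L3 w : Submodule F Ω}
    (h1 : Lag B L1) (h2 : Lag B L2) (hw : Lag B w)
    (e1 : finrank F ↥(w ⊓ L1) = k) (e2 : finrank F ↥(w ⊓ L2) = k) (e3 : w ⊓ L3 = ⊥) :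
    ExL n L1 L2 L3 w - Tn n + 2 * Tn k ≤ (dm (L1 ⊓ L2) ^ 2 + 2 * dm (L1 ⊓ L2)) / 8 := by
  have a1 := c3 hB hw h1 h2
  have z : ∀ A : Submodule F Ω, w ⊓ A ⊓ L3 = ⊥ := fun A => by
    rw [inf_right_comm, e3, bot_inf_eq]
  have z' : w ⊓ L1 ⊓ L2 ⊓ L3 = ⊥ := by rw [inf_assoc w, z]
  have H := (edge (finrank F ↥(w ⊓ L1 ⊓ L2)) (finrank F ↥(L1 ⊓ L2)) (by omega) (by omega)).2
    (by omega)
  have H' := (Int.cast_le (R := ℝ)).2 H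
  subst hn
  simp only [ExL, z, z', e3, dm_bot, Ex, pr, Tn]
  simp only [dm, e1, e2]
  push_cast at H' ⊢
  linarith

theorem gam_ge (hB : Symp B n) {L1 L2 L3 : Submodule F Ω}
    (h1 : Lag B L1) (h2 : Lag B L2) (h3 : Lag B L3) :
    0 ≤ GamL n L1 L2 L3 ∧
    (dm (L1 ⊓ L2) ^ 2 + 2 * dm (L1 ⊓ L2)) / 8 ≤ GamL n L1 L2 L3 ∧
    (dm (L1 ⊓ L3) ^ 2 + 2 * dm (L1 ⊓ L3)) / 8 ≤ GamL n L1 L2 L3 ∧
    (dm (L2 ⊓ L3) ^ 2 + 2 * dm (L2 ⊓ L3)) / 8 ≤ GamL n L1 L2 L3 := by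
  have H : ∀ j : ℝ, _ → (j ^ 2 + 2 * j) / 8 ≤ GamL n L1 L2 L3 := fun j =>
    gamR (Nat.cast_nonneg n) (c3R hB h1 h2 h3) (dm_nonneg _) (monoR fun _ h => h.1)
      (monoR fun _ h => ⟨h.1.1, h.2⟩) (monoR fun _ h => ⟨h.1.2, h.2⟩)
  refine ⟨le_trans ?_ (H _ (.inl rfl)), H _ (by simp), H _ (by simp), H _ (by simp)⟩
  have := dm_nonneg (L1 ⊓ L2 ⊓ L3)
  positivity

theorem theta (hB : Symp B n) (hn : 10 ^ 7 ≤ n) (L : Fin 8 → Submodule F Ω) (L0 : Submodule F Ω)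
    (hL : ∀ v, Lag B (L v)) (ht : ∀ v, L v ⊓ L0 = ⊥)
    (hdeg : ∃ P, L (eu P) ⊓ L (ev P) ≠ ⊥) :
    ∑ f, GamL n (L (fv f 0)) (L (fv f 1)) (L (fv f 2)) +
      ∑ v, (ExL n ((rf v 0).elim L0 L) ((rf v 1).elim L0 L) ((rf v 2).elim L0 L) (L v) - Tn n)
      ≤ -1 / 10 ^ 6 := by
  have hS : 1 ≤ ∑ f, SqL (L (fv f 0)) (L (fv f 1)) (L (fv f 2)) := by
    obtain ⟨P, hP⟩ := hdeg
    have key : ∀ P : Fin 18, ∃ f : Fin 12, ∃ a b : Fin 3,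
        (a = 0 ∧ b = 1 ∨ a = 0 ∧ b = 2 ∨ a = 1 ∧ b = 2) ∧ ((fv f a = eu P ∧ fv f b = ev P) ∨ (fv f a = ev P ∧ fv f b = eu P)) := by decide
    obtain ⟨f, a, b, hab, h⟩ := key P
    have h1 : 1 ≤ dm (L (fv f a) ⊓ L (fv f b)) ^ 2 := by
      rcases h with ⟨h1, h2⟩ | ⟨h1, h2⟩ <;> rw [h1, h2]
      exacts [one_le hP, one_le (inf_comm (L (eu P)) _ ▸ hP)]
    refine le_trans ?_ (Finset.single_le_sum (f := fun f => SqL (L (fv f 0)) (L (fv f 1))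
      (L (fv f 2))) (fun f _ => by unfold SqL Sq; positivity) (Finset.mem_univ f))
    have := sq_nonneg (dm (L (fv f 0) ⊓ L (fv f 1)))
    have := sq_nonneg (dm (L (fv f 0) ⊓ L (fv f 2)))
    have := sq_nonneg (dm (L (fv f 1) ⊓ L (fv f 2)))
    unfold SqL Sq
    rcases hab with ⟨rfl, rfl⟩ | ⟨rfl, rfl⟩ | ⟨rfl, rfl⟩ <;> linarith
  have z1 : ∀ v (A : Submodule F Ω), L v ⊓ A ⊓ L0 = ⊥ := fun v A => by
    rw [inf_right_comm, ht, bot_inf_eq]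
  have z2 : ∀ v w (A : Submodule F Ω), L v ⊓ L w ⊓ A ⊓ L0 = ⊥ := fun v w A => by
    rw [inf_assoc (L v), z1]
  have v0 : ExL n L0 L0 L0 (L 0) - Tn n + (ExL n (L 0) L0 L0 (L 1) - Tn n) +
      (ExL n (L 0) (L 1) L0 (L 2) - Tn n) = 2 * PotL n (L 0) (L 1) (L 2) := by
    have : L 2 ⊓ L 0 ⊓ L 1 = L 0 ⊓ L 1 ⊓ L 2 := by rw [inf_assoc, inf_comm]
    simp only [ExL, PotL, ht, z1, z2, bot_inf_eq, dm_bot, this, inf_comm (L 1) (L 0),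
      Ex, pr, Pot, Tn]
    rw [inf_comm (L 2) (L 0), inf_comm (L 2) (L 1)]
    ring
  obtain ⟨s0, p0, q0, r0⟩ := endL hn (L 0) (L 1) (L 2)
  obtain ⟨s6, p6, q6, r6⟩ := endL hn (L 7) (L 6) (L 2)
  obtain ⟨s1, p1, q1, q1', q1'', r1⟩ := stepL hB hn (hL 0) (hL 1) (hL 2) (hL 3)
  obtain ⟨s2, p2, q2, q2', q2'', r2⟩ := stepL hB hn (hL 3) (hL 1) (hL 2) (hL 4)
  obtain ⟨s3, p3, q3, q3', q3'', r3⟩ := stepL hB hn (hL 4) (hL 1) (hL 2) (hL 5)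
  obtain ⟨s4, p4, q4, q4', q4'', r4⟩ := stepL hB hn (hL 1) (hL 5) (hL 2) (hL 6)
  obtain ⟨s5, p5, q5, q5', q5'', r5⟩ := stepL hB hn (hL 5) (hL 6) (hL 2) (hL 7)
  have w1 := SqL_swap (L 1) (L 5) (L 2)
  have w2 := SqL_swap (L 5) (L 6) (L 2)
  have w3 := PotL_swap n (L 1) (L 5) (L 2)
  have w4 := PotL_swap n (L 5) (L 6) (L 2)
  have e1 : ∀ G : Fin 8 → Fin 8 → Fin 8 → ℝ, ∑ f, G (fv f 0) (fv f 1) (fv f 2) =
      G 0 1 2 + G 0 3 1 + G 0 3 2 + G 3 4 1 + G 3 4 2 + G 4 5 1 + G 4 5 2 + G 1 6 5 + G 1 6 2 +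
        G 5 7 6 + G 5 7 2 + G 7 6 2 := fun G => by
    simp only [Fin.sum_univ_succ, Fin.sum_univ_zero, add_zero, add_assoc]
    rfl
  have e2 : ∀ G : Option (Fin 8) → Option (Fin 8) → Option (Fin 8) → Fin 8 → ℝ,
      ∑ v, G (rf v 0) (rf v 1) (rf v 2) v = G none none none 0 + G (some 0) none none 1 +
        G (some 0) (some 1) none 2 + G (some 0) (some 1) (some 2) 3 +
        G (some 3) (some 1) (some 2) 4 + G (some 4) (some 1) (some 2) 5 +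
        G (some 1) (some 5) (some 2) 6 + G (some 5) (some 6) (some 2) 7 := fun G => by
    rw [Fin.sum_univ_eight]
    rfl
  rw [e1 fun a b c => SqL (L a) (L b) (L c)] at hS
  rw [e1 fun a b c => GamL n (L a) (L b) (L c),
    e2 fun a b c v => ExL n (a.elim L0 L) (b.elim L0 L) (c.elim L0 L) (L v) - Tn n]
  simp only [Option.elim]
  linarith

end P050
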