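import Vale.Agent.P050.Defs

namespace P050.Av
open Finset

variable {α β : Type} [Fintype α] [Fintype β]

theorem mono {f g : α → ℝ} (h : ∀ x, f x ≤ g x) : av f ≤ av g :=
  div_le_div_of_nonneg_right (sum_le_sum fun x _ => h x) (Nat.cast_nonneg _)

theorem nonneg {f : α → ℝ} (h : ∀ x, 0 ≤ f x) : 0 ≤ av f :=
  div_nonneg (sum_nonneg fun x _ => h x) (Nat.cast_nonneg _)

theorem const [Nonempty α] (c : ℝ) : av (fun _ : α => c) = c := by
  have : (Fintype.card α : ℝ) ≠ 0 := by positivity
  simp only [av, sum_const, card_univ, nsmul_eq_mul]; field_simp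

theorem add (f g : α → ℝ) : av (fun x => f x + g x) = av f + av g := by
  simp only [av, sum_add_distrib, add_div]

theorem mul_left (c : ℝ) (f : α → ℝ) : av (fun x => c * f x) = c * av f := by
  simp only [av, ← mul_sum, mul_div_assoc]

theorem equiv (e : α ≃ β) (f : β → ℝ) : av (fun x => f (e x)) = av f := by
  simp only [av, Equiv.sum_comp e f, Fintype.card_congr e]

theorem prod (f : α × β → ℝ) : av f = av fun a => av fun b => f (a, b) := by
  simp only [av, Fintype.sum_prod_type, Fintype.card_prod, ← sum_div, div_div, Nat.cast_mul,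
    mul_comm]

theorem comm (f : α → β → ℝ) : (av fun a => av fun b => f a b) = av fun b => av fun a => f a b := by
  simp only [av, ← sum_div, div_div, mul_comm]
  rw [sum_comm]

theorem abs_le (f : α → ℝ) : |av f| ≤ av fun x => |f x| := by
  unfold av
  rw [abs_div, Nat.abs_cast]
  exact div_le_div_of_nonneg_right (abs_sum_le_sum_abs _ _) (Nat.cast_nonneg _)

theorem le_const [Nonempty α] {f : α → ℝ} {c : ℝ} (h : ∀ x, f x ≤ c) : av f ≤ c :=
  (mono h).trans (const c).le

theorem shift [AddGroup α] [Nonempty β] (f : α → ℝ) (φ : β → α) :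
    av f = av fun x => av fun t => f (x + φ t) := by
  rw [comm]
  have : ∀ t, (av fun x => f (x + φ t)) = av f := fun t => equiv (Equiv.addRight (φ t)) f
  simp only [this, const]

theorem sq_le (f : α → ℝ) : av f ^ 2 ≤ av fun x => f x ^ 2 := by
  rcases isEmpty_or_nonempty α with h | h
  · simp [av]
  have hc : (0 : ℝ) < Fintype.card α := by positivity
  have := sq_sum_le_card_mul_sum_sq (s := univ) (f := f)
  rw [card_univ] at this
  unfold av
  rw [div_pow, div_le_div_iff₀ (by positivity) hc]
  nlinarith [mul_le_mul_of_nonneg_right this hc.le]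

end P050.Av
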