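import Mathlib

namespace P050
open Module

/-- average over a finite type -/
noncomputable def av {α : Type} [Fintype α] (f : α → ℝ) : ℝ :=
  (∑ x, f x) / (Fintype.card α : ℝ)

/-! ### exponents -/

noncomputable def Tn (x : ℝ) : ℝ := x * (x + 1) / 2

noncomputable def pr (n j x y c i : ℝ) : ℝ :=
  (c - i) * (j - 2 * i - (3 * (c - i) - 1) / 2 - (n - x - y))

noncomputable def Ex (n k1 k2 k3 j12 j13 j23 a c12 c13 c23 i : ℝ) : ℝ :=
  Tn n - Tn k1 - Tn k2 - Tn k3 + i * (a - 2 * i + 1 + k1 + k2 + k3 - n)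
    + pr n j12 k1 k2 c12 i + pr n j13 k1 k3 c13 i + pr n j23 k2 k3 c23 i

noncomputable def Gam (n j12 j13 j23 a : ℝ) : ℝ :=
  (4 * a * (n - j12 - j13 - j23 + 2 * a) + 2 * a ^ 2 + 2 * a + 2 * a * (j12 + j13 + j23 - 3 * a)
    + 2 * a * (min (min j12 j13) j23 - a) + ((j12 - a) ^ 2 + (j13 - a) ^ 2 + (j23 - a) ^ 2)
    + 2 * (j12 + j13 + j23 - 3 * a) + 12 * (j12 ^ 2 + j13 ^ 2 + j23 ^ 2) / n) / 8

/-! ### symplectic spaces -/

section Sp
variable {F Ω : Type} [Field F] [AddCommGroup Ω] [Module F Ω]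

noncomputable def dm (A : Submodule F Ω) : ℝ := (finrank F A : ℝ)

def Lag (B : LinearMap.BilinForm F Ω) (L : Submodule F Ω) : Prop := B.orthogonal L = L

structure Symp (B : LinearMap.BilinForm F Ω) (n : ℕ) : Prop where
  nd : B.Nondegenerate
  alt : B.IsAlt
  dim : finrank F Ω = 2 * n

noncomputable def ExL (n : ℝ) (L1 L2 L3 w : Submodule F Ω) : ℝ :=
  Ex n (dm (w ⊓ L1)) (dm (w ⊓ L2)) (dm (w ⊓ L3)) (dm (L1 ⊓ L2)) (dm (L1 ⊓ L3)) (dm (L2 ⊓ L3))
    (dm (L1 ⊓ L2 ⊓ L3)) (dm (w ⊓ L1 ⊓ L2)) (dm (w ⊓ L1 ⊓ L3)) (dm (w ⊓ L2 ⊓ L3))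
    (dm (w ⊓ L1 ⊓ L2 ⊓ L3))

noncomputable def GamL (n : ℝ) (L1 L2 L3 : Submodule F Ω) : ℝ :=
  Gam n (dm (L1 ⊓ L2)) (dm (L1 ⊓ L3)) (dm (L2 ⊓ L3)) (dm (L1 ⊓ L2 ⊓ L3))

end Sp

/-- `q / (q - 1)` -/
noncomputable def th (q : ℝ) : ℝ := q / (q - 1)

/-! ### the triangulated sphere `K` : 8 vertices, 12 faces, 18 edges -/

def fv : Fin 12 → Fin 3 → Fin 8 :=
  ![![0, 1, 2], ![0, 3, 1], ![0, 3, 2], ![3, 4, 1], ![3, 4, 2], ![4, 5, 1], ![4, 5, 2],
    ![1, 6, 5], ![1, 6, 2], ![5, 7, 6], ![5, 7, 2], ![7, 6, 2]]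

/-- index of the edge of face `f` opposite to corner `r` -/
def fe : Fin 12 → Fin 3 → Fin 18 :=
  ![![0, 1, 2], ![3, 2, 4], ![5, 1, 4], ![6, 3, 7], ![8, 5, 7], ![9, 6, 10], ![11, 8, 10],
    ![12, 9, 13], ![14, 0, 13], ![15, 12, 16], ![17, 11, 16], ![14, 17, 15]]

/-- the two pairs (face, opposite corner) of an edge -/
def pf : Fin 18 → Fin 2 → Fin 12 × Fin 3 :=
  ![![(0, 0), (8, 1)], ![(0, 1), (2, 1)], ![(0, 2), (1, 1)], ![(1, 0), (3, 1)], ![(1, 2), (2, 2)],
    ![(2, 0), (4, 1)], ![(3, 0), (5, 1)], ![(3, 2), (4, 2)], ![(4, 0), (6, 1)], ![(5, 0), (7, 1)],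
    ![(5, 2), (6, 2)], ![(6, 0), (10, 1)], ![(7, 0), (9, 1)], ![(7, 2), (8, 2)],
    ![(8, 0), (11, 0)], ![(9, 0), (11, 2)], ![(9, 2), (10, 2)], ![(10, 0), (11, 1)]]

def eu : Fin 18 → Fin 8 := ![1, 0, 0, 1, 0, 2, 1, 3, 2, 1, 4, 2, 5, 1, 2, 6, 5, 2]
def ev : Fin 18 → Fin 8 := ![2, 2, 1, 3, 3, 3, 4, 4, 4, 5, 5, 5, 6, 6, 6, 7, 7, 7]

/-- earlier neighbours of a vertex of `K` (`none` stands for the vertical Lagrangian) -/
def rf : Fin 8 → Fin 3 → Option (Fin 8) :=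
  ![![none, none, none], ![some 0, none, none], ![some 0, some 1, none],
    ![some 0, some 1, some 2], ![some 3, some 1, some 2], ![some 4, some 1, some 2],
    ![some 1, some 5, some 2], ![some 5, some 6, some 2]]

/-- vertices of `H`, also the labels -/
abbrev VH : Type := Fin 8 ⊕ Fin 12

abbrev Pat : Type := Fin 12 → Fin 3 → SignType

/-- product of the two signs of face `e.1` at the corners other than `e.2` -/
noncomputable def ps (ε : Pat) (e : Fin 12 × Fin 3) : ℝ :=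
  (ε e.1 (e.2 + 1) : ℝ) * (ε e.1 (e.2 + 2) : ℝ)

noncomputable def mm (ε : Pat) : ℝ := ∏ P : Fin 18, (1 + ps ε (pf P 0) * ps ε (pf P 1))

/-- density of `H` with edge kernels `W (ε f t)` -/
noncomputable def tL {Z : Type} [Fintype Z] [DecidableEq Z] (W : SignType → Z → Z → ℝ)
    (ε : Pat) : ℝ :=
  av fun z : VH → Z => ∏ f, ∏ t, W (ε f t) (z (.inl (fv f t))) (z (.inr f))

/-- density of `H` in the kernel `U` -/
noncomputable def tH {Y : Type} [Fintype Y] [DecidableEq Y] (U : Y → Y → ℝ) : ℝ :=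
  av fun z : VH → Y => ∏ f, ∏ t, U (z (.inl (fv f t))) (z (.inr f))

/-- what one geometric layer provides -/
structure Good {Z : Type} [Fintype Z] [DecidableEq Z] (W : SignType → Z → Z → ℝ) (γ : ℝ) :
    Prop where
  zero : ∀ x y, W 0 x y = 1
  nonneg : ∀ s x y, 0 ≤ W s x y
  symm : ∀ s x y, W s x y = W s y x
  mean : ∀ s, av (fun p : Z × Z => W s p.1 p.2) = 1
  bound : ∀ ε, tL W ε ≤ mm ε + γ

/-- the vertex-face incidence graph of `K` -/
def HG : SimpleGraph VH :=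
  SimpleGraph.fromRel fun a b => ∃ f t, a = .inl (fv f t) ∧ b = .inr f

/-! ### symmetric matrices -/

abbrev Sy (F ι : Type) : Type := Sym2 ι → F

abbrev II (k : ℕ) : Type := Fin k ⊕ Fin k

def sg (b : Bool) : SignType := if b then 1 else -1

section Geo
variable {F : Type} [Field F] [Fintype F] [DecidableEq F]

def mat {ι : Type} (X : Sy F ι) : Matrix ι ι F := Matrix.of fun i j => X s(i, j)

noncomputable def gg {ι : Type} [Fintype ι] [DecidableEq ι] (X : Sy F ι) : ℝ :=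
  ((quadraticChar F (mat X).det : ℤ) : ℝ)

open Classical in
noncomputable def RR (F : Type) [Field F] [Fintype F] [DecidableEq F] (k : ℕ) (s : SignType) :
    Finset (Sy F (II k)) :=
  Finset.univ.filter fun A => ∃ (Bm : Sy F (Fin k)) (C : Matrix (Fin k) (Fin k) F),
    gg Bm = (s : ℝ) ∧ mat A = (Matrix.fromCols 1 C).transpose * mat Bm * Matrix.fromCols 1 C

noncomputable def VV (k : ℕ) (s : SignType) (D : Sy F (II k)) : ℝ :=
  if s = 0 then 1 else
    if D ∈ RR F k s then (Fintype.card (Sy F (II k)) : ℝ) / ((RR F k s).card : ℝ) else 0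

abbrev ZZ (F : Type) (k : ℕ) : Type := Sy F (II k) × Bool

noncomputable def WW (k : ℕ) (s : SignType) (x y : ZZ F k) : ℝ :=
  VV k (s * sg x.2 * sg y.2) (x.1 - y.1)

/-- face kernel -/
noncomputable def FK (k : ℕ) (s : Fin 3 → SignType) (X : Fin 3 → Sy F (II k)) : ℝ :=
  av fun y : ZZ F k => ∏ t, VV k (s t * sg y.2) (X t - y.1)

abbrev Om (F ι : Type) : Type := (ι → F) × (ι → F)

/-- the standard symplectic form -/
noncomputable def Bf (F ι : Type) [Field F] [Fintype ι] : LinearMap.BilinForm F (Om F ι) :=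
  LinearMap.mk₂ F (fun x y => x.1 ⬝ᵥ y.2 - y.1 ⬝ᵥ x.2)
    (fun x x' y => by simp [add_dotProduct, dotProduct_add]; ring)
    (fun c x y => by simp [smul_dotProduct, dotProduct_smul]; ring)
    (fun x y y' => by simp [add_dotProduct, dotProduct_add]; ring)
    (fun c x y => by simp [smul_dotProduct, dotProduct_smul]; ring)

/-- graph of a symmetric matrix -/
noncomputable def gr {ι : Type} [Fintype ι] (X : Sy F ι) : Submodule F (Om F ι) :=
  LinearMap.graph (mat X).mulVecLin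

/-- the vertical Lagrangian -/
def Linf (F ι : Type) [Field F] : Submodule F (Om F ι) := Submodule.snd F (ι → F) (ι → F)

/-- the sharp constant of the generic face bound -/
noncomputable def lam (k : ℕ) (q : ℝ) : ℝ := th q ^ (3 * k) / (1 - 2 * k / q) ^ 3

end Geo

/-! ### the label gadget -/

def cor (i : Fin 8) (g : Fin 12) : Option (Fin 3) :=
  if fv g 0 = i then some 0 else if fv g 1 = i then some 1 else if fv g 2 = i then some 2 else none

/-- the edge of `H` (face, corner) spanned by two labels, if any -/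
def ed : VH → VH → Option (Fin 12 × Fin 3)
  | .inl i, .inr g => (cor i g).map fun t => (g, t)
  | .inr g, .inl i => (cor i g).map fun t => (g, t)
  | _, _ => none

abbrev Comp : Type := Option (Bool × (Fin 3 → Bool))

/-- sign pattern over the 8 layers of a component -/
def pat (o : Option (Fin 12 × Fin 3)) (cp : Comp) (c : Fin 8) : SignType :=
  match o, cp with
  | some e, some bs =>
      match cor c e.1 with
      | some r => if bs.1 = true ∨ r ≠ e.2 then sg (bs.2 r) else 0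
      | none => 0
  | _, _ => 0

noncomputable def eta (e : Fin 12 × Fin 3) : ℝ := if e = (0, 0) then -1 else 1

/-- weight of a component; `p e` is the activation probability of the label pair `e` -/
noncomputable def wt (p : Fin 12 × Fin 3 → ℝ) (o : Option (Fin 12 × Fin 3)) (cp : Comp) : ℝ :=
  match o, cp with
  | none, none => 1
  | none, some _ => 0
  | some e, none => 1 - p e
  | some e, some bs =>
      p e / 16 * (1 + (sg bs.1 : ℝ) * eta e * (sg (bs.2 (e.2 + 1)) : ℝ) * (sg (bs.2 (e.2 + 2)) : ℝ))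

/-- label pair on the edge `(f, t)` of `H` under the labelling `ψ` -/
def le (ψ : VH → VH) (f : Fin 12) (t : Fin 3) : Option (Fin 12 × Fin 3) :=
  ed (ψ (.inl (fv f t))) (ψ (.inr f))

/-- main term for the labelling `ψ` -/
noncomputable def ZM (p : Fin 12 × Fin 3 → ℝ) (ψ : VH → VH) : ℝ :=
  ∑ cp : Fin 12 → Fin 3 → Comp, (∏ f, ∏ t, wt p (le ψ f t) (cp f t)) *
    ∏ c : Fin 8, mm fun f t => pat (le ψ f t) (cp f t) c

def lamV : VH → ℕ
  | .inl i => 200 + ![22, 81, 108, 40, 47, 61, 41, 0] i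
  | .inr g => ![1, 5, 4, 3, 2, 2, 1, 2, 0, 7, 4, 5] g

def lamE (e : Fin 12 × Fin 3) : ℕ :=
  ![![20, 5, 0], ![18, 13, 4], ![18, 13, 1], ![13, 12, 5], ![14, 12, 1], ![12, 9, 5], ![12, 9, 2],
    ![4, 14, 9], ![5, 15, 1], ![8, 22, 12], ![9, 23, 2], ![23, 12, 2]] e.1 e.2

end P050
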