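import Vale.Agent.P050.Av

namespace P050
open Finset Matrix

variable {F : Type} [Field F] [Fintype F] [DecidableEq F] {ι : Type} [Fintype ι] [DecidableEq ι]

omit [Field F] [DecidableEq F] in
theorem card_Sy' : (Fintype.card (Sy F ι) : ℝ) = (Fintype.card F : ℝ) ^ Tn (Fintype.card ι) := by
  rw [Fintype.card_fun, Sym2.card, Nat.cast_pow, ← Real.rpow_natCast, Nat.cast_choose_two]
  congr 1
  unfold Tn; push_cast; ring

theorem card_Sy : (Fintype.card (Sy F ι) : ℝ) = (Fintype.card F : ℝ) ^ Tn (Fintype.card ι) :=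
  card_Sy'

namespace Det

def pm (S : Finset ι) (X : Sy F ι) : Matrix ι ι F :=
  Matrix.of fun a b => if a ∈ S ∧ b ∈ S then X s(a, b) else if a = b then 1 else 0

def ph (S : Finset ι) (X : Sy F ι) : F := (pm S X).det

omit [Fintype F] [DecidableEq F] in
theorem ph_insert {S : Finset ι} {i : ι} (hi : i ∉ S) (X : Sy F ι) (t : F) :
    ph (insert i S) (X + Pi.single s(i, i) t) = ph (insert i S) X + t * ph S X := by
  have e1 : pm (insert i S) (X + Pi.single s(i, i) t) =
      (pm (insert i S) X).updateRow i (pm (insert i S) X i + t • Pi.single i 1) := by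
    ext a b
    rw [updateRow_apply]
    by_cases ha : a = i
    · subst ha
      by_cases hb : b = a
      · subst hb; simp [pm]
      · simp [pm, Pi.single_apply, hb]
    · simp [pm, Pi.single_apply, ha]
  have e2 : pm S X = ((pm (insert i S) X).updateRow i (Pi.single i 1)).updateCol i
      (Pi.single i 1) := by
    ext a b
    rw [updateCol_apply, updateRow_apply]
    by_cases hb : b = i
    · subst hb; simp [pm, Pi.single_apply, hi]
    · by_cases ha : a = i
      · subst ha; simp [pm, Pi.single_apply, hi, hb, Ne.symm hb]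
      · simp [pm, ha, hb]
  have e3 : ∀ N : Matrix ι ι F, (N.updateCol i (Pi.single i 1)).det =
      (N.updateRow i (Pi.single i 1)).det := by
    intro N
    rw [← adjugate_apply, ← det_transpose, ← updateRow_transpose, ← adjugate_apply,
      ← adjugate_transpose, transpose_apply]
  unfold ph
  rw [e1, det_updateRow_add, det_updateRow_smul, updateRow_eq_self, e2, e3]
  congr 3
  ext a b
  simp only [updateRow_apply]
  split_ifs <;> rfl

omit [Fintype F] [DecidableEq F] in
theorem ph_univ (X : Sy F ι) : ph univ X = (mat X).det := by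
  unfold ph; congr 1; ext a b; simp [pm, mat]

omit [Fintype F] [DecidableEq F] in
theorem det_shift (i : ι) (X : Sy F ι) (t : F) :
    (mat (X + Pi.single s(i, i) t)).det = (mat X).det + t * ph (univ.erase i) X := by
  have := ph_insert (notMem_erase i univ) X t
  rwa [insert_erase (mem_univ i), ph_univ, ph_univ] at this

theorem ph_le (S : Finset ι) : av (fun X : Sy F ι => if ph S X = 0 then (1 : ℝ) else 0)
    ≤ (S.card : ℝ) / Fintype.card F := by
  induction S using Finset.induction_on with
  | empty =>
    have : ∀ X : Sy F ι, ph ∅ X = 1 := fun X => by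
      have : pm ∅ X = 1 := by ext a b; simp [pm, one_apply]
      rw [ph, this, det_one]
    simp [this, av]
  | insert i S hi ih =>
    rw [Av.shift _ (fun t : F => Pi.single s(i, i) t), card_insert_of_notMem hi]
    have hq : (0 : ℝ) < Fintype.card F := by positivity
    have : ∀ X : Sy F ι, (av fun t : F =>
        if ph (insert i S) (X + Pi.single s(i, i) t) = 0 then (1 : ℝ) else 0) ≤
          (if ph S X = 0 then (1 : ℝ) else 0) + 1 / Fintype.card F := by
      intro X
      split_ifs with h
      · have h1 : (0 : ℝ) ≤ 1 / Fintype.card F := by positivity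
        exact (Av.le_const fun t => by split_ifs <;> norm_num).trans (le_add_of_nonneg_right h1)
      · rw [zero_add, av]
        refine div_le_div_of_nonneg_right ?_ hq.le
        rw [sum_boole]
        norm_cast
        rw [card_le_one]
        intro a ha b hb
        have ha' := (mem_filter.1 ha).2
        have hb' := (mem_filter.1 hb).2
        rw [ph_insert hi] at ha' hb'
        exact mul_right_cancel₀ h (by linear_combination ha' - hb')
    refine (Av.mono this).trans ?_
    rw [Av.add, Av.const]
    push_cast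
    rw [add_div]
    linarith

/-- the real valued quadratic character -/
noncomputable def ch (x : F) : ℝ := ((quadraticChar F x : ℤ) : ℝ)

theorem ch_abs (x : F) : |ch x| ≤ 1 := by
  unfold ch
  by_cases h : x = 0
  · simp [h]
  · rcases quadraticChar_dichotomy h with h | h <;> rw [h] <;> simp

theorem ch_mul (x y : F) : ch (x * y) = ch x * ch y := by
  unfold ch; rw [map_mul]; push_cast; rfl

theorem ch_sum (hc : ringChar F ≠ 2) : ∑ x : F, ch x = 0 := by
  unfold ch; exact_mod_cast quadraticChar_sum_zero hc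

theorem sum_aff (f : F → ℝ) {a : F} (ha : a ≠ 0) (b : F) : ∑ t : F, f (b + t * a) = ∑ x, f x :=
  Equiv.sum_comp ((Equiv.mulRight₀ a ha).trans (Equiv.addLeft b)) f

theorem ch_corr (hc : ringChar F ≠ 2) {d : F} (hd : d ≠ 0) : ∑ u : F, ch u * ch (u + d) = -1 := by
  have h1 : ∀ u : F, ch u * ch (u + d) = ch (1 + u⁻¹ * d) - if u = 0 then 1 else 0 := by
    intro u
    split_ifs with h
    · simp [h, ch]
    · have e : u * (u + d) = u ^ 2 * (1 + u⁻¹ * d) := by field_simp
      have e2 : ch (u ^ 2) = 1 := by unfold ch; rw [quadraticChar_sq_one' h]; simp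
      rw [← ch_mul, e, ch_mul, e2]; ring
  simp only [h1, sum_sub_distrib, sum_ite_eq', mem_univ, if_true]
  have h2 : ∑ x : F, ch (1 + x⁻¹ * d) = ∑ x : F, ch (1 + x * d) :=
    Equiv.sum_comp (Equiv.inv F) (fun v => ch (1 + v * d))
  rw [h2, sum_aff ch hd, ch_sum hc]
  ring

theorem paley (hc : ringChar F ≠ 2) (f h : F → ℝ) (hf : ∀ x, |f x| ≤ 1) (hh : ∀ x, |h x| ≤ 1)
    {a : F} (ha : a ≠ 0) (b : F) :
    |av fun p : F × F => f p.1 * ch (b + (p.1 - p.2) * a) * h p.2| ≤
      √(2 / (Fintype.card F : ℝ)) := by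
  have hq : (0 : ℝ) < Fintype.card F := by positivity
  refine Real.le_sqrt_of_sq_le ?_
  rw [sq_abs, Av.prod]
  refine (Av.sq_le _).trans ?_
  have h1 : ∀ t : F, (av fun t' => f t * ch (b + (t - t') * a) * h t') ^ 2 ≤
      (∑ t', ∑ t'', h t' * h t'' * (ch (b + (t - t') * a) * ch (b + (t - t'') * a))) /
        (Fintype.card F : ℝ) ^ 2 := by
    intro t
    have e : (∑ t', ∑ t'', h t' * h t'' * (ch (b + (t - t') * a) * ch (b + (t - t'') * a))) =
        (∑ t', ch (b + (t - t') * a) * h t') ^ 2 := by
      rw [sq, sum_mul_sum]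
      exact sum_congr rfl fun _ _ => sum_congr rfl fun _ _ => by ring
    simp only [mul_assoc]
    rw [Av.mul_left, mul_pow, av, div_pow, ← e]
    simp only [mul_assoc]
    refine mul_le_of_le_one_left ?_ ((sq_le_one_iff_abs_le_one _).2 (hf t))
    simp only [← mul_assoc] at e ⊢
    rw [e]; positivity
  refine (Av.mono h1).trans ?_
  rw [av, ← sum_div, sum_comm, div_div, div_le_div_iff₀ (by positivity) hq]
  have h2 : ∀ t' : F, ∑ t, ∑ t'', h t' * h t'' * (ch (b + (t - t') * a) * ch (b + (t - t'') * a))
      ≤ 2 * Fintype.card F := by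
    intro t'
    rw [sum_comm]
    have h3 : ∀ t'' : F, ∑ t, h t' * h t'' * (ch (b + (t - t') * a) * ch (b + (t - t'') * a)) ≤
        1 + if t'' = t' then (Fintype.card F : ℝ) else 0 := by
      intro t''
      have hab : |h t' * h t''| ≤ 1 := by
        rw [abs_mul]; exact mul_le_one₀ (hh _) (abs_nonneg _) (hh _)
      split_ifs with ht
      · have : ∑ t, h t' * h t'' * (ch (b + (t - t') * a) * ch (b + (t - t'') * a)) ≤
            ∑ _t : F, (1 : ℝ) := sum_le_sum fun t _ => by
          refine (le_abs_self _).trans ?_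
          rw [abs_mul, abs_mul (ch _)]
          exact mul_le_one₀ hab (by positivity) (mul_le_one₀ (ch_abs _) (abs_nonneg _) (ch_abs _))
        simp only [sum_const, card_univ, nsmul_eq_mul, mul_one] at this
        linarith
      · have hd : (t' - t'') * a ≠ 0 := mul_ne_zero (sub_ne_zero.2 (Ne.symm ht)) ha
        have := sum_aff (fun u => ch u * ch (u + (t' - t'') * a)) ha (b - t' * a)
        rw [ch_corr hc hd] at this
        rw [← mul_sum, sum_congr rfl (g := fun t => ch (b - t' * a + t * a) *
          ch (b - t' * a + t * a + (t' - t'') * a)) (fun t _ => by congr 2 <;> ring), this]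
        have := neg_abs_le (h t' * h t'')
        linarith
    refine (sum_le_sum fun t'' _ => h3 t'').trans (le_of_eq ?_)
    simp only [sum_add_distrib, sum_const, card_univ, nsmul_eq_mul, mul_one, sum_ite_eq',
      mem_univ, if_true]
    ring
  have h4 := sum_le_sum fun t' (_ : t' ∈ (univ : Finset F)) => h2 t'
  simp only [sum_const, card_univ, nsmul_eq_mul] at h4
  nlinarith [mul_le_mul_of_nonneg_right h4 hq.le]

theorem erase_le (i : ι) : av (fun X : Sy F ι => if ph (univ.erase i) X = 0 then (1 : ℝ) else 0)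
    ≤ (Fintype.card ι : ℝ) / Fintype.card F := by
  refine (ph_le _).trans (div_le_div_of_nonneg_right ?_ (Nat.cast_nonneg _))
  exact_mod_cast card_le_univ _

end Det
open Det

theorem sing_le : av (fun X : Sy F ι => if (mat X).det = 0 then (1 : ℝ) else 0)
    ≤ (Fintype.card ι : ℝ) / Fintype.card F := by
  simpa only [ph_univ, card_univ] using ph_le (F := F) (univ : Finset ι)

theorem gg_mean (hc : ringChar F ≠ 2) [Nonempty ι] :
    |av (fun X : Sy F ι => gg X)| ≤ (Fintype.card ι : ℝ) / Fintype.card F := by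
  obtain ⟨i⟩ := ‹Nonempty ι›
  rw [Av.shift _ (fun t : F => Pi.single s(i, i) t)]
  refine (Av.abs_le _).trans (le_trans (Av.mono fun X => ?_) (erase_le i))
  split_ifs with h
  · exact (Av.abs_le _).trans (Av.le_const fun t => ch_abs _)
  · have : ∑ t : F, gg (X + Pi.single s(i, i) t) = 0 := by
      rw [← ch_sum hc, ← sum_aff ch h (mat X).det]
      exact sum_congr rfl fun t _ => by rw [← det_shift]; rfl
    rw [av, this]; simp

theorem qr (hc : ringChar F ≠ 2) [Nonempty ι] (f h : Sy F ι → ℝ) (hf : ∀ x, |f x| ≤ 1)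
    (hh : ∀ x, |h x| ≤ 1) :
    |av (fun p : Sy F ι × Sy F ι => f p.1 * gg (p.1 - p.2) * h p.2)|
      ≤ √(2 / (Fintype.card F : ℝ)) + (Fintype.card ι : ℝ) / Fintype.card F := by
  obtain ⟨i⟩ := ‹Nonempty ι›
  rw [Av.shift _ (fun t : F × F =>
    ((Pi.single s(i, i) t.1, Pi.single s(i, i) t.2) : Sy F ι × Sy F ι))]
  have h1 : ∀ p : Sy F ι × Sy F ι, |av fun t : F × F =>
      f (p.1 + Pi.single s(i, i) t.1) *
        gg (p.1 + Pi.single s(i, i) t.1 - (p.2 + Pi.single s(i, i) t.2)) *
          h (p.2 + Pi.single s(i, i) t.2)| ≤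
      √(2 / (Fintype.card F : ℝ)) + if ph (univ.erase i) (p.1 - p.2) = 0 then (1 : ℝ) else 0 := by
    intro p
    split_ifs with h0
    · refine le_add_of_nonneg_of_le (Real.sqrt_nonneg _)
        ((Av.abs_le _).trans (Av.le_const fun t => ?_))
      rw [abs_mul, abs_mul]
      exact mul_le_one₀ (mul_le_one₀ (hf _) (abs_nonneg _) (ch_abs _)) (abs_nonneg _) (hh _)
    · rw [add_zero]
      refine le_trans (le_of_eq ?_) (paley hc (fun t => f (p.1 + Pi.single s(i, i) t))
        (fun t => h (p.2 + Pi.single s(i, i) t)) (fun _ => hf _) (fun _ => hh _) h0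
        (mat (p.1 - p.2)).det)
      congr 2
      ext t
      rw [← det_shift, Pi.single_sub, add_sub_add_comm]
      rfl
  refine (Av.abs_le _).trans ((Av.mono h1).trans ?_)
  rw [Av.add, Av.const, Av.prod]
  refine add_le_add le_rfl (Av.le_const fun x => ?_)
  exact le_trans (le_of_eq (Av.equiv (Equiv.subLeft x)
    fun X : Sy F ι => if ph (univ.erase i) X = 0 then (1 : ℝ) else 0)) (erase_le i)

end P050
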