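import Vale.Agent.P050.Defs

namespace P050
open Module Submodule

variable {F Ω : Type} [Field F] [AddCommGroup Ω] [Module F Ω] [FiniteDimensional F Ω]
  {B : LinearMap.BilinForm F Ω} {n : ℕ}

omit [FiniteDimensional F Ω] in
theorem orth_sup (A C : Submodule F Ω) :
    B.orthogonal (A ⊔ C) = B.orthogonal A ⊓ B.orthogonal C := by
  apply le_antisymm
  · exact le_inf (LinearMap.BilinForm.orthogonal_le le_sup_left)
      (LinearMap.BilinForm.orthogonal_le le_sup_right)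
  · rintro x ⟨h1, h2⟩ y hy
    obtain ⟨a, ha, c, hc, rfl⟩ := mem_sup.1 hy
    have e1 : B a x = 0 := h1 a ha
    have e2 : B c x = 0 := h2 c hc
    show B (a + c) x = 0
    rw [map_add, LinearMap.add_apply, e1, e2, add_zero]

theorem orth_orth (hB : Symp B n) (A : Submodule F Ω) : B.orthogonal (B.orthogonal A) = A :=
  LinearMap.BilinForm.orthogonal_orthogonal hB.nd hB.alt.isRefl A

theorem orth_inf (hB : Symp B n) (A C : Submodule F Ω) :
    B.orthogonal (A ⊓ C) = B.orthogonal A ⊔ B.orthogonal C := by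
  conv_lhs => rw [← orth_orth hB A, ← orth_orth hB C, ← orth_sup]
  rw [orth_orth hB]

theorem rk_orth (hB : Symp B n) (A : Submodule F Ω) :
    finrank F (B.orthogonal A) + finrank F A = 2 * n := by
  have h1 := LinearMap.BilinForm.finrank_orthogonal hB.nd A
  have h2 := finrank_le A
  rw [hB.dim] at h1 h2
  omega

theorem Lag.rk (hB : Symp B n) {L : Submodule F Ω} (hL : Lag B L) : finrank F L = n := by
  have h := rk_orth hB L
  rw [show B.orthogonal L = L from hL] at h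
  omega

omit [FiniteDimensional F Ω] in
theorem Lag.iso {L : Submodule F Ω} (hL : Lag B L) {x y : Ω} (hx : x ∈ L) (hy : y ∈ L) :
    B x y = 0 := by
  have : y ∈ B.orthogonal L := by rw [show B.orthogonal L = L from hL]; exact hy
  exact this x hx

theorem rk_inf_orth (hB : Symp B n) {w : Submodule F Ω} (hw : Lag B w) (A : Submodule F Ω) :
    finrank F ↥(w ⊓ B.orthogonal A) + finrank F A = n + finrank F ↥(w ⊓ A) := by
  have h1 := rk_orth hB (w ⊔ A)
  rw [orth_sup, show B.orthogonal w = w from hw] at h1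
  have h2 := finrank_sup_add_finrank_inf_eq w A
  have h3 := hw.rk hB
  omega

theorem rk_inf_sup (hB : Symp B n) {w L1 L2 : Submodule F Ω} (hw : Lag B w) (h1 : Lag B L1)
    (h2 : Lag B L2) :
    finrank F ↥(w ⊓ (L1 ⊔ L2)) + finrank F ↥(L1 ⊓ L2) = n + finrank F ↥(w ⊓ L1 ⊓ L2) := by
  have h := rk_inf_orth hB hw (L1 ⊓ L2)
  rw [orth_inf hB, show B.orthogonal L1 = L1 from h1, show B.orthogonal L2 = L2 from h2,
    ← inf_assoc] at h
  exact h

theorem c3 (hB : Symp B n) {L1 L2 L3 : Submodule F Ω} (h1 : Lag B L1) (h2 : Lag B L2)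
    (h3 : Lag B L3) :
    finrank F ↥(L1 ⊓ L2) + finrank F ↥(L1 ⊓ L3) + finrank F ↥(L2 ⊓ L3)
      ≤ n + 2 * finrank F ↥(L1 ⊓ L2 ⊓ L3) := by
  have e1 := rk_inf_sup hB h1 h2 h3
  have e2 := finrank_sup_add_finrank_inf_eq (L1 ⊓ L2) (L1 ⊓ L3)
  have e3 : finrank F ↥((L1 ⊓ L2) ⊔ (L1 ⊓ L3)) ≤ finrank F ↥(L1 ⊓ (L2 ⊔ L3)) :=
    finrank_mono (le_inf (sup_le inf_le_left inf_le_left)
      (sup_le (inf_le_right.trans le_sup_left) (inf_le_right.trans le_sup_right)))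
  have e4 : L1 ⊓ L2 ⊓ (L1 ⊓ L3) = L1 ⊓ L2 ⊓ L3 := by
    rw [← inf_assoc, inf_right_comm L1 L2 L1, inf_idem]
  rw [e4] at e2
  omega

/-- the Lagrangian obtained from `L` by forcing the vector `u` in -/
def mv (B : LinearMap.BilinForm F Ω) (L : Submodule F Ω) (u : Ω) : Submodule F Ω :=
  L ⊓ B.orthogonal (span F {u}) ⊔ span F {u}

omit [FiniteDimensional F Ω] in
theorem mem_orth_span {u x : Ω} : x ∈ B.orthogonal (span F {u}) ↔ B u x = 0 := by
  constructor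
  · intro h; exact h u (mem_span_singleton_self u)
  · intro h y hy
    obtain ⟨c, rfl⟩ := mem_span_singleton.1 hy
    show B (c • u) x = 0
    rw [map_smul, LinearMap.smul_apply, h, smul_zero]

theorem mv_lag (hB : Symp B n) {L : Submodule F Ω} (hL : Lag B L) (u : Ω) : Lag B (mv B L u) := by
  have hu : span F {u} ≤ B.orthogonal (span F {u}) := by
    rw [span_singleton_le_iff_mem, mem_orth_span]; exact hB.alt u
  unfold Lag mv
  rw [orth_sup, orth_inf hB, orth_orth hB, show B.orthogonal L = L from hL, sup_comm L,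
    sup_inf_assoc_of_le _ hu, sup_comm]

omit [FiniteDimensional F Ω] in
theorem inf_mv {A L : Submodule F Ω} {u : Ω} (hu : u ∈ A) (hA : ∀ x ∈ A, B u x = 0) :
    A ⊓ mv B L u = A ⊓ L ⊔ span F {u} := by
  have h1 : span F {u} ≤ A := (span_singleton_le_iff_mem _ _).2 hu
  have h2 : A ≤ B.orthogonal (span F {u}) := fun x hx => mem_orth_span.2 (hA x hx)
  unfold mv
  rw [← inf_sup_assoc_of_le _ h1, inf_comm L, ← inf_assoc, inf_eq_left.2 h2]

theorem rk_inf_mv {A L : Submodule F Ω} {u : Ω} (hu : u ∈ A) (hA : ∀ x ∈ A, B u x = 0)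
    (hL : u ∉ L) : finrank F ↥(A ⊓ mv B L u) = finrank F ↥(A ⊓ L) + 1 := by
  rw [inf_mv hu hA]
  exact finrank_sup_span_singleton fun h => hL h.2

omit [FiniteDimensional F Ω] in
theorem le_mv {S L : Submodule F Ω} {u : Ω} (hS : S ≤ L) (hu : ∀ x ∈ S, B u x = 0) :
    S ≤ mv B L u := fun x hx =>
  mem_sup_left ⟨hS hx, mem_orth_span.2 (hu x hx)⟩

omit [FiniteDimensional F Ω] in
theorem self_mem_mv (L : Submodule F Ω) (u : Ω) : u ∈ mv B L u :=
  mem_sup_right (mem_span_singleton_self u)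

omit [FiniteDimensional F Ω] in
theorem mem_mv {L : Submodule F Ω} {u x : Ω} (hx : x ∈ L) (h : B u x = 0) : x ∈ mv B L u :=
  mem_sup_left ⟨hx, mem_orth_span.2 h⟩

theorem rk_map_ker {V V' : Type} [AddCommGroup V] [Module F V] [FiniteDimensional F V]
    [AddCommGroup V'] [Module F V'] (f : V →ₗ[F] V') (P : Submodule F V) :
    finrank F ↥(P.map f) + finrank F ↥(P ⊓ LinearMap.ker f) = finrank F P := by
  have h := (f.domRestrict P).finrank_range_add_finrank_ker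
  rw [LinearMap.range_domRestrict, LinearMap.ker_domRestrict,
    ← finrank_map_subtype_eq P (comap P.subtype (LinearMap.ker f)), map_comap_subtype] at h
  exact h

/-- pairs `(x, y)` in `A1 × A2` with `x + y` in `A3` -/
def Rel (A1 A2 A3 : Submodule F Ω) : Submodule F (Ω × Ω) :=
  A1.prod A2 ⊓ A3.comap (LinearMap.fst F Ω Ω + LinearMap.snd F Ω Ω)

omit [FiniteDimensional F Ω] in
theorem mem_Rel {A1 A2 A3 : Submodule F Ω} {x : Ω × Ω} :
    x ∈ Rel A1 A2 A3 ↔ x.1 ∈ A1 ∧ x.2 ∈ A2 ∧ x.1 + x.2 ∈ A3 := by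
  simp [Rel, and_assoc]

theorem rk_Rel (A1 A2 A3 : Submodule F Ω) :
    finrank F (Rel A1 A2 A3) = finrank F ↥(A1 ⊓ A2) + finrank F ↥((A1 ⊔ A2) ⊓ A3) := by
  have h := rk_map_ker (LinearMap.fst F Ω Ω + LinearMap.snd F Ω Ω) (Rel A1 A2 A3)
  have e1 : (Rel A1 A2 A3).map (LinearMap.fst F Ω Ω + LinearMap.snd F Ω Ω) = (A1 ⊔ A2) ⊓ A3 := by
    ext z
    simp only [mem_map, mem_Rel, mem_inf, mem_sup, LinearMap.add_apply, LinearMap.fst_apply,
      LinearMap.snd_apply]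
    constructor
    · rintro ⟨x, ⟨h1, h2, h3⟩, rfl⟩
      exact ⟨⟨_, h1, _, h2, rfl⟩, h3⟩
    · rintro ⟨⟨a, ha, b, hb, rfl⟩, h3⟩
      exact ⟨(a, b), ⟨ha, hb, h3⟩, rfl⟩
  have h' := rk_map_ker (LinearMap.fst F Ω Ω)
    (Rel A1 A2 A3 ⊓ LinearMap.ker (LinearMap.fst F Ω Ω + LinearMap.snd F Ω Ω))
  have e2 : (Rel A1 A2 A3 ⊓ LinearMap.ker (LinearMap.fst F Ω Ω + LinearMap.snd F Ω Ω)).map
      (LinearMap.fst F Ω Ω) = A1 ⊓ A2 := by
    ext z
    simp only [mem_map, mem_Rel, mem_inf, LinearMap.mem_ker, LinearMap.add_apply,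
      LinearMap.fst_apply, LinearMap.snd_apply]
    constructor
    · rintro ⟨x, ⟨⟨h1, h2, -⟩, h4⟩, rfl⟩
      refine ⟨h1, ?_⟩
      rw [eq_neg_of_add_eq_zero_left h4]; exact neg_mem h2
    · rintro ⟨h1, h2⟩
      exact ⟨(z, -z), ⟨⟨h1, neg_mem h2, by simp⟩, by simp⟩, rfl⟩
  have e3 : Rel A1 A2 A3 ⊓ LinearMap.ker (LinearMap.fst F Ω Ω + LinearMap.snd F Ω Ω) ⊓
      LinearMap.ker (LinearMap.fst F Ω Ω) = ⊥ := by
    rw [eq_bot_iff]
    rintro ⟨a, b⟩ ⟨⟨-, h2⟩, h3⟩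
    have h3' : a = 0 := h3
    have h2' : a + b = 0 := h2
    subst h3'
    rw [zero_add] at h2'
    subst h2'
    exact zero_mem _
  rw [e1] at h
  rw [e2, e3, finrank_bot] at h'
  omega

theorem rk_Rel_lag (hB : Symp B n) {L1 L2 L3 : Submodule F Ω} (h1 : Lag B L1) (h2 : Lag B L2)
    (h3 : Lag B L3) : finrank F (Rel L1 L2 L3) = n + finrank F ↥(L1 ⊓ L2 ⊓ L3) := by
  have e := rk_inf_sup hB h3 h1 h2
  rw [rk_Rel, inf_comm (L1 ⊔ L2)]
  rw [inf_assoc, inf_comm L3 (L1 ⊓ L2)] at e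
  omega

omit [FiniteDimensional F Ω] in
theorem Rel_symm (hB : Symp B n) {L1 L2 L3 : Submodule F Ω} (h1 : Lag B L1) (h2 : Lag B L2)
    (h3 : Lag B L3) {x y : Ω × Ω} (hx : x ∈ Rel L1 L2 L3) (hy : y ∈ Rel L1 L2 L3) :
    B x.1 y.2 = B y.1 x.2 := by
  rw [mem_Rel] at hx hy
  have e := h3.iso hx.2.2 hy.2.2
  simp only [map_add, LinearMap.add_apply, h1.iso hx.1 hy.1, h2.iso hx.2.1 hy.2.1] at e
  have e' := hB.alt.neg_eq y.1 x.2
  linear_combination e + e'

end P050
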