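import Vale.Agent.P050.Det
import Vale.Agent.P050.SpA

namespace P050
open Module Matrix Finset

variable {F : Type} [Field F] [Fintype F] [DecidableEq F] {ι : Type} [Fintype ι] [DecidableEq ι]
  {k : ℕ}

section alg
omit [Fintype F] [DecidableEq F]

omit [Fintype ι] [DecidableEq ι] [Field F] in
theorem mat_symm (X : Sy F ι) : (mat X)ᵀ = mat X := by
  ext i j; simp [mat, Sym2.eq_swap]

omit [Fintype ι] [DecidableEq ι] in
theorem mat_sub (X Y : Sy F ι) : mat (X - Y) = mat X - mat Y := rfl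

omit [Fintype ι] [DecidableEq ι] in
theorem mat_neg (X : Sy F ι) : mat (-X) = -mat X := rfl

omit [Fintype ι] [DecidableEq ι] [Field F] in
theorem mat_inj {X Y : Sy F ι} (h : mat X = mat Y) : X = Y := by
  funext z
  induction z using Sym2.ind with
  | _ i j => exact congrFun (congrFun h i) j

omit [DecidableEq ι] in
theorem Bf_apply (x y : Om F ι) : Bf F ι x y = x.1 ⬝ᵥ y.2 - y.1 ⬝ᵥ x.2 := rfl

omit [DecidableEq ι] in
theorem mem_gr {X : Sy F ι} {x : Om F ι} : x ∈ gr X ↔ x.2 = mat X *ᵥ x.1 :=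
  LinearMap.mem_graph_iff _ _

omit [DecidableEq ι] [Fintype ι] in
theorem mem_Linf {x : Om F ι} : x ∈ Linf F ι ↔ x.1 = 0 := by
  simp [Linf, Submodule.snd]

theorem Bf_symp : Symp (Bf F ι) (Fintype.card ι) := by
  have ha : (Bf F ι).IsAlt := fun x => by rw [Bf_apply, sub_self]
  refine ⟨ha.isRefl.nondegenerate_iff_separatingLeft.2 fun x hx => ?_, ha, ?_⟩
  · ext i
    · simpa [Bf_apply] using hx (0, Pi.single i 1)
    · simpa [Bf_apply] using hx (Pi.single i 1, 0)
  · rw [finrank_prod, finrank_fintype_fun_eq_card]; ring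

theorem gr_lag (X : Sy F ι) : Lag (Bf F ι) (gr X) := by
  have key : ∀ v y : ι → F, y ⬝ᵥ mat X *ᵥ v = v ⬝ᵥ mat X *ᵥ y := fun v y => by
    rw [dotProduct_mulVec, ← mulVec_transpose, mat_symm, dotProduct_comm]
  ext y
  rw [LinearMap.BilinForm.mem_orthogonal_iff, mem_gr]
  constructor
  · intro h
    ext i
    have := h (Pi.single i 1, mat X *ᵥ Pi.single i 1) (mem_gr.2 rfl)
    rw [Bf_apply, key] at this
    simpa [sub_eq_zero] using this
  · intro h x hx
    rw [Bf_apply, h, mem_gr.1 hx, key, sub_self]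

theorem Linf_lag : Lag (Bf F ι) (Linf F ι) := by
  ext y
  rw [LinearMap.BilinForm.mem_orthogonal_iff, mem_Linf]
  constructor
  · intro h
    ext i
    simpa [Bf_apply] using h (0, Pi.single i 1) (mem_Linf.2 rfl)
  · intro h x hx
    rw [Bf_apply, h, mem_Linf.1 hx]; simp

theorem gr_inj : Function.Injective (gr : Sy F ι → Submodule F (Om F ι)) := by
  intro X Y h
  apply mat_inj
  ext i j
  have : ((Pi.single j 1, mat X *ᵥ Pi.single j 1) : Om F ι) ∈ gr Y := h ▸ mem_gr.2 rfl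
  simpa using congrFun (mem_gr.1 this) i

theorem gr_inf_Linf (X : Sy F ι) : gr X ⊓ Linf F ι = ⊥ := by
  rw [eq_bot_iff]
  rintro ⟨a, b⟩ ⟨h1, h2⟩
  obtain rfl : a = 0 := mem_Linf.1 h2
  have : b = 0 := by simpa using mem_gr.1 h1
  subst this
  exact Submodule.zero_mem _

omit [DecidableEq ι] in
theorem rk_gr_inf (X Y : Sy F ι) :
    finrank F ↥(gr Y ⊓ gr X) = finrank F (LinearMap.ker (mat (X - Y)).mulVecLin) := by
  have h := rk_map_ker (LinearMap.fst F (ι → F) (ι → F)) (gr Y ⊓ gr X)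
  have e1 : (gr Y ⊓ gr X).map (LinearMap.fst F (ι → F) (ι → F)) =
      LinearMap.ker (mat (X - Y)).mulVecLin := by
    ext v
    simp only [Submodule.mem_map, Submodule.mem_inf, mem_gr, LinearMap.mem_ker,
      mulVecLin_apply, mat_sub, sub_mulVec, sub_eq_zero, LinearMap.fst_apply]
    constructor
    · rintro ⟨x, ⟨h1, h2⟩, rfl⟩; rw [← h1, ← h2]
    · intro h; exact ⟨(v, mat X *ᵥ v), ⟨h, rfl⟩, rfl⟩
  have e2 : gr Y ⊓ gr X ⊓ LinearMap.ker (LinearMap.fst F (ι → F) (ι → F)) = ⊥ := by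
    rw [eq_bot_iff]
    rintro ⟨a, b⟩ ⟨⟨h1, -⟩, h2⟩
    obtain rfl : a = 0 := h2
    have : b = 0 := by simpa using mem_gr.1 h1
    subst this
    exact Submodule.zero_mem _
  rw [e1, e2, finrank_bot, add_zero] at h
  exact h.symm

theorem gr_inf_bot (X Y : Sy F ι) : gr X ⊓ gr Y = ⊥ ↔ (mat (X - Y)).det ≠ 0 := by
  rw [inf_comm, ← Submodule.finrank_eq_zero, rk_gr_inf, Submodule.finrank_eq_zero, Ne,
    ← exists_mulVec_eq_zero_iff, Submodule.eq_bot_iff]
  simp only [LinearMap.mem_ker, mulVecLin_apply, not_exists, not_and]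
  exact forall_congr' fun v => by tauto

theorem cone_blocks (M C : Matrix (Fin k) (Fin k) F) :
    (fromCols 1 C)ᵀ * M * fromCols 1 C = fromBlocks M (M * C) (Cᵀ * M) (Cᵀ * M * C) := by
  rw [transpose_fromCols, fromRows_mul, fromRows_mul_fromCols]; simp

end alg

theorem gg_neg (D : Sy F (II k)) : gg (-D) = gg D := by
  unfold gg
  rw [mat_neg, det_neg, Even.neg_one_pow (by simp), one_mul]

theorem gg_abs (D : Sy F ι) : |gg D| ≤ 1 := Det.ch_abs _

theorem gg_sq (D : Sy F ι) (h : (mat D).det ≠ 0) : gg D = 1 ∨ gg D = -1 := by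
  unfold gg
  rcases quadraticChar_dichotomy h with h | h <;> rw [h] <;> simp

theorem mem_RR {s : SignType} {A : Sy F (II k)} : A ∈ RR F k s ↔
    ∃ (Bm : Sy F (Fin k)) (C : Matrix (Fin k) (Fin k) F),
      gg Bm = (s : ℝ) ∧ mat A = (fromCols 1 C)ᵀ * mat Bm * fromCols 1 C := by
  simp [RR]

theorem det_ne_of_gg {s : SignType} (hs : s ≠ 0) {Bm : Sy F ι} (h : gg Bm = (s : ℝ)) :
    (mat Bm).det ≠ 0 := by
  intro h0
  rw [gg, h0] at h
  rcases s with _ | _ | _ <;> simp at h hs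

theorem RR_dim {s : SignType} (hs : s ≠ 0) {X Y : Sy F (II k)} (h : X - Y ∈ RR F k s) :
    finrank F ↥(gr Y ⊓ gr X) = k := by
  obtain ⟨Bm, C, hB, hA⟩ := mem_RR.1 h
  have hd := det_ne_of_gg hs hB
  have e : LinearMap.ker (mat (X - Y)).mulVecLin =
      LinearMap.ker (fromCols (1 : Matrix (Fin k) (Fin k) F) C).mulVecLin := by
    ext v
    simp only [LinearMap.mem_ker, mulVecLin_apply, hA, ← mulVec_mulVec]
    constructor
    · intro h0
      by_contra hne
      apply hd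
      refine exists_mulVec_eq_zero_iff.1 ⟨_, hne, ?_⟩
      rw [transpose_fromCols, fromRows_mulVec, transpose_one, one_mulVec] at h0
      funext i
      exact congrFun h0 (Sum.inl i)
    · intro h0; rw [h0]; simp
  have e2 := (fromCols (1 : Matrix (Fin k) (Fin k) F) C).mulVecLin.finrank_range_add_finrank_ker
  have e3 : LinearMap.range (fromCols (1 : Matrix (Fin k) (Fin k) F) C).mulVecLin = ⊤ := by
    rw [LinearMap.range_eq_top]
    intro v
    exact ⟨Sum.elim v 0, by simp⟩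
  rw [e3, finrank_top, finrank_fintype_fun_eq_card, finrank_fintype_fun_eq_card] at e2
  rw [rk_gr_inf, e]
  simp only [Fintype.card_sum, Fintype.card_fin] at e2
  exact Nat.add_left_cancel e2

theorem RR_neg (hk : Even k) (s : SignType) (D : Sy F (II k)) :
    -D ∈ RR F k s ↔ D ∈ RR F k s := by
  have key : ∀ D : Sy F (II k), D ∈ RR F k s → -D ∈ RR F k s := by
    intro D h
    obtain ⟨Bm, C, hB, hA⟩ := mem_RR.1 h
    refine mem_RR.2 ⟨-Bm, C, ?_, by rw [mat_neg, mat_neg, hA]; simp⟩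
    rw [← hB]; unfold gg
    rw [mat_neg, det_neg, Even.neg_one_pow (by simpa using hk), one_mul]
  exact ⟨fun h => by simpa using key _ h, key D⟩

theorem RR_sign (hk : Even k) {s s' : SignType} {A A' : Sy F (II k)} (hA : A ∈ RR F k s)
    (hA' : A' ∈ RR F k s') (hd : (mat (A - A')).det ≠ 0) : gg (A - A') = (s : ℝ) * (s' : ℝ) := by
  obtain ⟨Bm, C, hB, e⟩ := mem_RR.1 hA
  obtain ⟨Bm', C', hB', e'⟩ := mem_RR.1 hA'
  set Q : Matrix (II k) (II k) F := fromRows (fromCols 1 C) (fromCols 1 C') with hQ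
  have e1 : mat (A - A') = Qᵀ * (fromBlocks (mat Bm) 0 0 (-mat Bm') * Q) := by
    rw [mat_sub, e, e', hQ, transpose_fromRows, fromBlocks_mul_fromRows, fromCols_mul_fromRows]
    simp [Matrix.mul_assoc, sub_eq_add_neg]
  have e2 : (mat (A - A')).det = Q.det ^ 2 * ((mat Bm).det * (mat Bm').det) := by
    rw [e1, det_mul, det_mul, det_transpose, det_fromBlocks_zero₂₁, det_neg,
      Even.neg_one_pow (by simpa using hk)]
    ring
  have hq : Q.det ≠ 0 := by
    intro h0; apply hd; rw [e2, h0]; simp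
  rw [← hB, ← hB']
  unfold gg
  rw [e2, map_mul, map_mul, quadraticChar_sq_one' hq]
  push_cast; ring

theorem RR_disj {s s' : SignType} {A : Sy F (II k)} (hA : A ∈ RR F k s) (hA' : A ∈ RR F k s') :
    s = s' := by
  obtain ⟨Bm, C, hB, e⟩ := mem_RR.1 hA
  obtain ⟨Bm', C', hB', e'⟩ := mem_RR.1 hA'
  rw [e, cone_blocks, cone_blocks] at e'
  obtain rfl := mat_inj (fromBlocks_inj.1 e').1
  rw [hB] at hB'
  rcases s with _ | _ | _ <;> rcases s' with _ | _ | _ <;> simp at hB' ⊢ <;> norm_num at hB'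

open Classical in
theorem card_gg (hc : ringChar F ≠ 2) [Nonempty ι] {s : SignType} (hs : s ≠ 0) :
    (Fintype.card F : ℝ) ^ Tn (Fintype.card ι) *
      (1 - 2 * Fintype.card ι / (Fintype.card F : ℝ)) / 2 ≤
        ((univ.filter fun Bm : Sy F ι => gg Bm = (s : ℝ)).card : ℝ) := by
  have h1 := sing_le (F := F) (ι := ι)
  have h2 := gg_mean (F := F) (ι := ι) hc
  have hs' : (s : ℝ) = 1 ∨ (s : ℝ) = -1 := by rcases s with _ | _ | _ <;> simp at hs ⊢
  have h3 : ∀ X : Sy F ι, (1 : ℝ) = (if (mat X).det = 0 then (1 : ℝ) else 0) +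
      (2 * (if gg X = (s : ℝ) then (1 : ℝ) else 0) + -(s : ℝ) * gg X) := by
    intro X
    by_cases h0 : (mat X).det = 0
    · have : gg X = 0 := by rw [gg, h0]; simp
      rcases hs' with h | h <;> simp [h0, this, h]
    · rcases gg_sq X h0 with h | h <;> rcases hs' with h' | h' <;> rw [h, h'] <;>
        norm_num [h0]
  have h4 : av (fun _ : Sy F ι => (1 : ℝ)) = 1 := Av.const 1
  rw [funext h3, Av.add, Av.add, Av.mul_left, Av.mul_left] at h4
  have h5 : av (fun X : Sy F ι => if gg X = (s : ℝ) then (1 : ℝ) else 0) =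
      ((univ.filter fun Bm : Sy F ι => gg Bm = (s : ℝ)).card : ℝ) /
        (Fintype.card F : ℝ) ^ Tn (Fintype.card ι) := by
    rw [av, sum_boole, card_Sy]
  have hp : (0 : ℝ) < (Fintype.card F : ℝ) ^ Tn (Fintype.card ι) := by positivity
  have h6 : -(s : ℝ) * av (fun X : Sy F ι => gg X) ≤ Fintype.card ι / (Fintype.card F : ℝ) := by
    have := abs_le.1 h2
    rcases hs' with h | h <;> rw [h] <;> linarith [this.1, this.2]
  rw [mul_div_assoc, mul_comm, ← le_div_iff₀ hp, ← h5, mul_div_assoc]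
  linarith

theorem RR_card (hc : ringChar F ≠ 2) (hk : 1 ≤ k) {s : SignType} (hs : s ≠ 0) :
    (Fintype.card F : ℝ) ^ ((k : ℝ) ^ 2 + Tn k) * (1 - 2 * k / (Fintype.card F : ℝ)) / 2
      ≤ ((RR F k s).card : ℝ) := by
  classical
  haveI : Nonempty (Fin k) := ⟨⟨0, hk⟩⟩
  have hq : (0 : ℝ) < Fintype.card F := by positivity
  have h1 := card_gg (F := F) (ι := Fin k) hc hs
  rw [Fintype.card_fin] at h1
  have hsy : ∀ p : Sy F (Fin k) × Matrix (Fin k) (Fin k) F,
      ((fromCols (1 : Matrix (Fin k) (Fin k) F) p.2)ᵀ * mat p.1 *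
        fromCols (1 : Matrix (Fin k) (Fin k) F) p.2)ᵀ =
        (fromCols (1 : Matrix (Fin k) (Fin k) F) p.2)ᵀ * mat p.1 *
          fromCols (1 : Matrix (Fin k) (Fin k) F) p.2 := fun p => by
    rw [transpose_mul, transpose_mul, transpose_transpose, mat_symm, Matrix.mul_assoc]
  let φ : Sy F (Fin k) × Matrix (Fin k) (Fin k) F → Sy F (II k) := fun p =>
    Sym2.lift ⟨fun i j => ((fromCols 1 p.2)ᵀ * mat p.1 * fromCols 1 p.2) i j, fun i j =>
      congrFun (congrFun (hsy p) j) i⟩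
  have hφ : ∀ p, mat (φ p) = (fromCols 1 p.2)ᵀ * mat p.1 * fromCols 1 p.2 := fun p => rfl
  have h2 : ((univ.filter fun Bm : Sy F (Fin k) => gg Bm = (s : ℝ)) ×ˢ
      (univ : Finset (Matrix (Fin k) (Fin k) F))).card ≤ (RR F k s).card := by
    apply card_le_card_of_injOn φ
    · intro p hp
      exact mem_coe.2 (mem_RR.2 ⟨p.1, p.2, (mem_filter.1 (mem_product.1 (mem_coe.1 hp)).1).2, hφ p⟩)
    · intro p hp p' _ e
      have e' := congrArg mat e
      rw [hφ, hφ, cone_blocks, cone_blocks] at e'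
      obtain ⟨a, b, -⟩ := fromBlocks_inj.1 e'
      have hd := det_ne_of_gg hs (mem_filter.1 (mem_product.1 (mem_coe.1 hp)).1).2
      rw [← a] at b
      haveI := (mat p.1).invertibleOfIsUnitDet (Ne.isUnit hd)
      exact Prod.ext (mat_inj a) (Matrix.mul_right_injective_of_invertible _ b)
  rw [card_product, card_univ] at h2
  have h3 : (Fintype.card (Matrix (Fin k) (Fin k) F) : ℝ) =
      (Fintype.card F : ℝ) ^ ((k : ℝ) ^ 2) := by
    rw [show Fintype.card (Matrix (Fin k) (Fin k) F) = Fintype.card (Fin k → Fin k → F) from rfl,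
      Fintype.card_fun, Fintype.card_fun, Fintype.card_fin, ← pow_mul, Nat.cast_pow,
      ← Real.rpow_natCast]
    congr 1; push_cast; ring
  have h4 : (((univ.filter fun Bm : Sy F (Fin k) => gg Bm = (s : ℝ)).card : ℝ)) *
      (Fintype.card F : ℝ) ^ ((k : ℝ) ^ 2) ≤ (RR F k s).card := by
    rw [← h3]; exact_mod_cast h2
  rw [Real.rpow_add hq]
  have hp : (0 : ℝ) ≤ (Fintype.card F : ℝ) ^ ((k : ℝ) ^ 2) := by positivity
  nlinarith [mul_le_mul_of_nonneg_right h1 hp]

theorem VV_nonneg (s : SignType) (D : Sy F (II k)) : 0 ≤ VV k s D := by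
  unfold VV; split_ifs <;> positivity

theorem rho_ge (hk : 1 ≤ k) (hq : 4 * k ≤ Fintype.card F) :
    (1 : ℝ) / 2 ≤ 1 - 2 * k / (Fintype.card F : ℝ) := by
  have h0 : (0 : ℝ) < Fintype.card F := by positivity
  have h1 : (4 * k : ℝ) ≤ Fintype.card F := by exact_mod_cast hq
  have : 2 * k / (Fintype.card F : ℝ) ≤ 1 / 2 := by rw [div_le_iff₀ h0]; linarith
  linarith

theorem VV_mean (hc : ringChar F ≠ 2) (hk : 1 ≤ k) (hq : 4 * k ≤ Fintype.card F) (s : SignType)
    (X : Sy F (II k)) : av (fun Y : Sy F (II k) => VV k s (X - Y)) = 1 := by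
  rw [show av (fun Y : Sy F (II k) => VV k s (X - Y)) = av (VV k s) from
    Av.equiv (Equiv.subLeft X) _]
  by_cases hs : s = 0
  · rw [show VV (F := F) k s = fun _ => 1 from funext fun _ => if_pos hs, Av.const]
  · have h1 := RR_card (F := F) hc hk hs
    have h2 := rho_ge hk hq
    have h3 : (0 : ℝ) < (RR F k s).card := lt_of_lt_of_le (by
      have : (0 : ℝ) < 1 - 2 * k / (Fintype.card F : ℝ) := by linarith
      positivity) h1
    have h4 : (0 : ℝ) < Fintype.card (Sy F (II k)) := by positivity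
    unfold av VV
    simp only [if_neg hs]
    rw [← sum_filter, filter_mem_eq_inter, univ_inter, sum_const, nsmul_eq_mul]
    field_simp

theorem WW_symm (hk : Even k) (s : SignType) (x y : ZZ F k) : WW k s x y = WW k s y x := by
  unfold WW VV
  rw [mul_right_comm, ← neg_sub y.1 x.1]
  simp only [RR_neg hk]

theorem WW_mean (hc : ringChar F ≠ 2) (hk : 1 ≤ k) (hq : 4 * k ≤ Fintype.card F) (s : SignType) :
    av (fun p : ZZ F k × ZZ F k => WW k s p.1 p.2) = 1 := by
  rw [Av.prod]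
  have : ∀ x : ZZ F k, (av fun y : ZZ F k => WW k s x y) = 1 := by
    intro x
    rw [Av.prod, Av.comm]
    simp only [WW, VV_mean hc hk hq, Av.const]
  simp only [this, Av.const]

end P050
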