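import Vale.Agent.P050.SpB
import Vale.Agent.P050.Arith
import Vale.Agent.P050.Geo

namespace P050
open Module Finset

variable {F : Type} [Field F] [Fintype F] [DecidableEq F] {k : ℕ}

theorem FK_nonneg (s : Fin 3 → SignType) (X : Fin 3 → Sy F (II k)) : 0 ≤ FK k s X :=
  Av.nonneg fun _ => prod_nonneg fun _ _ => VV_nonneg _ _

namespace Face

theorem sg_ne (b : Bool) : sg b ≠ 0 := by cases b <;> decide

theorem sg_sq (s s' : SignType) (b : Bool) :
    ((s * sg b : SignType) : ℝ) * ((s' * sg b : SignType) : ℝ) = (s : ℝ) * (s' : ℝ) := by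
  cases b <;> simp [sg]

theorem card_II : Fintype.card (II k) = 2 * k := by simp [two_mul]

theorem symp : Symp (Bf F (II k)) (2 * k) := card_II (k := k) ▸ Bf_symp

theorem card_N : (Fintype.card (Sy F (II k)) : ℝ) =
    (Fintype.card F : ℝ) ^ Tn ((2 * k : ℕ) : ℝ) := by rw [card_Sy, card_II]

noncomputable def cc (k : ℕ) (q : ℝ) : ℝ := 2 * q ^ Tn k / (1 - 2 * k / q)

theorem VV_le (hc : ringChar F ≠ 2) (hk : 1 ≤ k) (hq : 4 * k ≤ Fintype.card F) {s : SignType}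
    (hs : s ≠ 0) (D : Sy F (II k)) :
    VV k s D ≤ if D ∈ RR F k s then cc k (Fintype.card F) else 0 := by
  have hq0 : (0 : ℝ) < Fintype.card F := by positivity
  have h1 := RR_card (F := F) hc hk hs
  have h2 : (0 : ℝ) < 1 - 2 * k / (Fintype.card F : ℝ) := by linarith [rho_ge hk hq]
  unfold VV
  rw [if_neg hs]
  split_ifs
  · refine (div_le_div_of_nonneg_left (Nat.cast_nonneg _) (by positivity) h1).trans (le_of_eq ?_)
    rw [card_N, show Tn ((2 * k : ℕ) : ℝ) = ((k : ℝ) ^ 2 + Tn k) + Tn k by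
      unfold Tn; push_cast; ring, Real.rpow_add hq0 _ (Tn k), cc]
    field_simp
  · exact le_rfl

theorem core {s : SignType} (hs : s ≠ 0) (X : Sy F (II k)) (T : Finset (Sy F (II k))) (c : ℝ)
    (hc : 0 ≤ c) (G : ZZ F k → ℝ) (h1 : ∀ y, G y ≤ c)
    (h2 : ∀ y, 0 < G y → y.1 ∈ T ∧ X - y.1 ∈ RR F k (s * sg y.2)) :
    av G ≤ c * T.card / (2 * (Fintype.card F : ℝ) ^ Tn ((2 * k : ℕ) : ℝ)) := by
  unfold av
  rw [Fintype.card_prod, Fintype.card_bool, Nat.cast_mul, card_N, mul_comm _ ((2 : ℕ) : ℝ),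
    Nat.cast_ofNat]
  refine div_le_div_of_nonneg_right ?_ (by positivity)
  rw [Fintype.sum_prod_type]
  have : ∀ w, ∑ b, G (w, b) ≤ if w ∈ T then c else 0 := by
    intro w
    rw [Fintype.sum_bool]
    rcases le_or_gt (G (w, true)) 0 with a | a <;> rcases le_or_gt (G (w, false)) 0 with b | b
    · split_ifs <;> linarith
    · rw [if_pos (h2 _ b).1]; linarith [h1 (w, false)]
    · rw [if_pos (h2 _ a).1]; linarith [h1 (w, true)]
    · have := RR_disj (h2 _ a).2 (h2 _ b).2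
      dsimp only at this
      exfalso; revert this hs; rcases s with _ | _ | _ <;> decide
  refine (sum_le_sum fun w _ => this w).trans (le_of_eq ?_)
  rw [← sum_filter, filter_mem_eq_inter, univ_inter, sum_const, nsmul_eq_mul, mul_comm]

theorem cc_pos (hk : 1 ≤ k) (hq : 4 * k ≤ Fintype.card F) : 0 < cc k (Fintype.card F) := by
  have h2 : (0 : ℝ) < 1 - 2 * k / (Fintype.card F : ℝ) := by linarith [rho_ge hk hq]
  unfold cc; positivity

theorem VV_le' (hc : ringChar F ≠ 2) (hk : 1 ≤ k) (hq : 4 * k ≤ Fintype.card F) {s : SignType}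
    (hs : s ≠ 0) (D : Sy F (II k)) : VV k s D ≤ cc k (Fintype.card F) := by
  refine (VV_le hc hk hq hs D).trans ?_
  split_ifs
  · exact le_rfl
  · exact (cc_pos hk hq).le

theorem mem_of_ne {s : SignType} (hs : s ≠ 0) {D : Sy F (II k)} (h : VV k s D ≠ 0) :
    D ∈ RR F k s := by
  by_contra hn
  exact h (by rw [VV, if_neg hs, if_neg hn])

theorem K2 (hc : ringChar F ≠ 2) (hk : 1 ≤ k) (hq : 4 * k ≤ Fintype.card F) {s s' : SignType}
    (hs : s ≠ 0) (hs' : s' ≠ 0) (X X' : Sy F (II k)) (T : Finset (Sy F (II k)))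
    (hT : ∀ w b, X - w ∈ RR F k (s * sg b) → X' - w ∈ RR F k (s' * sg b) → w ∈ T) :
    av (fun y : ZZ F k => VV k (s * sg y.2) (X - y.1) * VV k (s' * sg y.2) (X' - y.1)) ≤
      cc k (Fintype.card F) ^ 2 * T.card / (2 * (Fintype.card F : ℝ) ^ Tn ((2 * k : ℕ) : ℝ)) := by
  refine core hs X T _ (by positivity) _ (fun y => ?_) fun y hy => ?_
  · rw [sq]
    exact mul_le_mul (VV_le' hc hk hq (mul_ne_zero hs (sg_ne _)) _)
      (VV_le' hc hk hq (mul_ne_zero hs' (sg_ne _)) _) (VV_nonneg _ _) (cc_pos hk hq).le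
  · have h := mul_ne_zero_iff.1 hy.ne'
    have a := mem_of_ne (mul_ne_zero hs (sg_ne _)) h.1
    exact ⟨hT _ _ a (mem_of_ne (mul_ne_zero hs' (sg_ne _)) h.2), a⟩

theorem K3 (hc : ringChar F ≠ 2) (hk : 1 ≤ k) (hq : 4 * k ≤ Fintype.card F)
    {s s' s'' : SignType} (hs : s ≠ 0) (hs' : s' ≠ 0) (hs'' : s'' ≠ 0) (X X' X'' : Sy F (II k))
    (T : Finset (Sy F (II k)))
    (hT : ∀ w b, X - w ∈ RR F k (s * sg b) → X' - w ∈ RR F k (s' * sg b) →
      X'' - w ∈ RR F k (s'' * sg b) → w ∈ T) :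
    av (fun y : ZZ F k => VV k (s * sg y.2) (X - y.1) * VV k (s' * sg y.2) (X' - y.1) *
      VV k (s'' * sg y.2) (X'' - y.1)) ≤
      cc k (Fintype.card F) ^ 3 * T.card / (2 * (Fintype.card F : ℝ) ^ Tn ((2 * k : ℕ) : ℝ)) := by
  have hp := (cc_pos hk hq).le
  refine core hs X T _ (by positivity) _ (fun y => ?_) fun y hy => ?_
  · rw [pow_succ, sq]
    exact mul_le_mul (mul_le_mul (VV_le' hc hk hq (mul_ne_zero hs (sg_ne _)) _)
      (VV_le' hc hk hq (mul_ne_zero hs' (sg_ne _)) _) (VV_nonneg _ _) hp)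
      (VV_le' hc hk hq (mul_ne_zero hs'' (sg_ne _)) _) (VV_nonneg _ _) (by positivity)
  · have h := mul_ne_zero_iff.1 hy.ne'
    have h' := mul_ne_zero_iff.1 h.1
    have a := mem_of_ne (mul_ne_zero hs (sg_ne _)) h'.1
    exact ⟨hT _ _ a (mem_of_ne (mul_ne_zero hs' (sg_ne _)) h'.2)
      (mem_of_ne (mul_ne_zero hs'' (sg_ne _)) h.2), a⟩

theorem K1 (hc : ringChar F ≠ 2) (hk : 1 ≤ k) (hq : 4 * k ≤ Fintype.card F) (s : SignType)
    (X : Sy F (II k)) : av (fun y : ZZ F k => VV k (s * sg y.2) (X - y.1)) = 1 := by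
  rw [Av.prod, Av.comm]
  simp only [VV_mean hc hk hq, Av.const]

theorem sign_of (hk : Even k) {s s' : SignType} {X X' w : Sy F (II k)} {b : Bool}
    (hd : (mat (X - X')).det ≠ 0) (h : X - w ∈ RR F k (s * sg b))
    (h' : X' - w ∈ RR F k (s' * sg b)) : gg (X - X') = (s : ℝ) * (s' : ℝ) := by
  have := RR_sign hk h h' (by rwa [sub_sub_sub_cancel_right])
  rwa [sub_sub_sub_cancel_right, sg_sq] at this

theorem card_img (T : Finset (Sy F (II k))) [DecidableEq (Submodule F (Om F (II k)))] :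
    (T.image gr).card = T.card := card_image_of_injective _ gr_inj

theorem cnt_deg (hc : ringChar F ≠ 2) {L1 L2 L3 : Submodule F (Om F (II k))}
    (h1 : Lag (Bf F (II k)) L1) (h2 : Lag (Bf F (II k)) L2) (h3 : Lag (Bf F (II k)) L3)
    (T : Finset (Sy F (II k))) (E : ℝ)
    (hT : ∀ w ∈ T, ExL ((2 * k : ℕ) : ℝ) L1 L2 L3 (gr w) ≤ E) :
    (T.card : ℝ) ≤ ((((2 * k : ℕ) : ℝ) + 1) ^ 7 * 5 ^ (2 * k)) * (Fintype.card F : ℝ) ^ E := by
  classical
  have hq := two_le_q (F := F)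
  have hq0 : (0 : ℝ) < Fintype.card F := by linarith
  have h := sum_bound symp hc h1 h2 h3 (T.image gr) fun w hw => by
    obtain ⟨x, -, rfl⟩ := mem_image.1 hw
    exact gr_lag x
  rw [sum_image fun x _ y _ e => gr_inj e] at h
  have h' : ∑ _w ∈ T, (Fintype.card F : ℝ) ^ (-E) ≤ _ := le_trans (sum_le_sum fun w hw =>
    Real.rpow_le_rpow_of_exponent_le (by linarith) (neg_le_neg (hT w hw))) h
  rwa [sum_const, nsmul_eq_mul, Real.rpow_neg hq0.le, ← div_eq_mul_inv,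
    div_le_iff₀ (by positivity)] at h'

theorem one_le_lam (hk : 1 ≤ k) (hq : 4 * k ≤ Fintype.card F) :
    th (Fintype.card F) ^ (2 * k) / (1 - 2 * k / (Fintype.card F : ℝ)) ^ 2 ≤
      lam k (Fintype.card F) ∧ 1 ≤ lam k (Fintype.card F) := by
  have hth := one_le_th (two_le_q (F := F))
  have h2 : (0 : ℝ) < 1 - 2 * k / (Fintype.card F : ℝ) := by linarith [rho_ge hk hq]
  have h3 : 1 - 2 * k / (Fintype.card F : ℝ) ≤ 1 := by
    have : (0 : ℝ) ≤ 2 * k / (Fintype.card F : ℝ) := by positivity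
    linarith
  unfold lam
  constructor
  · exact div_le_div₀ (by positivity) (pow_le_pow_right₀ hth (by omega)) (by positivity)
      (pow_le_pow_of_le_one h2.le h3 (by omega))
  · rw [le_div_iff₀ (by positivity), one_mul]
    exact (pow_le_one₀ h2.le h3).trans (one_le_pow₀ hth)

theorem sq_one {s : SignType} (hs : s ≠ 0) : (s : ℝ) * (s : ℝ) = 1 := by
  rcases s with _ | _ | _ <;> simp at hs ⊢

theorem fac_nonneg (s s' : SignType) (D : Sy F (II k)) : 0 ≤ 1 + (s : ℝ) * (s' : ℝ) * gg D := by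
  have := abs_le.1 (gg_abs D)
  rcases s with _ | _ | _ <;> rcases s' with _ | _ | _ <;> simp <;> linarith [this.1, this.2]

theorem fac_two {s s' : SignType} (hs : s ≠ 0) (hs' : s' ≠ 0) {g : ℝ} (h : g = (s : ℝ) * s') :
    1 + (s : ℝ) * (s' : ℝ) * g = 2 := by
  rw [h]
  have := sq_one hs
  have := sq_one hs'
  nlinarith

theorem K2_gen (hc : ringChar F ≠ 2) (hk : Even k) (hk1 : 1 ≤ k) (hq : 4 * k ≤ Fintype.card F)
    {s s' : SignType} (hs : s ≠ 0) (hs' : s' ≠ 0) (X X' : Sy F (II k))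
    (hd : (mat (X - X')).det ≠ 0) :
    av (fun y : ZZ F k => VV k (s * sg y.2) (X - y.1) * VV k (s' * sg y.2) (X' - y.1)) ≤
      lam k (Fintype.card F) * (1 + (s : ℝ) * (s' : ℝ) * gg (X - X')) := by
  classical
  have hq0 : (0 : ℝ) < Fintype.card F := by positivity
  have h2 : (0 : ℝ) < 1 - 2 * k / (Fintype.card F : ℝ) := by linarith [rho_ge hk1 hq]
  have hl := one_le_lam hk1 hq
  by_cases hg : gg (X - X') = (s : ℝ) * (s' : ℝ)
  · rw [fac_two hs hs' hg]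
    refine (K2 hc hk1 hq hs hs' X X' (univ.filter fun w => finrank F ↥(gr w ⊓ gr X) = k ∧
      finrank F ↥(gr w ⊓ gr X') = k) fun w b a a' => mem_filter.2 ⟨mem_univ _,
        RR_dim (mul_ne_zero hs (sg_ne _)) a, RR_dim (mul_ne_zero hs' (sg_ne _)) a'⟩).trans ?_
    have h := pair_sharp symp rfl hc (gr_lag X) (gr_lag X') Linf_lag ((gr_inf_bot _ _).2 hd)
      ((univ.filter fun w => finrank F ↥(gr w ⊓ gr X) = k ∧
        finrank F ↥(gr w ⊓ gr X') = k).image gr) fun w hw => by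
          obtain ⟨x, hx, rfl⟩ := mem_image.1 hw
          exact ⟨gr_lag x, (mem_filter.1 hx).2.1, (mem_filter.1 hx).2.2, gr_inf_Linf x⟩
    rw [card_img] at h
    refine (div_le_div_of_nonneg_right (mul_le_mul_of_nonneg_left h (by positivity))
      (by positivity)).trans (le_trans (le_of_eq ?_) (mul_le_mul_of_nonneg_right hl.1 zero_le_two))
    rw [show Tn ((2 * k : ℕ) : ℝ) = ((k : ℝ) ^ 2 + Tn k) + Tn k by
      unfold Tn; push_cast; ring, Real.rpow_add hq0, Real.rpow_add hq0, cc]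
    field_simp
  · refine (K2 hc hk1 hq hs hs' X X' ∅ fun w b a a' => absurd (sign_of hk hd a a') hg).trans ?_
    simp only [card_empty, Nat.cast_zero, mul_zero, zero_div]
    exact mul_nonneg (by linarith [hl.2]) (fac_nonneg _ _ _)

theorem num2 {a b C Y ρ : ℝ} (ha : 0 < a) (hb : 0 < b) (hC : 0 ≤ C) (hY : 0 ≤ Y) (h : 1 / 2 ≤ ρ) :
    (2 * a / ρ) ^ 2 * (C * (b * Y / (a * a))) / (2 * b) ≤ 64 * C * Y := by
  have hρ : 0 < ρ := by linarith
  rw [show (2 * a / ρ) ^ 2 * (C * (b * Y / (a * a))) / (2 * b) = 2 * (C * Y) / ρ ^ 2 by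
    field_simp, div_le_iff₀ (by positivity)]
  have : (1 / 2) ^ 2 ≤ ρ ^ 2 := pow_le_pow_left₀ (by norm_num) h 2
  nlinarith [mul_nonneg hC hY]

theorem num3 {a b C Y ρ : ℝ} (ha : 0 < a) (hb : 0 < b) (hC : 0 ≤ C) (hY : 0 ≤ Y) (h : 1 / 2 ≤ ρ) :
    (2 * a / ρ) ^ 3 * (C * (b * Y / (a * a * a))) / (2 * b) ≤ 64 * C * Y := by
  have hρ : 0 < ρ := by linarith
  rw [show (2 * a / ρ) ^ 3 * (C * (b * Y / (a * a * a))) / (2 * b) = 4 * (C * Y) / ρ ^ 3 by
    field_simp; ring, div_le_iff₀ (by positivity)]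
  have : (1 / 2) ^ 3 ≤ ρ ^ 3 := pow_le_pow_left₀ (by norm_num) h 3
  nlinarith [mul_nonneg hC hY]

theorem K2_deg (hc : ringChar F ≠ 2) (hk1 : 1 ≤ k) (hq : 4 * k ≤ Fintype.card F)
    {s s' : SignType} (hs : s ≠ 0) (hs' : s' ≠ 0) (X X' : Sy F (II k)) {G : ℝ}
    (hG : (dm (gr X ⊓ gr X') ^ 2 + 2 * dm (gr X ⊓ gr X')) / 8 ≤ G) :
    av (fun y : ZZ F k => VV k (s * sg y.2) (X - y.1) * VV k (s' * sg y.2) (X' - y.1)) ≤
      64 * ((((2 * k : ℕ) : ℝ) + 1) ^ 7 * 5 ^ (2 * k)) * (Fintype.card F : ℝ) ^ G := by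
  classical
  have hq0 : (0 : ℝ) < Fintype.card F := by positivity
  have h1 := rho_ge hk1 hq
  have h2 : (0 : ℝ) < 1 - 2 * k / (Fintype.card F : ℝ) := by linarith
  refine (K2 hc hk1 hq hs hs' X X' (univ.filter fun w => finrank F ↥(gr w ⊓ gr X) = k ∧
    finrank F ↥(gr w ⊓ gr X') = k) fun w b a a' => mem_filter.2 ⟨mem_univ _,
      RR_dim (mul_ne_zero hs (sg_ne _)) a, RR_dim (mul_ne_zero hs' (sg_ne _)) a'⟩).trans ?_
  have h := cnt_deg hc (gr_lag X) (gr_lag X') Linf_lag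
    (univ.filter fun w => finrank F ↥(gr w ⊓ gr X) = k ∧ finrank F ↥(gr w ⊓ gr X') = k)
    (Tn ((2 * k : ℕ) : ℝ) + G - (Tn k + Tn k)) fun w hw => by
      have := gam2L symp rfl (gr_lag X) (gr_lag X') (gr_lag w) (mem_filter.1 hw).2.1
        (mem_filter.1 hw).2.2 (gr_inf_Linf w)
      linarith
  refine (div_le_div_of_nonneg_right (mul_le_mul_of_nonneg_left h (by positivity))
    (by positivity)).trans ?_
  rw [Real.rpow_sub hq0, Real.rpow_add hq0, Real.rpow_add hq0, cc]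
  exact num2 (by positivity) (by positivity) (by positivity) (by positivity) h1

theorem K3_gen (hc : ringChar F ≠ 2) (hk : Even k) (hk1 : 1 ≤ k) (hq : 4 * k ≤ Fintype.card F)
    {s s' s'' : SignType} (hs : s ≠ 0) (hs' : s' ≠ 0) (hs'' : s'' ≠ 0) (X X' X'' : Sy F (II k))
    (d0 : (mat (X' - X'')).det ≠ 0) (d1 : (mat (X'' - X)).det ≠ 0) (d2 : (mat (X - X')).det ≠ 0) :
    av (fun y : ZZ F k => VV k (s * sg y.2) (X - y.1) * VV k (s' * sg y.2) (X' - y.1) *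
      VV k (s'' * sg y.2) (X'' - y.1)) ≤
      lam k (Fintype.card F) * ((1 + (s' : ℝ) * (s'' : ℝ) * gg (X' - X'')) *
        (1 + (s'' : ℝ) * (s : ℝ) * gg (X'' - X)) * (1 + (s : ℝ) * (s' : ℝ) * gg (X - X'))) := by
  classical
  have hq0 : (0 : ℝ) < Fintype.card F := by positivity
  have h2 : (0 : ℝ) < 1 - 2 * k / (Fintype.card F : ℝ) := by linarith [rho_ge hk1 hq]
  have hl := one_le_lam hk1 hq
  by_cases hg : gg (X' - X'') = (s' : ℝ) * (s'' : ℝ) ∧ gg (X'' - X) = (s'' : ℝ) * (s : ℝ) ∧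
      gg (X - X') = (s : ℝ) * (s' : ℝ)
  · rw [fac_two hs' hs'' hg.1, fac_two hs'' hs hg.2.1, fac_two hs hs' hg.2.2]
    refine (K3 hc hk1 hq hs hs' hs'' X X' X'' (univ.filter fun w => finrank F ↥(gr w ⊓ gr X) = k ∧
      finrank F ↥(gr w ⊓ gr X') = k ∧ finrank F ↥(gr w ⊓ gr X'') = k)
      fun w b a a' a'' => mem_filter.2 ⟨mem_univ _,
        RR_dim (mul_ne_zero hs (sg_ne _)) a, RR_dim (mul_ne_zero hs' (sg_ne _)) a',
        RR_dim (mul_ne_zero hs'' (sg_ne _)) a''⟩).trans ?_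
    have h := triple_sharp symp rfl hc (gr_lag X) (gr_lag X') (gr_lag X'') ((gr_inf_bot _ _).2 d2)
      (by rw [inf_comm]; exact (gr_inf_bot _ _).2 d1) ((gr_inf_bot _ _).2 d0)
      ((univ.filter fun w => finrank F ↥(gr w ⊓ gr X) = k ∧
        finrank F ↥(gr w ⊓ gr X') = k ∧ finrank F ↥(gr w ⊓ gr X'') = k).image gr) fun w hw => by
          obtain ⟨x, hx, rfl⟩ := mem_image.1 hw
          exact ⟨gr_lag x, (mem_filter.1 hx).2⟩
    rw [card_img] at h
    refine (div_le_div_of_nonneg_right (mul_le_mul_of_nonneg_left h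
      (pow_nonneg (cc_pos hk1 hq).le 3)) (by positivity)).trans (le_of_eq ?_)
    rw [show Tn ((2 * k : ℕ) : ℝ) = (Tn k - k) + Tn k + Tn k + Tn k by
      unfold Tn; push_cast; ring, Real.rpow_add hq0, Real.rpow_add hq0, Real.rpow_add hq0, cc, lam]
    field_simp
  · refine (K3 hc hk1 hq hs hs' hs'' X X' X'' ∅ fun w b a a' a'' => absurd
      ⟨sign_of hk d0 a' a'', sign_of hk d1 a'' a, sign_of hk d2 a a'⟩ hg).trans ?_
    simp only [card_empty, Nat.cast_zero, mul_zero, zero_div]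
    exact mul_nonneg (by linarith [hl.2])
      (mul_nonneg (mul_nonneg (fac_nonneg _ _ _) (fac_nonneg _ _ _)) (fac_nonneg _ _ _))

theorem K3_deg (hc : ringChar F ≠ 2) (hk1 : 1 ≤ k) (hq : 4 * k ≤ Fintype.card F)
    {s s' s'' : SignType} (hs : s ≠ 0) (hs' : s' ≠ 0) (hs'' : s'' ≠ 0) (X X' X'' : Sy F (II k)) :
    av (fun y : ZZ F k => VV k (s * sg y.2) (X - y.1) * VV k (s' * sg y.2) (X' - y.1) *
      VV k (s'' * sg y.2) (X'' - y.1)) ≤
      64 * ((((2 * k : ℕ) : ℝ) + 1) ^ 7 * 5 ^ (2 * k)) *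
        (Fintype.card F : ℝ) ^ GamL ((2 * k : ℕ) : ℝ) (gr X) (gr X') (gr X'') := by
  classical
  have hq0 : (0 : ℝ) < Fintype.card F := by positivity
  have h1 := rho_ge hk1 hq
  refine (K3 hc hk1 hq hs hs' hs'' X X' X'' (univ.filter fun w => finrank F ↥(gr w ⊓ gr X) = k ∧
    finrank F ↥(gr w ⊓ gr X') = k ∧ finrank F ↥(gr w ⊓ gr X'') = k)
    fun w b a a' a'' => mem_filter.2 ⟨mem_univ _,
      RR_dim (mul_ne_zero hs (sg_ne _)) a, RR_dim (mul_ne_zero hs' (sg_ne _)) a',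
      RR_dim (mul_ne_zero hs'' (sg_ne _)) a''⟩).trans ?_
  have h := cnt_deg hc (gr_lag X) (gr_lag X') (gr_lag X'')
    (univ.filter fun w => finrank F ↥(gr w ⊓ gr X) = k ∧ finrank F ↥(gr w ⊓ gr X') = k ∧
      finrank F ↥(gr w ⊓ gr X'') = k)
    (Tn ((2 * k : ℕ) : ℝ) + GamL ((2 * k : ℕ) : ℝ) (gr X) (gr X') (gr X'') -
      (Tn k + Tn k + Tn k)) fun w hw => by
      have := gam3L symp rfl hk1 (gr_lag X) (gr_lag X') (gr_lag X'') (gr_lag w)
        (mem_filter.1 hw).2.1 (mem_filter.1 hw).2.2.1 (mem_filter.1 hw).2.2.2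
      linarith
  refine (div_le_div_of_nonneg_right (mul_le_mul_of_nonneg_left h
    (pow_nonneg (cc_pos hk1 hq).le 3)) (by positivity)).trans ?_
  rw [Real.rpow_sub hq0, Real.rpow_add hq0, Real.rpow_add hq0, Real.rpow_add hq0, cc]
  exact num3 (by positivity) (by positivity) (by positivity) (by positivity) h1

theorem VV_zero (D : Sy F (II k)) : VV k 0 D = 1 := if_pos rfl

end Face
open Face

theorem FK_gen (hc : ringChar F ≠ 2) (hk : Even k) (hk1 : 1 ≤ k) (hq : 4 * k ≤ Fintype.card F)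
    (s : Fin 3 → SignType) (X : Fin 3 → Sy F (II k))
    (hX : ∀ r : Fin 3, (mat (X (r + 1) - X (r + 2))).det ≠ 0) :
    FK k s X ≤ lam k (Fintype.card F) *
      ∏ r : Fin 3, (1 + (s (r + 1) : ℝ) * (s (r + 2) : ℝ) * gg (X (r + 1) - X (r + 2))) := by
  have d0 : (mat (X 1 - X 2)).det ≠ 0 := hX 0
  have d1 : (mat (X 2 - X 0)).det ≠ 0 := hX 1
  have d2 : (mat (X 0 - X 1)).det ≠ 0 := hX 2
  have hl := (one_le_lam hk1 hq).2
  show _ ≤ _ * ∏ r : Fin 3, _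
  rw [Fin.prod_univ_three]
  show FK k s X ≤ lam k (Fintype.card F) * ((1 + (s 1 : ℝ) * (s 2 : ℝ) * gg (X 1 - X 2)) *
    (1 + (s 2 : ℝ) * (s 0 : ℝ) * gg (X 2 - X 0)) * (1 + (s 0 : ℝ) * (s 1 : ℝ) * gg (X 0 - X 1)))
  unfold FK
  simp only [Fin.prod_univ_three]
  by_cases h0 : s 0 = 0 <;> by_cases h1 : s 1 = 0 <;> by_cases h2 : s 2 = 0
  · simpa [h0, h1, h2, VV_zero, Av.const] using hl
  · simpa [h0, h1, VV_zero, K1 hc hk1 hq] using hl
  · simpa [h0, h2, VV_zero, K1 hc hk1 hq] using hl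
  · simpa [h0, VV_zero] using K2_gen hc hk hk1 hq h1 h2 _ _ d0
  · simpa [h1, h2, VV_zero, K1 hc hk1 hq] using hl
  · simpa [h1, VV_zero, mul_comm] using K2_gen hc hk hk1 hq h2 h0 _ _ d1
  · simpa [h2, VV_zero] using K2_gen hc hk hk1 hq h0 h1 _ _ d2
  · exact K3_gen hc hk hk1 hq h0 h1 h2 _ _ _ d0 d1 d2

theorem FK_deg (hc : ringChar F ≠ 2) (hk1 : 1 ≤ k) (hq : 4 * k ≤ Fintype.card F)
    (s : Fin 3 → SignType) (X : Fin 3 → Sy F (II k)) :
    FK k s X ≤ 64 * ((((2 * k : ℕ) : ℝ) + 1) ^ 7 * 5 ^ (2 * k)) *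
      (Fintype.card F : ℝ) ^ GamL ((2 * k : ℕ) : ℝ) (gr (X 0)) (gr (X 1)) (gr (X 2)) := by
  obtain ⟨g0, g1, g2, g3⟩ := gam_ge symp (gr_lag (X 0)) (gr_lag (X 1)) (gr_lag (X 2))
  have hl : (1 : ℝ) ≤ 64 * ((((2 * k : ℕ) : ℝ) + 1) ^ 7 * 5 ^ (2 * k)) *
      (Fintype.card F : ℝ) ^ GamL ((2 * k : ℕ) : ℝ) (gr (X 0)) (gr (X 1)) (gr (X 2)) := by
    refine one_le_mul_of_one_le_of_one_le (one_le_mul_of_one_le_of_one_le (by norm_num)
      (one_le_mul_of_one_le_of_one_le (one_le_pow₀ ?_) (one_le_pow₀ (by norm_num))))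
      (Real.one_le_rpow (by linarith [two_le_q (F := F)]) g0)
    linarith [Nat.cast_nonneg (α := ℝ) (2 * k)]
  have k01 := fun h h' => K2_deg hc hk1 hq (s := s 0) (s' := s 1) h h' _ _ g1
  have k02 := fun h h' => K2_deg hc hk1 hq (s := s 0) (s' := s 2) h h' _ _ g2
  have k12 := fun h h' => K2_deg hc hk1 hq (s := s 1) (s' := s 2) h h' _ _ g3
  have k3 := fun h h' h'' => K3_deg hc hk1 hq (s := s 0) (s' := s 1) (s'' := s 2) h h' h''
    (X 0) (X 1) (X 2)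
  generalize 64 * ((((2 * k : ℕ) : ℝ) + 1) ^ 7 * 5 ^ (2 * k)) *
      (Fintype.card F : ℝ) ^ GamL ((2 * k : ℕ) : ℝ) (gr (X 0)) (gr (X 1)) (gr (X 2)) = Y at *
  unfold FK
  simp only [Fin.prod_univ_three]
  by_cases h0 : s 0 = 0 <;> by_cases h1 : s 1 = 0 <;> by_cases h2 : s 2 = 0
  · simpa [h0, h1, h2, VV_zero, Av.const] using hl
  · simpa [h0, h1, VV_zero, K1 hc hk1 hq] using hl
  · simpa [h0, h2, VV_zero, K1 hc hk1 hq] using hl
  · simpa [h0, VV_zero] using k12 h1 h2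
  · simpa [h1, h2, VV_zero, K1 hc hk1 hq] using hl
  · simpa [h1, VV_zero] using k02 h0 h2
  · simpa [h2, VV_zero] using k01 h0 h1
  · exact k3 h0 h1 h2

end P050
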