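import Vale.Agent.P050.Defs

namespace P050

open Finset

namespace GadA

lemma sum_prod_fun {κ α : Type} [Fintype κ] [DecidableEq κ] [Fintype α] (g : κ → α → ℝ) :
    ∑ z : κ → α, ∏ c, g c (z c) = ∏ c, ∑ a, g c a := by
  rw [Finset.prod_univ_sum, Fintype.piFinset_univ]

lemma sg_cases (b : Bool) : (sg b : ℝ) = 1 ∨ (sg b : ℝ) = -1 := by cases b <;> simp [sg]

lemma wt_nonneg {p : Fin 12 × Fin 3 → ℝ} (hp : ∀ e, 0 ≤ p e ∧ p e ≤ 1)
    (o : Option (Fin 12 × Fin 3)) (cp : Comp) : 0 ≤ wt p o cp := by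
  rcases o with _ | e <;> rcases cp with _ | bs
  · simp [wt]
  · simp [wt]
  · simp [wt, (hp e).2]
  · simp only [wt]
    refine mul_nonneg (div_nonneg (hp e).1 (by norm_num)) ?_
    have he : eta e = 1 ∨ eta e = -1 := by unfold eta; split_ifs <;> simp
    rcases sg_cases bs.1 with h1 | h1 <;> rcases he with h2 | h2 <;>
      rcases sg_cases (bs.2 (e.2 + 1)) with h3 | h3 <;>
      rcases sg_cases (bs.2 (e.2 + 2)) with h4 | h4 <;> rw [h1, h2, h3, h4] <;> norm_num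

lemma wt_sum (p : Fin 12 × Fin 3 → ℝ) (o : Option (Fin 12 × Fin 3)) : ∑ cp, wt p o cp = 1 := by
  rw [Fintype.sum_option]
  rcases o with _ | e
  · simp [wt]
  · simp only [wt]
    rw [Fintype.sum_prod_type, Fintype.sum_bool, ← sum_add_distrib,
      sum_congr rfl (g := fun _ => p e / 8) fun x _ => by simp [sg]; ring]
    simp; ring

lemma ed_symm (a b : VH) : ed a b = ed b a := by cases a <;> cases b <;> rfl

lemma ps_abs (ε : Pat) (e : Fin 12 × Fin 3) : |ps ε e| ≤ 1 := by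
  have : ∀ s : SignType, |(s : ℝ)| ≤ 1 := fun s => by cases s <;> simp
  unfold ps
  rw [abs_mul]
  exact mul_le_one₀ (this _) (abs_nonneg _) (this _)

lemma mm_bd (ε : Pat) : 0 ≤ mm ε ∧ mm ε ≤ 2 ^ 18 := by
  have h : ∀ P : Fin 18, |ps ε (pf P 0) * ps ε (pf P 1)| ≤ 1 := fun P => by
    rw [abs_mul]; exact mul_le_one₀ (ps_abs _ _) (abs_nonneg _) (ps_abs _ _)
  refine ⟨prod_nonneg fun P _ => by linarith [(abs_le.1 (h P)).1], ?_⟩
  calc mm ε ≤ ∏ _P : Fin 18, (2 : ℝ) :=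
        prod_le_prod (fun P _ => by linarith [(abs_le.1 (h P)).1])
          fun P _ => by linarith [(abs_le.1 (h P)).2]
    _ = _ := by simp

lemma prod_bd {κ : Type} [DecidableEq κ] (s : Finset κ) (a : κ → ℝ) {M γ : ℝ} (hγ : 0 ≤ γ)
    (hγ1 : γ ≤ 1) (ha : ∀ c, 0 ≤ a c ∧ a c ≤ M) (hM : 0 ≤ M) :
    ∏ c ∈ s, a c ≤ (M + 1) ^ s.card ∧
      (M + 1) * (∏ c ∈ s, (a c + γ) - ∏ c ∈ s, a c) ≤ s.card * (M + 1) ^ s.card * γ := by
  induction s using Finset.induction_on with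
  | empty => simp
  | insert c s hc ih =>
    obtain ⟨h1, h2⟩ := ih
    rw [prod_insert hc, prod_insert hc, card_insert_of_notMem hc, pow_succ]
    have hP : 0 ≤ ∏ c ∈ s, a c := prod_nonneg fun c _ => (ha c).1
    have hac := ha c
    refine ⟨by nlinarith, ?_⟩
    push_cast
    set P := ∏ c ∈ s, a c
    set Q := ∏ c ∈ s, (a c + γ)
    set R := (M + 1) ^ s.card
    have hR : 0 ≤ (s.card : ℝ) * R * γ := by positivity
    have e1 : (a c + γ) * ((M + 1) * (Q - P)) ≤ (M + 1) * (s.card * R * γ) :=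
      (mul_le_mul_of_nonneg_left h2 (by linarith)).trans
        (mul_le_mul_of_nonneg_right (by linarith) hR)
    have e2 : (M + 1) * γ * P ≤ (M + 1) * γ * R := mul_le_mul_of_nonneg_left h1 (by positivity)
    nlinarith

lemma sum_labels {VH : Type} [Fintype VH] [DecidableEq VH] (m : VH → ℕ) (G : (VH → VH) → ℝ) :
    ∑ l : VH → (Σ v : VH, Fin (m v)), G (fun v => (l v).1) =
      ∑ ψ : VH → VH, (∏ v, (m (ψ v) : ℝ)) * G ψ := by
  have e1 : ∀ l : VH → (Σ v : VH, Fin (m v)), G (fun v => (l v).1) =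
      ∑ ψ : VH → VH, (∏ v, if (l v).1 = ψ v then (1 : ℝ) else 0) * G ψ := by
    intro l
    rw [sum_eq_single (fun v => (l v).1)]
    · simp
    · intro ψ _ h
      obtain ⟨v, hv⟩ := Function.ne_iff.1 h
      rw [prod_eq_zero (mem_univ v) (if_neg (Ne.symm hv)), zero_mul]
    · simp
  simp_rw [e1]
  rw [sum_comm]
  refine sum_congr rfl fun ψ _ => ?_
  rw [← sum_mul, sum_prod_fun (fun v (x : Σ v : VH, Fin (m v)) => if x.1 = ψ v then (1 : ℝ) else 0)]
  congr 1
  refine prod_congr rfl fun v _ => ?_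
  rw [Fintype.sum_sigma, sum_eq_single (ψ v) (fun w _ hw => by simp [hw]) (by simp)]
  simp

end GadA

open GadA

theorem gadA (p : Fin 12 × Fin 3 → ℝ) (hp : ∀ e, 0 ≤ p e ∧ p e ≤ 1) (m : VH → ℕ)
    (hm : ∀ v, 0 < m v) {Z : Type} [Fintype Z] [DecidableEq Z] [Nonempty Z]
    (W : SignType → Z → Z → ℝ) (γ : ℝ) (hγ : 0 ≤ γ) (hγ1 : γ ≤ 1) (hW : Good W γ) :
    ∃ (Y : Type) (_ : Fintype Y) (_ : DecidableEq Y) (_ : Nonempty Y) (U : Y → Y → ℝ),
      (∀ x y, 0 ≤ U x y) ∧ (∀ x y, U x y = U y x) ∧ av (fun z : Y × Y => U z.1 z.2) = 1 ∧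
      tH U ≤ (∑ ψ : VH → VH, (∏ v, (m (ψ v) : ℝ)) * ZM p ψ) / (∑ v, (m v : ℝ)) ^ 20
        + 8 * (2 ^ 18 + 1) ^ 7 * γ := by
  let L := Σ v : VH, Fin (m v)
  have hL : Nonempty L := ⟨⟨.inl 0, ⟨0, hm _⟩⟩⟩
  have cL : (Fintype.card L : ℝ) = ∑ v, (m v : ℝ) := by simp [L]
  have cL0 : (0 : ℝ) < Fintype.card L := by exact_mod_cast Fintype.card_pos
  have cZ0 : (0 : ℝ) < Fintype.card Z := by exact_mod_cast Fintype.card_pos
  refine ⟨L × (Fin 8 → Z), inferInstance, inferInstance, inferInstance,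
    fun y y' => ∑ cp, wt p (ed y.1.1 y'.1.1) cp *
      ∏ c, W (pat (ed y.1.1 y'.1.1) cp c) (y.2 c) (y'.2 c), ?_, ?_, ?_, ?_⟩
  · exact fun x y => sum_nonneg fun cp _ =>
      mul_nonneg (wt_nonneg hp _ _) (prod_nonneg fun c _ => hW.nonneg _ _ _)
  · intro x y
    simp only
    rw [ed_symm x.1.1]
    simp_rw [hW.symm _ (x.2 _)]
  · have h1 : ∀ s : SignType, ∑ a : Z × Z, W s a.1 a.2 = (Fintype.card Z : ℝ) ^ 2 := by
      intro s
      have := hW.mean s
      unfold av at this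
      rw [div_eq_one_iff_eq (by simp [cZ0.ne'])] at this
      rw [this]; simp [sq]
    have h2 : ∀ s : Fin 8 → SignType, ∑ z : Fin 8 → Z, ∑ z' : Fin 8 → Z, ∏ c, W (s c) (z c) (z' c) =
        (Fintype.card Z : ℝ) ^ 16 := by
      intro s
      simp_rw [fun z : Fin 8 → Z => sum_prod_fun (fun c b => W (s c) (z c) b)]
      rw [sum_prod_fun (fun c a => ∑ b, W (s c) a b)]
      simp_rw [← Fintype.sum_prod_type', h1]
      simp [← pow_mul]
    unfold av
    rw [div_eq_one_iff_eq (by simp [cZ0.ne', cL0.ne'])]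
    simp only [Fintype.sum_prod_type]
    have h3 : ∀ l : L, ∑ z : Fin 8 → Z, ∑ l' : L, ∑ z' : Fin 8 → Z, ∑ cp, wt p (ed l.1 l'.1) cp *
        ∏ c, W (pat (ed l.1 l'.1) cp c) (z c) (z' c) =
        Fintype.card L * (Fintype.card Z : ℝ) ^ 16 := by
      intro l
      rw [sum_comm, sum_congr rfl (g := fun _ => (Fintype.card Z : ℝ) ^ 16)]
      · simp
      intro l' _
      simp_rw [fun z : Fin 8 → Z => sum_comm (s := (univ : Finset (Fin 8 → Z)))
        (t := (univ : Finset Comp)) (f := fun z' cp => wt p (ed l.1 l'.1) cp *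
          ∏ c, W (pat (ed l.1 l'.1) cp c) (z c) (z' c))]
      rw [sum_comm]
      simp_rw [← mul_sum, h2]
      rw [← sum_mul, wt_sum, one_mul]
    simp_rw [h3]
    simp; ring
  · have hT : ∀ ε : Pat, ∑ z : VH → Z, ∏ f, ∏ t, W (ε f t) (z (.inl (fv f t))) (z (.inr f)) =
        (Fintype.card Z : ℝ) ^ 20 * tL W ε := by
      intro ε
      unfold tL av
      have : (Fintype.card (VH → Z) : ℝ) = (Fintype.card Z : ℝ) ^ 20 := by simp
      rw [this, mul_div_cancel₀ _ (by positivity)]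
    have hT0 : ∀ ε : Pat, 0 ≤ tL W ε := fun ε =>
      div_nonneg (sum_nonneg fun z _ => prod_nonneg fun f _ => prod_nonneg fun t _ =>
        hW.nonneg _ _ _) (by positivity)
    have hP : ∀ ε : Fin 8 → Pat, ∏ c, tL W (ε c) ≤ ∏ c, mm (ε c) + 8 * (2 ^ 18 + 1) ^ 7 * γ := by
      intro ε
      have a1 : ∏ c, tL W (ε c) ≤ ∏ c, (mm (ε c) + γ) :=
        prod_le_prod (fun c _ => hT0 _) fun c _ => hW.bound _
      have a2 := (prod_bd univ (fun c => mm (ε c)) hγ hγ1 (fun c => mm_bd _) (by norm_num)).2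
      simp only [card_univ, Fintype.card_fin, Nat.cast_ofNat] at a2
      have a3 : ∏ c, (mm (ε c) + γ) - ∏ c, mm (ε c) ≤ 8 * (2 ^ 18 + 1) ^ 7 * γ := by
        refine le_of_mul_le_mul_left (a := 2 ^ 18 + 1) (a2.trans (le_of_eq ?_)) (by norm_num)
        ring
      linarith
    have key : ∀ ψ : VH → VH, ∑ z : VH → Fin 8 → Z, ∏ f, ∏ t, ∑ cp, wt p (le ψ f t) cp *
        ∏ c, W (pat (le ψ f t) cp c) (z (.inl (fv f t)) c) (z (.inr f) c) ≤
        (Fintype.card Z : ℝ) ^ 160 * (ZM p ψ + 8 * (2 ^ 18 + 1) ^ 7 * γ) := by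
      intro ψ
      simp_rw [← sum_prod_fun]
      rw [sum_comm]
      have e1 : ∀ cp : Fin 12 → Fin 3 → Comp, ∑ z : VH → Fin 8 → Z, ∏ f, ∏ t,
          (wt p (le ψ f t) (cp f t) *
          ∏ c, W (pat (le ψ f t) (cp f t) c) (z (.inl (fv f t)) c) (z (.inr f) c)) =
          (∏ f, ∏ t, wt p (le ψ f t) (cp f t)) * ((Fintype.card Z : ℝ) ^ 160 *
            ∏ c, tL W fun f t => pat (le ψ f t) (cp f t) c) := by
        intro cp
        simp_rw [prod_mul_distrib]
        rw [← mul_sum]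
        congr 1
        rw [← (Equiv.piComm (fun (_ : Fin 8) (_ : VH) => Z)).sum_comp]
        have : ∀ z : Fin 8 → VH → Z, ∏ f, ∏ t, ∏ c, W (pat (le ψ f t) (cp f t) c)
            ((Equiv.piComm (fun (_ : Fin 8) (_ : VH) => Z)) z (.inl (fv f t)) c)
            ((Equiv.piComm (fun (_ : Fin 8) (_ : VH) => Z)) z (.inr f) c) =
            ∏ c, ∏ f, ∏ t, W (pat (le ψ f t) (cp f t) c) (z c (.inl (fv f t))) (z c (.inr f)) := by
          intro z
          rw [prod_comm (s := (univ : Finset (Fin 8)))]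
          refine prod_congr rfl fun f _ => ?_
          rw [prod_comm]
          rfl
        simp_rw [this]
        rw [sum_prod_fun (fun c (z : VH → Z) => ∏ f, ∏ t,
          W (pat (le ψ f t) (cp f t) c) (z (.inl (fv f t))) (z (.inr f)))]
        simp_rw [fun c => hT (fun f t => pat (le ψ f t) (cp f t) c)]
        rw [prod_mul_distrib]
        simp [← pow_mul]
      simp_rw [e1]
      have e2 : ∑ cp : Fin 12 → Fin 3 → Comp, ∏ f, ∏ t, wt p (le ψ f t) (cp f t) = 1 := by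
        rw [sum_prod_fun (fun f (cp : Fin 3 → Comp) => ∏ t, wt p (le ψ f t) (cp t))]
        simp_rw [fun f => sum_prod_fun (fun t cp => wt p (le ψ f t) cp), wt_sum]
        simp
      have e3 : (Fintype.card Z : ℝ) ^ 160 * (ZM p ψ + 8 * (2 ^ 18 + 1) ^ 7 * γ) =
          ∑ cp : Fin 12 → Fin 3 → Comp, (∏ f, ∏ t, wt p (le ψ f t) (cp f t)) *
            ((Fintype.card Z : ℝ) ^ 160 * ((∏ c : Fin 8, mm fun f t => pat (le ψ f t) (cp f t) c) +
              8 * (2 ^ 18 + 1) ^ 7 * γ)) := by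
        simp_rw [mul_left_comm _ ((Fintype.card Z : ℝ) ^ 160)]
        rw [← mul_sum]
        simp_rw [mul_add (∏ f, ∏ t, wt p (le ψ f t) _)]
        rw [sum_add_distrib, ← sum_mul, e2, one_mul]
        rfl
      rw [e3]
      refine sum_le_sum fun cp _ => mul_le_mul_of_nonneg_left
        (mul_le_mul_of_nonneg_left (hP _) (by positivity))
        (prod_nonneg fun f _ => prod_nonneg fun t _ => wt_nonneg hp _ _)
    unfold tH av
    rw [← (Equiv.arrowProdEquivProdArrow VH (fun _ => L) (fun _ => Fin 8 → Z)).symm.sum_comp,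
      Fintype.sum_prod_type, div_le_iff₀ (by simp [cL0, cZ0])]
    refine (sum_le_sum fun l _ => key (fun v => (l v).1)).trans (le_of_eq ?_)
    rw [← mul_sum, sum_add_distrib, sum_labels m (ZM p), ← cL]
    simp only [sum_const, card_univ, Fintype.card_fun, Fintype.card_prod, Fintype.card_sum,
      Fintype.card_fin, nsmul_eq_mul, Nat.cast_pow, Nat.cast_mul]
    field_simp
    ring

end P050
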