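import Vale.Agent.P050.Defs

namespace P050

namespace GadB

/-- moment of one component variable -/
noncomputable def Mw (p : Fin 12 × Fin 3 → ℝ) (o : Option (Fin 12 × Fin 3)) (μ : Fin 8 → ℕ) : ℝ :=
  ∑ cp : Comp, wt p o cp * ∏ c, (pat o cp c : ℝ) ^ μ c

abbrev QQ : Type := Fin 8 → Fin 18 → Bool

def mu (Q : QQ) (f : Fin 12) (t : Fin 3) (c : Fin 8) : ℕ :=
  (Q c (fe f (t + 1))).toNat + (Q c (fe f (t + 2))).toNat

def e3 : Bool × Bool × Bool ≃ (Fin 3 → Bool) where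
  toFun x := ![x.1, x.2.1, x.2.2]
  invFun σ := (σ 0, σ 1, σ 2)
  left_inv x := rfl
  right_inv σ := by ext i; fin_cases i <;> rfl

theorem sum3 (t : Fin 3) (h : Bool → Bool → Bool → ℝ) :
    ∑ σ : Fin 3 → Bool, h (σ t) (σ (t + 1)) (σ (t + 2)) = ∑ a, ∑ b, ∑ c, h a b c := by
  have he : ∀ a b c, e3 (a, b, c) = ![a, b, c] := fun _ _ _ => rfl
  rw [← Equiv.sum_comp e3]
  simp only [Fintype.sum_prod_type, Fintype.sum_bool, he]
  fin_cases t <;> simp <;> ring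

theorem cor_fv : ∀ g r, cor (fv g r) g = some r := by decide

theorem cor_none : ∀ c g, (∀ r, fv g r ≠ c) → cor c g = none := by decide

theorem fv_inj : ∀ g, Function.Injective (fv g) := by decide

noncomputable def KK (η : ℝ) (m0 m1 m2 : ℕ) : ℝ :=
  ∑ b : Bool, ∑ s0 : Bool, ∑ s1 : Bool, ∑ s2 : Bool,
    1 / 16 * (1 + (sg b : ℝ) * η * (sg s1 : ℝ) * (sg s2 : ℝ)) *
      ((if b then (sg s0 : ℝ) else 0) ^ m0 * (sg s1 : ℝ) ^ m1 * (sg s2 : ℝ) ^ m2)

theorem prod_zero_pow {μ : Fin 8 → ℕ} (h : μ ≠ 0) : ∏ c, ((0 : SignType) : ℝ) ^ μ c = 0 := by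
  obtain ⟨c, hc⟩ := Function.ne_iff.mp h
  exact Finset.prod_eq_zero (Finset.mem_univ c) (by simpa using hc)

theorem prod3 (t : Fin 3) (h : Fin 3 → ℝ) : ∏ r, h r = h t * h (t + 1) * h (t + 2) := by
  rw [Fin.prod_univ_three]
  fin_cases t <;> simp <;> ring

theorem Mw_some (p : Fin 12 × Fin 3 → ℝ) (g : Fin 12) (t : Fin 3) {μ : Fin 8 → ℕ} (h : μ ≠ 0)
    (hs : ∀ c, μ c ≠ 0 → ∃ r, fv g r = c) :
    Mw p (some (g, t)) μ =
      p (g, t) * KK (eta (g, t)) (μ (fv g t)) (μ (fv g (t + 1))) (μ (fv g (t + 2))) := by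
  have h1 : ∀ (b : Bool) (σ : Fin 3 → Bool),
      ∏ c, (pat (some (g, t)) (some (b, σ)) c : ℝ) ^ μ c =
        (if b then (sg (σ t) : ℝ) else 0) ^ μ (fv g t) * (sg (σ (t + 1)) : ℝ) ^ μ (fv g (t + 1))
          * (sg (σ (t + 2)) : ℝ) ^ μ (fv g (t + 2)) := by
    intro b σ
    rw [← Fintype.prod_of_injective (fv g) (fv_inj g)
      (fun r => (pat (some (g, t)) (some (b, σ)) (fv g r) : ℝ) ^ μ (fv g r)) _ ?_ (fun _ => rfl)]
    · rw [prod3 t]
      have a1 : t + 1 ≠ t := by fin_cases t <;> decide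
      have a2 : t + 2 ≠ t := by fin_cases t <;> decide
      cases b <;> simp [pat, cor_fv, a1, a2]
    · intro c hc
      have : μ c = 0 := by
        by_contra h0
        exact hc (hs c h0)
      simp [this]
  unfold Mw KK
  rw [Fintype.sum_option, Fintype.sum_prod_type]
  have h0 : ∏ c, (pat (some (g, t)) none c : ℝ) ^ μ c = 0 := prod_zero_pow h
  rw [h0, mul_zero, zero_add, Finset.mul_sum]
  refine Finset.sum_congr rfl fun b _ => ?_
  rw [← sum3 t, Finset.mul_sum]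
  refine Finset.sum_congr rfl fun σ _ => ?_
  rw [h1]
  simp only [wt]
  ring

theorem Mw_zero (p : Fin 12 × Fin 3 → ℝ) (o : Option (Fin 12 × Fin 3)) : Mw p o 0 = 1 := by
  unfold Mw
  rw [Fintype.sum_option, Fintype.sum_prod_type]
  cases o with
  | none => simp [wt]
  | some e =>
    simp only [wt, Pi.zero_apply, pow_zero, Finset.prod_const_one, mul_one]
    have : ∀ b : Bool, ∑ σ : Fin 3 → Bool, p e / 16 *
        (1 + (sg b : ℝ) * eta e * (sg (σ (e.2 + 1)) : ℝ) * (sg (σ (e.2 + 2)) : ℝ)) = p e / 2 := by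
      intro b
      rw [sum3 e.2 (fun _ s1 s2 => p e / 16 * (1 + (sg b : ℝ) * eta e * (sg s1 : ℝ) * (sg s2 : ℝ)))]
      simp [sg]
      ring
    simp only [this]
    simp
    ring

theorem Mw_none (p : Fin 12 × Fin 3 → ℝ) {μ : Fin 8 → ℕ} (h : μ ≠ 0) : Mw p none μ = 0 := by
  unfold Mw
  refine Finset.sum_eq_zero fun cp _ => ?_
  have h0 : ∏ c, (pat none cp c : ℝ) ^ μ c = 0 := prod_zero_pow h
  rw [h0, mul_zero]

theorem Mw_supp (p : Fin 12 × Fin 3 → ℝ) (e : Fin 12 × Fin 3) {μ : Fin 8 → ℕ}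
    (h : Mw p (some e) μ ≠ 0) (c : Fin 8) (hc : μ c ≠ 0) : ∃ r, fv e.1 r = c := by
  by_contra hn
  push Not at hn
  apply h
  unfold Mw
  refine Finset.sum_eq_zero fun cp _ => ?_
  have : pat (some e) cp c = 0 := by
    cases cp with
    | none => rfl
    | some bs => simp [pat, cor_none c e.1 hn]
  rw [Finset.prod_eq_zero (Finset.mem_univ c) (by simp [this, hc]), mul_zero]

theorem KK_low (η : ℝ) {m0 m1 m2 : ℕ} (h0 : m0 ≤ 1) (h1 : m1 ≤ 1) (h2 : m2 ≤ 1)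
    (h : m0 + m1 + m2 ≠ 0) : KK η m0 m1 m2 = 0 := by
  unfold KK
  interval_cases m0 <;> interval_cases m1 <;> interval_cases m2 <;> simp [sg] at h ⊢ <;> ring

theorem KK_val (η : ℝ) : KK η 2 1 1 = η / 2 := by
  unfold KK
  simp [sg]
  ring

theorem Mw_two (p : Fin 12 × Fin 3 → ℝ) (o : Option (Fin 12 × Fin 3)) {μ : Fin 8 → ℕ}
    (h : Mw p o μ ≠ 0) (hμ : μ ≠ 0) (h2 : ∀ c, μ c ≤ 2) : ∃ c, μ c = 2 := by
  by_contra hn
  push Not at hn
  have hle : ∀ c, μ c ≤ 1 := fun c => by have := h2 c; have := hn c; omega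
  cases o with
  | none => exact h (Mw_none p hμ)
  | some e =>
    obtain ⟨g, t⟩ := e
    have hs := Mw_supp p (g, t) h
    apply h
    rw [Mw_some p g t hμ hs, KK_low _ (hle _) (hle _) (hle _), mul_zero]
    obtain ⟨c, hc⟩ := Function.ne_iff.mp hμ
    obtain ⟨r, hr⟩ := hs c hc
    have hr' : r = t ∨ r = t + 1 ∨ r = t + 2 :=
      (by decide : ∀ r t : Fin 3, r = t ∨ r = t + 1 ∨ r = t + 2) r t
    simp only [Pi.zero_apply] at hc
    simp only at hr
    rcases hr' with rfl | rfl | rfl <;> rw [hr] <;> omega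

theorem sg_cases (b : Bool) : (sg b : ℝ) = 1 ∨ (sg b : ℝ) = -1 := by
  cases b <;> simp [sg]

theorem Mw_abs (p : Fin 12 × Fin 3 → ℝ) (e : Fin 12 × Fin 3) (hp : 0 ≤ p e) {μ : Fin 8 → ℕ}
    (hμ : μ ≠ 0) : |Mw p (some e) μ| ≤ p e := by
  have hz := Mw_zero p (some e)
  unfold Mw at hz ⊢
  rw [Fintype.sum_option] at hz ⊢
  have h0 : ∏ c, (pat (some e) none c : ℝ) ^ μ c = 0 := prod_zero_pow hμ
  rw [h0, mul_zero, zero_add]
  simp only [Pi.zero_apply, pow_zero, Finset.prod_const_one, mul_one] at hz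
  have h1 : ∑ bs, wt p (some e) (some bs) = p e := by
    have : wt p (some e) none = 1 - p e := rfl
    linarith
  rw [← h1]
  refine (Finset.abs_sum_le_sum_abs _ _).trans (Finset.sum_le_sum fun bs _ => ?_)
  have hw : 0 ≤ wt p (some e) (some bs) := by
    simp only [wt]
    refine mul_nonneg (by positivity) ?_
    have he : eta e = 1 ∨ eta e = -1 := by unfold eta; split_ifs <;> simp
    rcases sg_cases bs.1 with a | a <;> rcases sg_cases (bs.2 (e.2 + 1)) with b | b <;>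
      rcases sg_cases (bs.2 (e.2 + 2)) with c | c <;> rcases he with d | d <;>
      rw [a, b, c, d] <;> norm_num
  rw [abs_mul, abs_of_nonneg hw]
  refine mul_le_of_le_one_right hw ?_
  rw [Finset.abs_prod]
  refine Finset.prod_le_one (fun _ _ => abs_nonneg _) fun c _ => ?_
  rw [abs_pow]
  refine pow_le_one₀ (abs_nonneg _) ?_
  generalize pat (some e) (some bs) c = s
  cases s <;> simp

def pfe : Fin 18 × Fin 2 → Fin 12 × Fin 3 := fun x => pf x.1 x.2

theorem pfe_bij : Function.Bijective pfe := by decide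

theorem fe_pf : ∀ P b, fe (pf P b).1 (pf P b).2 = P := by decide

theorem mm_expand (ε : Pat) (q : Fin 18 → Bool) :
    ∏ P, (if q P then ps ε (pf P 0) * ps ε (pf P 1) else 1) =
      ∏ f, ∏ t, (ε f t : ℝ) ^ ((q (fe f (t + 1))).toNat + (q (fe f (t + 2))).toNat) := by
  have h1 : ∏ P, (if q P then ps ε (pf P 0) * ps ε (pf P 1) else 1) =
      ∏ x : Fin 18 × Fin 2, ps ε (pfe x) ^ (q (fe (pfe x).1 (pfe x).2)).toNat := by
    rw [Fintype.prod_prod_type]
    refine Finset.prod_congr rfl fun P _ => ?_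
    rw [Fin.prod_univ_two]
    simp only [pfe, fe_pf]
    cases q P <;> simp
  rw [h1, pfe_bij.prod_comp (fun e => ps ε e ^ (q (fe e.1 e.2)).toNat), Fintype.prod_prod_type]
  refine Finset.prod_congr rfl fun f _ => ?_
  simp only [Fin.prod_univ_three, ps, pow_add, mul_pow]
  simp only [show (0 : Fin 3) + 1 = 1 from rfl, show (0 : Fin 3) + 2 = 2 from rfl,
    show (1 : Fin 3) + 1 = 2 from rfl, show (1 : Fin 3) + 2 = 0 from rfl,
    show (2 : Fin 3) + 1 = 0 from rfl, show (2 : Fin 3) + 2 = 1 from rfl]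
  ring

theorem mm_sum (ε : Pat) : mm ε = ∑ q : Fin 18 → Bool,
    ∏ f, ∏ t, (ε f t : ℝ) ^ ((q (fe f (t + 1))).toNat + (q (fe f (t + 2))).toNat) := by
  simp only [← mm_expand]
  unfold mm
  rw [← Fintype.piFinset_univ, ← Finset.prod_univ_sum (fun _ => Finset.univ)
    (fun P (b : Bool) => if b then ps ε (pf P 0) * ps ε (pf P 1) else 1)]
  refine Finset.prod_congr rfl fun P _ => ?_
  simp [add_comm]

noncomputable def term (p : Fin 12 × Fin 3 → ℝ) (ψ : VH → VH) (Q : QQ) : ℝ :=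
  ∏ f, ∏ t, Mw p (le ψ f t) (mu Q f t)

theorem ZM_eq (p : Fin 12 × Fin 3 → ℝ) (ψ : VH → VH) : ZM p ψ = ∑ Q : QQ, term p ψ Q := by
  unfold ZM term
  have h1 : ∀ cp : Fin 12 → Fin 3 → Comp,
      ∏ c : Fin 8, mm (fun f t => pat (le ψ f t) (cp f t) c) =
        ∑ Q : QQ, ∏ f, ∏ t, ∏ c, (pat (le ψ f t) (cp f t) c : ℝ) ^ mu Q f t c := by
    intro cp
    simp only [mm_sum]
    rw [Finset.prod_univ_sum, Fintype.piFinset_univ]
    refine Finset.sum_congr rfl fun Q _ => ?_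
    rw [Finset.prod_comm]
    refine Finset.prod_congr rfl fun f _ => ?_
    rw [Finset.prod_comm]
    rfl
  simp only [h1, Finset.mul_sum]
  rw [Finset.sum_comm]
  refine Finset.sum_congr rfl fun Q _ => ?_
  unfold Mw
  simp only [Finset.prod_univ_sum, Fintype.piFinset_univ, ← Finset.prod_mul_distrib]

theorem term_zero (p : Fin 12 × Fin 3 → ℝ) (ψ : VH → VH) : term p ψ (fun _ _ => false) = 1 := by
  have : ∀ f t, mu (fun _ _ => false) f t = 0 := fun f t => rfl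
  simp [term, this, Mw_zero]

theorem term_ne {p : Fin 12 × Fin 3 → ℝ} {ψ : VH → VH} {Q : QQ} (h : term p ψ Q ≠ 0) (f t) :
    Mw p (le ψ f t) (mu Q f t) ≠ 0 :=
  Finset.prod_ne_zero_iff.mp (Finset.prod_ne_zero_iff.mp h f (Finset.mem_univ _)) t
    (Finset.mem_univ _)

theorem mu_le (Q : QQ) (f t c) : mu Q f t c ≤ 2 := by
  unfold mu
  have := Bool.toNat_le (Q c (fe f (t + 1)))
  have := Bool.toNat_le (Q c (fe f (t + 2)))
  omega

theorem mu_two {Q : QQ} {f t c} (h : mu Q f t c = 2) :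
    Q c (fe f (t + 1)) = true ∧ Q c (fe f (t + 2)) = true := by
  unfold mu at h
  revert h
  cases Q c (fe f (t + 1)) <;> cases Q c (fe f (t + 2)) <;> simp

theorem mu_ne {Q : QQ} {f t c} (h : Q c (fe f (t + 1)) = true ∨ Q c (fe f (t + 2)) = true) :
    mu Q f t c ≠ 0 := by
  unfold mu
  rcases h with h | h <;> simp [h]

theorem conn (A : Fin 18 → Prop) (h : ∀ f t, A (fe f (t + 1)) ↔ A (fe f (t + 2))) (P P') :
    A P → A P' := by
  have a0 : A 1 ↔ A 2 := h 0 0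
  have a1 : A 2 ↔ A 0 := h 0 1
  have a2 : A 2 ↔ A 4 := h 1 0
  have a3 : A 4 ↔ A 3 := h 1 1
  have a4 : A 4 ↔ A 5 := h 2 1
  have a5 : A 3 ↔ A 7 := h 3 0
  have a6 : A 7 ↔ A 6 := h 3 1
  have a7 : A 7 ↔ A 8 := h 4 1
  have a8 : A 6 ↔ A 10 := h 5 0
  have a9 : A 10 ↔ A 9 := h 5 1
  have a10 : A 10 ↔ A 11 := h 6 1
  have a11 : A 9 ↔ A 13 := h 7 0
  have a12 : A 13 ↔ A 12 := h 7 1
  have a13 : A 13 ↔ A 14 := h 8 1
  have a14 : A 12 ↔ A 16 := h 9 0
  have a15 : A 16 ↔ A 15 := h 9 1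
  have a16 : A 16 ↔ A 17 := h 10 1
  have b0 : A 0 ↔ A 2 := a1.symm
  have b4 : A 4 ↔ A 2 := a2.symm
  have b3 : A 3 ↔ A 2 := a3.symm.trans b4
  have b5 : A 5 ↔ A 2 := a4.symm.trans b4
  have b7 : A 7 ↔ A 2 := a5.symm.trans b3
  have b6 : A 6 ↔ A 2 := a6.symm.trans b7
  have b8 : A 8 ↔ A 2 := a7.symm.trans b7
  have b10 : A 10 ↔ A 2 := a8.symm.trans b6
  have b9 : A 9 ↔ A 2 := a9.symm.trans b10
  have b11 : A 11 ↔ A 2 := a10.symm.trans b10
  have b13 : A 13 ↔ A 2 := a11.symm.trans b9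
  have b12 : A 12 ↔ A 2 := a12.symm.trans b13
  have b14 : A 14 ↔ A 2 := a13.symm.trans b13
  have b16 : A 16 ↔ A 2 := a14.symm.trans b12
  have b15 : A 15 ↔ A 2 := a15.symm.trans b16
  have b17 : A 17 ↔ A 2 := a16.symm.trans b16
  have key : ∀ P, A P ↔ A 2 := by
    intro P
    fin_cases P
    exacts [b0, a0, Iff.rfl, b3, b4, b5, b6, b7, b8, b9, b10, b11, b12, b13, b14, b15, b16, b17]
  exact fun hP => (key P').mpr ((key P).mp hP)

theorem all_two {p : Fin 12 × Fin 3 → ℝ} {ψ : VH → VH} {Q : QQ} (h : term p ψ Q ≠ 0)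
    (hQ : Q ≠ fun _ _ => false) (f t) : ∃ c, mu Q f t c = 2 := by
  have step : ∀ f t, ((∃ c, Q c (fe f (t + 1)) = true) ∨ ∃ c, Q c (fe f (t + 2)) = true) →
      ∃ c, mu Q f t c = 2 := by
    intro f t hh
    refine Mw_two p _ (term_ne h f t) ?_ (mu_le Q f t)
    intro h0
    rcases hh with ⟨c, hc⟩ | ⟨c, hc⟩
    · exact mu_ne (Or.inl hc) (congrFun h0 c)
    · exact mu_ne (Or.inr hc) (congrFun h0 c)
  have hex : ∃ P c, Q c P = true := by
    by_contra hn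
    push Not at hn
    exact hQ (funext fun c => funext fun P => by simpa using hn P c)
  obtain ⟨P, hP⟩ := hex
  refine step f t (Or.inl (conn (fun P => ∃ c, Q c P = true) (fun f t => ⟨fun a => ?_, fun a => ?_⟩)
    P _ hP))
  · obtain ⟨c, hc⟩ := step f t (Or.inl a)
    exact ⟨c, (mu_two hc).2⟩
  · obtain ⟨c, hc⟩ := step f t (Or.inr a)
    exact ⟨c, (mu_two hc).1⟩

theorem all_ne {p : Fin 12 × Fin 3 → ℝ} {ψ : VH → VH} {Q : QQ} (h : term p ψ Q ≠ 0)
    (hQ : Q ≠ fun _ _ => false) (f t) : mu Q f t ≠ 0 := by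
  obtain ⟨c, hc⟩ := all_two h hQ f t
  intro h0
  rw [h0] at hc
  simp at hc

theorem sum_le_gen {α : Type} [Fintype α] (f : α → ℝ) (a : α) (B : ℝ) (hB : 0 ≤ B)
    (h : ∀ x, x ≠ a → f x ≤ B) : ∑ x, f x ≤ f a + Fintype.card α * B := by
  classical
  rw [← Finset.add_sum_erase _ _ (Finset.mem_univ a)]
  have h2 := Finset.sum_le_card_nsmul (Finset.univ.erase a) f B
    fun x hx => h x (Finset.ne_of_mem_erase hx)
  have h3 : ((Finset.univ.erase a).card : ℝ) ≤ Fintype.card α := by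
    exact_mod_cast Finset.card_le_univ _
  rw [nsmul_eq_mul] at h2
  have := mul_le_mul_of_nonneg_right h3 hB
  linarith

def Q0 : QQ := fun c P => decide (c = eu P ∨ c = ev P)

theorem le_id (f t) : le id f t = some (f, t) := by
  simp [le, ed, cor_fv]

theorem two_faces : ∀ P c, (∃ r, fv (pf P 0).1 r = c) → (∃ r, fv (pf P 1).1 r = c) →
    Q0 c P = true := by decide

theorem fe_pf' : ∀ P b, fe (pf P b).1 ((pf P b).2 + 1 + 2) = P := by decide

theorem corner : ∀ f t c, Q0 c (fe f (t + 1)) = true → Q0 c (fe f (t + 2)) = true →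
    c = fv f t := by decide

theorem endpoint : ∀ P c, Q0 c P = true →
    ∃ f t, c = fv f t ∧ (P = fe f (t + 1) ∨ P = fe f (t + 2)) := by decide

theorem mu_Q0 : ∀ f t, mu Q0 f t (fv f t) = 2 ∧ mu Q0 f t (fv f (t + 1)) = 1 ∧
    mu Q0 f t (fv f (t + 2)) = 1 ∧ ∀ c, mu Q0 f t c ≠ 0 → ∃ r, fv f r = c := by decide

theorem eq_Q0 {p : Fin 12 × Fin 3 → ℝ} {Q : QQ} (h : term p id Q ≠ 0)
    (hQ : Q ≠ fun _ _ => false) : Q = Q0 := by
  have h1 : ∀ c P, Q c P = true → Q0 c P = true := by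
    intro c P hc
    have hb : ∀ b, ∃ r, fv (pf P b).1 r = c := by
      intro b
      have h2 := term_ne h (pf P b).1 ((pf P b).2 + 1)
      rw [le_id] at h2
      exact Mw_supp p _ h2 c (mu_ne (Or.inr (by rw [fe_pf']; exact hc)))
    exact two_faces P c (hb 0) (hb 1)
  funext c P
  refine Bool.eq_iff_iff.mpr ⟨h1 c P, fun h0 => ?_⟩
  obtain ⟨f, t, hc, hP⟩ := endpoint P c h0
  obtain ⟨c', hc'⟩ := all_two h hQ f t
  obtain ⟨a, b⟩ := mu_two hc'
  have : c' = c := by rw [hc]; exact corner f t c' (h1 _ _ a) (h1 _ _ b)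
  subst this
  rcases hP with rfl | rfl
  · exact a
  · exact b

theorem term_Q0 (p : Fin 12 × Fin 3 → ℝ) : term p id Q0 = -((∏ f, ∏ t, p (f, t)) / 2 ^ 36) := by
  have h1 : ∀ f t, Mw p (le id f t) (mu Q0 f t) = p (f, t) * eta (f, t) * (1 / 2) := by
    intro f t
    obtain ⟨a, b, c, d⟩ := mu_Q0 f t
    rw [le_id, Mw_some p f t ?_ d, a, b, c, KK_val]
    · ring
    · intro h0
      rw [h0] at a
      simp at a
  have h2 : ∏ f : Fin 12, ∏ t : Fin 3, eta (f, t) = -1 := by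
    rw [← Fintype.prod_prod_type' (f := fun f t => eta (f, t))]
    unfold eta
    rw [Finset.prod_ite_eq']
    simp
  unfold term
  simp only [h1, Finset.prod_mul_distrib, h2]
  simp only [Finset.prod_const, Finset.card_univ, Fintype.card_fin]
  ring

end GadB

open GadB

theorem ZM_nonhom (p : Fin 12 × Fin 3 → ℝ) (ψ : VH → VH) (h : ∃ f t, le ψ f t = none) :
    ZM p ψ = 1 := by
  obtain ⟨f, t, hft⟩ := h
  rw [ZM_eq, Fintype.sum_eq_single (fun _ _ => false : QQ), term_zero]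
  intro Q hQ
  by_contra hne
  have h1 := term_ne hne f t
  rw [hft] at h1
  exact h1 (Mw_none p (all_ne hne hQ f t))

theorem ZM_hom (p : Fin 12 × Fin 3 → ℝ) (hp : ∀ e, 0 ≤ p e) (ψ : VH → VH)
    (e : Fin 12 → Fin 3 → Fin 12 × Fin 3) (h : ∀ f t, le ψ f t = some (e f t)) :
    ZM p ψ ≤ 1 + 2 ^ 144 * ∏ f, ∏ t, p (e f t) := by
  have hpp : 0 ≤ ∏ f, ∏ t, p (e f t) :=
    Finset.prod_nonneg fun f _ => Finset.prod_nonneg fun t _ => hp _
  have h1 : ∀ Q : QQ, Q ≠ (fun _ _ => false) → term p ψ Q ≤ ∏ f, ∏ t, p (e f t) := by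
    intro Q hQ
    by_cases hne : term p ψ Q = 0
    · rw [hne]; exact hpp
    refine (le_abs_self _).trans ?_
    unfold term
    rw [Finset.abs_prod]
    refine Finset.prod_le_prod (fun _ _ => abs_nonneg _) fun f _ => ?_
    rw [Finset.abs_prod]
    refine Finset.prod_le_prod (fun _ _ => abs_nonneg _) fun t _ => ?_
    rw [h]
    exact Mw_abs p _ (hp _) (all_ne hne hQ f t)
  have h2 := sum_le_gen (term p ψ) _ _ hpp h1
  have h3 : Fintype.card QQ = 2 ^ 144 := by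
    simp only [Fintype.card_fun, Fintype.card_bool, Fintype.card_fin, ← pow_mul]
  rw [h3, term_zero, ← ZM_eq] at h2
  exact_mod_cast h2

theorem ZM_id (p : Fin 12 × Fin 3 → ℝ) : ZM p id = 1 - (∏ f, ∏ t, p (f, t)) / 2 ^ 36 := by
  have hne : (fun _ _ => false : QQ) ≠ Q0 := by
    intro h0
    have := congrFun (congrFun h0 1) 0
    revert this
    decide
  rw [ZM_eq, Fintype.sum_eq_add _ _ hne, term_Q0, term_zero]
  · ring
  · intro Q hQ
    by_contra h0
    exact hQ.2 (eq_Q0 h0 hQ.1)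

end P050
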