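import Vale.Agent.P050.GadB
import Vale.Agent.P050.Cert

namespace P050

theorem GadC.lamV_le : ∀ v, lamV v ≤ 400 := by decide

theorem GadC.main (M : ℕ) (K : ℝ) (hK : K = 2 ^ 36 * (20 ^ 20 * 2 ^ 144)) (hM : K < M) :
    ∑ ψ : VH → VH, (∏ v, ((M ^ (400 - lamV (ψ v)) : ℕ) : ℝ)) *
      (ZM (fun e => (1 / (M : ℝ)) ^ lamE e) ψ - 1) < 0 := by
  have hK1 : 1 ≤ K := by rw [hK]; norm_num
  have hM0 : (0 : ℝ) < M := by linarith
  set x : ℝ := 1 / (M : ℝ) with hx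
  have hx0 : 0 < x := by positivity
  have hx1 : x ≤ 1 := by rw [hx, div_le_one hM0]; linarith
  have hxK : K * x < 1 := by rw [hx, mul_one_div, div_lt_one hM0]; exact hM
  obtain ⟨A, hA⟩ : ∃ A : ℝ, A = (M : ℝ) ^ 400 := ⟨_, rfl⟩
  have hA0 : 0 < A := by rw [hA]; positivity
  have hm : ∀ v, ((M ^ (400 - lamV v) : ℕ) : ℝ) = A * x ^ lamV v := by
    intro v
    rw [Nat.cast_pow, pow_sub₀ _ hM0.ne' (GadC.lamV_le v), hA, hx, one_div, inv_pow]
  have hw : ∀ ψ : VH → VH, ∏ v, ((M ^ (400 - lamV (ψ v)) : ℕ) : ℝ) =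
      (∏ _v : VH, A) * x ^ ∑ v, lamV (ψ v) := by
    intro ψ
    simp only [hm]
    rw [Finset.prod_mul_distrib, Finset.prod_pow_eq_pow_sum]
  have hB0 : 0 < ∏ _v : VH, A := Finset.prod_pos fun _ _ => hA0
  generalize (∏ _v : VH, A) = B at hw hB0
  have hp : ∀ e : Fin 12 → Fin 3 → Fin 12 × Fin 3,
      ∏ f, ∏ t, x ^ lamE (e f t) = x ^ ∑ f, ∑ t, lamE (e f t) := by
    intro e
    simp only [Finset.prod_pow_eq_pow_sum]
  obtain ⟨c, hc⟩ : ∃ c, c = (∑ v, lamV v) + (∑ f, ∑ t, lamE (f, t)) := ⟨_, rfl⟩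
  have hxc : 0 < B * x ^ c := by positivity
  have h1 := GadB.sum_le_gen (fun ψ : VH → VH => (∏ v, ((M ^ (400 - lamV (ψ v)) : ℕ) : ℝ)) *
      (ZM (fun e => x ^ lamE e) ψ - 1)) id (B * x ^ c * (2 ^ 144 * x)) (by positivity) ?_
  · refine h1.trans_lt ?_
    have hcard : (Fintype.card (VH → VH) : ℝ) = 20 ^ 20 := by
      simp only [Fintype.card_fun, Fintype.card_sum, Fintype.card_fin]
      norm_num
    rw [hcard, hw, ZM_id, hp fun f t => (f, t)]
    simp only [id]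
    have e1 : B * x ^ (∑ v, lamV v) * (1 - x ^ (∑ f, ∑ t, lamE (f, t)) / 2 ^ 36 - 1) +
        20 ^ 20 * (B * x ^ c * (2 ^ 144 * x)) = B * x ^ c * (K * x - 1) / 2 ^ 36 := by
      rw [hc, hK, pow_add]
      ring
    rw [e1]
    exact div_neg_of_neg_of_pos (mul_neg_of_pos_of_neg hxc (by linarith)) (by positivity)
  · intro ψ hψ
    by_cases h : ∃ f t, le ψ f t = none
    · simp only [ZM_nonhom _ ψ h, sub_self, mul_zero]
      positivity
    · push Not at h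
      choose e he using fun f t => Option.ne_none_iff_exists'.mp (h f t)
      have h2 := ZM_hom (fun e => x ^ lamE e) (fun e => by positivity) ψ e he
      have h3 := cert ψ e he hψ
      rw [← hc] at h3
      have h4 := pow_le_pow_of_le_one hx0.le hx1 h3
      rw [hp] at h2
      rw [hw]
      calc B * x ^ (∑ v, lamV (ψ v)) * (ZM (fun e => x ^ lamE e) ψ - 1)
          ≤ B * x ^ (∑ v, lamV (ψ v)) * (2 ^ 144 * x ^ ∑ f, ∑ t, lamE (e f t)) :=
            mul_le_mul_of_nonneg_left (by linarith) (by positivity)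
        _ = B * 2 ^ 144 * x ^ ((∑ v, lamV (ψ v)) + ∑ f, ∑ t, lamE (e f t)) := by
            rw [pow_add]; ring
        _ ≤ B * 2 ^ 144 * x ^ (c + 1) := mul_le_mul_of_nonneg_left h4 (by positivity)
        _ = B * x ^ c * (2 ^ 144 * x) := by rw [pow_succ]; ring

theorem gadC : ∃ (p : Fin 12 × Fin 3 → ℝ) (m : VH → ℕ), (∀ e, 0 ≤ p e ∧ p e ≤ 1) ∧
    (∀ v, 0 < m v) ∧
    (∑ ψ : VH → VH, (∏ v, (m (ψ v) : ℝ)) * ZM p ψ) / (∑ v, (m v : ℝ)) ^ 20 < 1 := by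
  obtain ⟨M, hM⟩ := exists_nat_gt ((2 : ℝ) ^ 36 * (20 ^ 20 * 2 ^ 144))
  have h := GadC.main M _ rfl hM
  have hM1 : (1 : ℝ) ≤ M := le_trans (by norm_num) hM.le
  have hM0 : 0 < M := by exact_mod_cast lt_of_lt_of_le one_pos hM1
  refine ⟨fun e => (1 / (M : ℝ)) ^ lamE e, fun v => M ^ (400 - lamV v), fun e => ⟨by positivity,
    pow_le_one₀ (by positivity) (by rw [div_le_one (by linarith)]; exact hM1)⟩,
    fun v => by positivity, ?_⟩
  have hS : (0 : ℝ) < ∑ v, ((M ^ (400 - lamV v) : ℕ) : ℝ) :=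
    Finset.sum_pos (fun v _ => by positivity) Finset.univ_nonempty
  rw [div_lt_one (by positivity)]
  have h2 : (∑ v, ((M ^ (400 - lamV v) : ℕ) : ℝ)) ^ 20 =
      ∑ ψ : VH → VH, ∏ v, ((M ^ (400 - lamV (ψ v)) : ℕ) : ℝ) := by
    rw [← Fintype.piFinset_univ, ← Finset.prod_univ_sum (fun _ => Finset.univ)
      (fun (_ : VH) v => ((M ^ (400 - lamV v) : ℕ) : ℝ)), Finset.prod_const]
    simp only [Finset.card_univ, Fintype.card_sum, Fintype.card_fin]
  simp only [mul_sub, mul_one, Finset.sum_sub_distrib] at h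
  rw [h2]
  linarith

end P050
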