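import Vale.Agent.P050.Defs

namespace P050

open Finset

namespace Graph

lemma sum_prod_fun {κ α : Type} [Fintype κ] [DecidableEq κ] [Fintype α] (g : κ → α → ℝ) :
    ∑ z : κ → α, ∏ c, g c (z c) = ∏ c, ∑ a, g c a := by
  rw [Finset.prod_univ_sum, Fintype.piFinset_univ]

/-- the edge of `H` at a corner of a face -/
def eg (e : Fin 12 × Fin 3) : Sym2 VH := s(.inl (fv e.1 e.2), .inr e.1)

lemma fv_inj : ∀ f t t', fv f t = fv f t' → t = t' := by decide

lemma eg_inj : Function.Injective eg := by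
  rintro ⟨f, t⟩ ⟨f', t'⟩ h
  simp only [eg, Sym2.eq_iff, Sum.inl.injEq, Sum.inr.injEq, reduceCtorEq, and_self,
    or_false] at h
  obtain ⟨h1, rfl⟩ := h
  rw [fv_inj _ _ _ h1]

lemma adj_corner (f : Fin 12) (t : Fin 3) : HG.Adj (.inl (fv f t)) (.inr f) := by
  simp only [HG, SimpleGraph.fromRel_adj]
  exact ⟨by simp, .inl ⟨f, t, rfl, rfl⟩⟩

lemma edgeSet_eq : HG.edgeSet = Set.range eg := by
  ext e
  induction e using Sym2.ind with
  | h a b =>
    constructor
    · intro h
      simp only [SimpleGraph.mem_edgeSet, HG, SimpleGraph.fromRel_adj] at h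
      rcases h.2 with ⟨f, t, rfl, rfl⟩ | ⟨f, t, rfl, rfl⟩
      · exact ⟨(f, t), rfl⟩
      · exact ⟨(f, t), Sym2.eq_swap⟩
    · rintro ⟨⟨f, t⟩, h⟩
      rw [← h]
      exact adj_corner f t

lemma card_edge : Nat.card HG.edgeSet = 36 := by
  rw [edgeSet_eq, Nat.card_range_of_injective eg_inj]; simp

section rnd

variable {E : Type} [Fintype E] [DecidableEq E]

/-- product weight -/
noncomputable def pw (q : E → ℝ) (ω : E → Bool) : ℝ := ∏ e, if ω e then q e else 1 - q e

/-- indicator -/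
def ind (b : Bool) : ℝ := if b then 1 else 0

lemma ind_nonneg (b : Bool) : 0 ≤ ind b := by cases b <;> simp [ind]
lemma ind_le (b : Bool) : ind b ≤ 1 := by cases b <;> simp [ind]

omit [DecidableEq E] in
lemma pw_nonneg {q : E → ℝ} (h : ∀ e, 0 ≤ q e ∧ q e ≤ 1) (ω : E → Bool) : 0 ≤ pw q ω :=
  prod_nonneg fun e _ => by split_ifs; exacts [(h e).1, sub_nonneg.2 (h e).2]

lemma pw_set (q : E → ℝ) (S : Finset E) :
    ∑ ω : E → Bool, pw q ω * ∏ e ∈ S, ind (ω e) = ∏ e ∈ S, q e := by
  have e1 : ∀ g : E → ℝ, ∏ e ∈ S, g e = ∏ e, if e ∈ S then g e else 1 := fun g => by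
    rw [prod_ite_mem]; simp
  simp_rw [e1, pw, ← prod_mul_distrib]
  rw [sum_prod_fun (fun e (b : Bool) => (if b then q e else 1 - q e) *
    if e ∈ S then ind b else 1)]
  refine prod_congr rfl fun e _ => ?_
  split_ifs <;> simp [ind]

lemma pw_sum (q : E → ℝ) : ∑ ω : E → Bool, pw q ω = 1 := by simpa using pw_set q ∅

lemma pw_inj {J : Type} [Fintype J] (q : E → ℝ) (g : J → E) (hg : Function.Injective g) :
    ∑ ω : E → Bool, pw q ω * ∏ j, ind (ω (g j)) = ∏ j, q (g j) := by
  have := pw_set q (univ.image g)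
  simp_rw [prod_image fun a _ b _ h => hg h] at this
  exact this

end rnd

lemma card_coll {κ V : Type} [Fintype κ] [DecidableEq κ] [Fintype V] [DecidableEq V] {a b : κ}
    (h : a ≠ b) : (Fintype.card V : ℝ) * ∑ g : κ → V, (if g a = g b then (1 : ℝ) else 0) =
      (Fintype.card V : ℝ) ^ Fintype.card κ := by
  have e1 : ∀ g : κ → V, (if g a = g b then (1 : ℝ) else 0) =
      ∑ c : V, ∏ v, if v = a ∨ v = b then (if g v = c then (1 : ℝ) else 0) else 1 := by
    intro g
    have : ∀ c : V, (∏ v, if v = a ∨ v = b then (if g v = c then (1 : ℝ) else 0) else 1) =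
        (if g a = c then (1 : ℝ) else 0) * (if g b = c then (1 : ℝ) else 0) := by
      intro c
      rw [← prod_pair (f := fun v => if g v = c then (1 : ℝ) else 0) h, ← prod_filter]
      congr 1
      ext v; simp
    simp_rw [this]
    rw [sum_eq_single (g a) (fun c _ hc => by simp [Ne.symm hc]) (by simp)]
    simp [eq_comm]
  simp_rw [e1]
  rw [sum_comm]
  simp_rw [fun c : V => sum_prod_fun
    (fun v (x : V) => if v = a ∨ v = b then (if x = c then (1 : ℝ) else 0) else 1)]
  have e2 : ∀ c : V, (∏ v, ∑ x : V,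
      if v = a ∨ v = b then (if x = c then (1 : ℝ) else 0) else 1) =
      ∏ v ∈ (univ.erase a).erase b, (Fintype.card V : ℝ) := by
    intro c
    rw [← mul_prod_erase univ _ (mem_univ a), ← mul_prod_erase (univ.erase a) _
      (show b ∈ _ by simp [h.symm])]
    rw [prod_congr rfl (g := fun _ => (Fintype.card V : ℝ)) fun v hv => by
      simp only [mem_erase] at hv
      simp [hv.1, hv.2.1]]
    simp
  simp_rw [e2]
  rw [← card_univ (α := κ), ← prod_const, ← mul_prod_erase univ _ (mem_univ a),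
    ← mul_prod_erase (univ.erase a) _ (show b ∈ _ by simp [h.symm])]
  simp

lemma card_noninj {κ V : Type} [Fintype κ] [DecidableEq κ] [Fintype V] [DecidableEq V] :
    (Fintype.card V : ℝ) * ∑ g : κ → V, (if Function.Injective g then (0 : ℝ) else 1) ≤
      (Fintype.card κ : ℝ) ^ 2 * (Fintype.card V : ℝ) ^ Fintype.card κ := by
  have e1 : ∀ g : κ → V, (if Function.Injective g then (0 : ℝ) else 1) ≤
      ∑ z : κ × κ, if z.1 = z.2 then 0 else (if g z.1 = g z.2 then (1 : ℝ) else 0) := by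
    intro g
    have hn : ∀ z ∈ (univ : Finset (κ × κ)),
        (0 : ℝ) ≤ if z.1 = z.2 then 0 else (if g z.1 = g z.2 then (1 : ℝ) else 0) :=
      fun z _ => by split_ifs <;> simp
    split_ifs with hg
    · exact sum_nonneg hn
    · obtain ⟨a, b, h1, h2⟩ := Function.not_injective_iff.1 hg
      simpa [h1, h2] using single_le_sum hn (mem_univ (a, b))
  refine (mul_le_mul_of_nonneg_left (sum_le_sum fun g _ => e1 g) (by positivity)).trans ?_
  rw [sum_comm, mul_sum]
  refine (sum_le_sum (g := fun _ => (Fintype.card V : ℝ) ^ Fintype.card κ) fun z _ => ?_).trans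
    (le_of_eq (by simp [sq]))
  by_cases h : z.1 = z.2
  · simp [h]
  · simp only [h, if_false]
    exact (card_coll h).le

section G

variable {V : Type} [Fintype V] [DecidableEq V]

/-- the graph of a configuration -/
def GG (ω : Sym2 V → Bool) : SimpleGraph V := SimpleGraph.fromEdgeSet {e | ω e}

omit [DecidableEq V] in
lemma hom_le (ω : Sym2 V → Bool) : (Nat.card (HG →g GG ω) : ℝ) ≤
    ∑ φ : VH → V, ∏ e : Fin 12 × Fin 3, ind (ω ((eg e).map φ)) := by
  classical
  let S : Finset (VH → V) := univ.filter fun φ => ∀ e : Fin 12 × Fin 3, ω ((eg e).map φ)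
  have h1 : Nat.card (HG →g GG ω) ≤ S.card := by
    rw [← Nat.card_eq_finsetCard]
    refine Nat.card_le_card_of_injective (fun φ => ⟨φ, ?_⟩) fun φ φ' h => ?_
    · simp only [S, mem_filter, mem_univ, true_and]
      intro e
      have := φ.map_rel (adj_corner e.1 e.2)
      simp only [GG, SimpleGraph.fromEdgeSet_adj] at this
      exact this.1
    · exact RelHom.ext fun v => congrFun (congrArg Subtype.val h) v
  calc (Nat.card (HG →g GG ω) : ℝ) ≤ S.card := by exact_mod_cast h1
    _ = ∑ φ ∈ S, ∏ e : Fin 12 × Fin 3, ind (ω ((eg e).map φ)) := by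
      rw [sum_congr rfl (g := fun _ => (1 : ℝ))]
      · simp
      · intro φ hφ
        simp only [S, mem_filter, mem_univ, true_and] at hφ
        simp [hφ, ind]
    _ ≤ _ := sum_le_sum_of_subset_of_nonneg (subset_univ _) fun φ _ _ =>
      prod_nonneg fun _ _ => ind_nonneg _

lemma edge_ge (ω : Sym2 V → Bool) : ∑ z : V × V, ind (ω s(z.1, z.2)) - Fintype.card V ≤
    2 * (Nat.card (GG ω).edgeSet : ℝ) := by
  classical
  have h1 := (GG ω).sum_degrees_eq_twice_card_edges
  have h2 : Nat.card (GG ω).edgeSet = (GG ω).edgeFinset.card := by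
    rw [SimpleGraph.edgeFinset_card, Nat.card_eq_fintype_card]
  have h3 : 2 * (Nat.card (GG ω).edgeSet : ℝ) = ∑ v, ((GG ω).degree v : ℝ) := by
    rw [h2]; exact_mod_cast h1.symm
  rw [h3, Fintype.sum_prod_type, sub_le_iff_le_add, ← card_univ, card_eq_sum_ones, Nat.cast_sum,
    ← sum_add_distrib]
  refine sum_le_sum fun a _ => ?_
  rw [← SimpleGraph.card_neighborFinset_eq_degree, SimpleGraph.neighborFinset_eq_filter,
    card_filter, Nat.cast_sum]
  have : ((1 : ℕ) : ℝ) = ∑ b : V, if a = b then (1 : ℝ) else 0 := by simp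
  rw [this, ← sum_add_distrib]
  refine sum_le_sum fun b _ => ?_
  simp only [GG, SimpleGraph.fromEdgeSet_adj, Set.mem_ofPred_eq, ind]
  by_cases h : a = b <;> by_cases h' : ω s(a, b) <;> simp [h, h']
  all_goals split_ifs <;> simp

end G

end Graph

open Graph

theorem HG_bip : HG.IsBipartite := by
  refine ⟨SimpleGraph.Coloring.mk (fun v => v.elim (fun _ => 0) (fun _ => 1)) ?_⟩
  intro a b h
  simp only [HG, SimpleGraph.fromRel_adj] at h
  rcases h.2 with ⟨f, t, rfl, rfl⟩ | ⟨f, t, rfl, rfl⟩ <;> simp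

theorem HG_ne_bot : HG ≠ ⊥ := fun h => by
  have := adj_corner 0 0
  rw [h] at this
  exact this

theorem to_graph {Y : Type} [Fintype Y] [DecidableEq Y] [Nonempty Y] (U : Y → Y → ℝ)
    (h0 : ∀ x y, 0 ≤ U x y) (hs : ∀ x y, U x y = U y x)
    (hm : av (fun z : Y × Y => U z.1 z.2) = 1) (ht : tH U < 1) :
    ∃ (V : Type) (_ : Fintype V) (_ : Nonempty V) (G : SimpleGraph V),
      (Nat.card (HG →g G) : ℝ) / (Fintype.card V : ℝ) ^ Fintype.card VH <
        (2 * (Nat.card G.edgeSet : ℝ) / (Fintype.card V : ℝ) ^ 2) ^ Nat.card HG.edgeSet := by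
  have cY : (0 : ℝ) < Fintype.card Y := by exact_mod_cast Fintype.card_pos
  have cY1 : (1 : ℝ) ≤ Fintype.card Y := by exact_mod_cast Fintype.card_pos
  set S : ℝ := ∑ z : Y × Y, U z.1 z.2 with hS
  have hS2 : S = (Fintype.card Y : ℝ) ^ 2 := by
    unfold av at hm
    rw [div_eq_one_iff_eq (by simp [cY.ne'])] at hm
    rw [hS, hm]; simp [sq]
  have hS0 : 0 < S := by rw [hS2]; positivity
  set p : ℝ := S⁻¹ with hp
  have hp0 : 0 < p := inv_pos.2 hS0
  have hu : ∀ x y, p * U x y ≤ 1 := fun x y => by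
    rw [hp, inv_mul_le_iff₀ hS0, mul_one]
    exact single_le_sum (f := fun z : Y × Y => U z.1 z.2) (fun z _ => h0 _ _) (mem_univ (x, y))
  obtain ⟨δ, hδ, hδ'⟩ : ∃ δ > 0, ∀ ε : ℝ, |ε| < δ →
      tH U * p ^ 36 < (p - ε) ^ 36 - 400 * ε ∧ ε < p := by
    have c1 : ContinuousAt (fun ε : ℝ => (p - ε) ^ 36 - 400 * ε) 0 := by fun_prop
    have e1 := c1.eventually (lt_mem_nhds (a := tH U * p ^ 36) (by
      have := mul_lt_mul_of_pos_right ht (pow_pos hp0 36)
      simpa using this))
    obtain ⟨δ, h1, h2⟩ := Metric.eventually_nhds_iff.1 (e1.and (gt_mem_nhds hp0))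
    exact ⟨δ, h1, fun ε hε => h2 (by simpa using hε)⟩
  obtain ⟨N, hN⟩ := exists_nat_one_div_lt hδ
  let V := Y × Fin (N + 1)
  have cV : (Fintype.card V : ℝ) = Fintype.card Y * (N + 1) := by simp [V]
  have cV0 : (0 : ℝ) < Fintype.card V := by rw [cV]; positivity
  obtain ⟨k1, k2⟩ := hδ' (1 / Fintype.card V) (by
    rw [abs_of_pos (by positivity)]
    refine lt_of_le_of_lt (one_div_le_one_div_of_le (by positivity) ?_) hN
    rw [cV]; nlinarith [(Nat.cast_nonneg N : (0 : ℝ) ≤ N)])
  let q : Sym2 V → ℝ := Sym2.lift ⟨fun a b => p * U a.1 b.1, fun a b => by simp only [hs a.1]⟩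
  have hq : ∀ e, 0 ≤ q e ∧ q e ≤ 1 := fun e => by
    induction e using Sym2.ind with
    | h a b => exact ⟨mul_nonneg hp0.le (h0 _ _), hu _ _⟩
  have hw := pw_nonneg hq
  refine ⟨V, inferInstance, inferInstance, ?_⟩
  by_contra hcon
  push Not at hcon
  rw [card_edge] at hcon
  have cH : Fintype.card VH = 20 := by simp
  rw [cH] at hcon
  set T : (Sym2 V → Bool) → ℝ := fun ω => (Nat.card (HG →g GG ω) : ℝ) / (Fintype.card V : ℝ) ^ 20
  set P : (Sym2 V → Bool) → ℝ := fun ω =>
    2 * (Nat.card (GG ω).edgeSet : ℝ) / (Fintype.card V : ℝ) ^ 2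
  have a1 : ∑ ω, pw q ω * P ω ^ 36 ≤ ∑ ω, pw q ω * T ω :=
    sum_le_sum fun ω _ => mul_le_mul_of_nonneg_left (hcon _) (hw ω)
  have a2 := Real.pow_arith_mean_le_arith_mean_pow univ (pw q) P (fun ω _ => hw ω) (pw_sum q)
    (fun ω _ => by positivity) 36
  have a3 : p - 1 / Fintype.card V ≤ ∑ ω, pw q ω * P ω := by
    have b1 : ∑ ω, pw q ω * (∑ z : V × V, ind (ω s(z.1, z.2)) - Fintype.card V) =
        p * (Fintype.card V : ℝ) ^ 2 - Fintype.card V := by
      simp_rw [mul_sub, mul_sum]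
      rw [sum_sub_distrib, ← sum_mul, pw_sum, one_mul, sum_comm]
      congr 1
      have : ∀ z : V × V, ∑ ω, pw q ω * ind (ω s(z.1, z.2)) = p * U z.1.1 z.2.1 := fun z => by
        simpa [q] using pw_set q {s(z.1, z.2)}
      simp_rw [this]
      rw [← mul_sum, cV, mul_pow, ← hS2, hS]
      simp only [V, Fintype.sum_prod_type, sum_const, card_univ, Fintype.card_fin, nsmul_eq_mul,
        ← mul_sum]
      push_cast; ring
    have b2 : p - 1 / Fintype.card V =
        (p * (Fintype.card V : ℝ) ^ 2 - Fintype.card V) / (Fintype.card V : ℝ) ^ 2 := by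
      field_simp
    rw [b2, ← b1, sum_div]
    refine sum_le_sum fun ω _ => ?_
    rw [mul_div_assoc]
    exact mul_le_mul_of_nonneg_left
      (div_le_div_of_nonneg_right (edge_ge ω) (by positivity)) (hw ω)
  have a4 : ∑ ω, pw q ω * T ω ≤ tH U * p ^ 36 + 400 * (1 / Fintype.card V) := by
    have b1 : ∀ φ : VH → V, ∑ ω, pw q ω * ∏ e : Fin 12 × Fin 3, ind (ω ((eg e).map φ)) ≤
        ∏ e : Fin 12 × Fin 3, q ((eg e).map φ) + if Function.Injective φ then (0 : ℝ) else 1 := by
      intro φ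
      split_ifs with h
      · rw [add_zero]
        exact (pw_inj q _ ((Sym2.map.injective h).comp eg_inj)).le
      · refine le_add_of_nonneg_of_le (prod_nonneg fun e _ => (hq _).1) ?_
        rw [← pw_sum q]
        exact sum_le_sum fun ω _ => mul_le_of_le_one_right (hw ω)
          (prod_le_one (fun _ _ => ind_nonneg _) fun _ _ => ind_le _)
    have b2 : ∑ φ : VH → V, ∏ e : Fin 12 × Fin 3, q ((eg e).map φ) =
        tH U * p ^ 36 * (Fintype.card V : ℝ) ^ 20 := by
      have : ∀ φ : VH → V, ∏ e : Fin 12 × Fin 3, q ((eg e).map φ) =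
          p ^ 36 * ∏ f, ∏ t, U (φ (.inl (fv f t))).1 (φ (.inr f)).1 := fun φ => by
        rw [← Fintype.prod_prod_type' (fun f t => U (φ (.inl (fv f t))).1 (φ (.inr f)).1)]
        simp [q, eg, prod_mul_distrib]
      simp_rw [this]
      rw [← mul_sum, ← (Equiv.arrowProdEquivProdArrow VH (fun _ => Y)
        (fun _ => Fin (N + 1))).symm.sum_comp, Fintype.sum_prod_type, cV]
      unfold tH av
      simp only [Equiv.arrowProdEquivProdArrow_symm_apply, sum_const, card_univ, Fintype.card_fun,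
        Fintype.card_fin, nsmul_eq_mul, ← mul_sum, cH]
      push_cast
      field_simp
    have b3 := card_noninj (κ := VH) (V := V)
    rw [cH] at b3
    have b4 : ∑ ω, pw q ω * T ω ≤ (∑ φ : VH → V, ∑ ω, pw q ω *
        ∏ e : Fin 12 × Fin 3, ind (ω ((eg e).map φ))) / (Fintype.card V : ℝ) ^ 20 := by
      rw [sum_comm, sum_div]
      refine sum_le_sum fun ω _ => ?_
      rw [← mul_sum, mul_div_assoc]
      exact mul_le_mul_of_nonneg_left
        (div_le_div_of_nonneg_right (hom_le ω) (by positivity)) (hw ω)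
    refine b4.trans ?_
    rw [div_le_iff₀ (by positivity)]
    refine (sum_le_sum fun φ _ => b1 φ).trans ?_
    rw [sum_add_distrib, b2, add_mul]
    gcongr
    rw [mul_one_div, div_mul_eq_mul_div, le_div_iff₀ cV0, mul_comm]
    refine b3.trans (le_of_eq ?_)
    norm_num
  have a5 : (p - 1 / Fintype.card V) ^ 36 ≤ (∑ ω, pw q ω * P ω) ^ 36 :=
    pow_le_pow_left₀ (by linarith) a3 36
  linarith

end P050
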