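import Vale.Agent.P050.LayX

namespace P050
open Finset

variable {F : Type} [Field F] [Fintype F] [DecidableEq F] {k : ℕ}

namespace Lay

/-- reference Lagrangian -/
noncomputable def rl (k : ℕ) (x : Fin 8 → ZZ F k) (o : Option (Fin 8)) :
    Submodule F (Om F (II k)) :=
  o.elim (Linf F (II k)) fun u => gr (x u).1

/-- vertex weight -/
noncomputable def psi (k : ℕ) (v : Fin 8) (x : Fin 8 → ZZ F k) : ℝ :=
  (Fintype.card F : ℝ) ^ (-(ExL ((2 * k : ℕ) : ℝ) (rl k x (rf v 0)) (rl k x (rf v 1))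
    (rl k x (rf v 2)) (gr (x v).1) - Tn ((2 * k : ℕ) : ℝ)))

omit [Fintype F] [DecidableEq F] in
theorem rl_lag (x : Fin 8 → ZZ F k) (o : Option (Fin 8)) : Lag (Bf F (II k)) (rl k x o) := by
  cases o
  exacts [Linf_lag, gr_lag _]

omit [Fintype F] [DecidableEq F] in
theorem rl_T (x : Fin 8 → ZZ F k) {v w : Fin 8} (h : w ≤ v) (t : Fin 3) (y : Sy F (II k)) :
    rl k (T x v y) (rf w t) = rl k x (rf w t) := by
  have key : ∀ w t u, rf w t = some u → u < w := by decide
  cases hr : rf w t with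
  | none => rfl
  | some u => simp only [rl, Option.elim, T_ne _ ((key w t u hr).trans_le h).ne]

theorem card_II : Fintype.card (II k) = 2 * k := by simp [two_mul]

omit [Fintype F] [DecidableEq F] in
theorem symp : Symp (Bf F (II k)) (2 * k) := card_II (k := k) ▸ Bf_symp

theorem psi_av (hc : ringChar F ≠ 2) (v : Fin 8) (x : Fin 8 → ZZ F k) :
    av (fun y => psi k v (T x v y)) ≤ (((2 * k : ℕ) : ℝ) + 1) ^ 7 * 5 ^ (2 * k) := by
  classical
  have hq : (0 : ℝ) < Fintype.card F := by positivity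
  have H := sum_bound symp hc (rl_lag x (rf v 0)) (rl_lag x (rf v 1)) (rl_lag x (rf v 2))
    (univ.image gr) fun w hw => by
      obtain ⟨y, -, rfl⟩ := mem_image.1 hw
      exact gr_lag y
  rw [sum_image fun a _ b _ h => gr_inj h] at H
  refine le_of_eq_of_le ?_ H
  simp only [psi, rl_T x le_rfl, T_self, neg_sub, av, Real.rpow_sub hq, Real.rpow_neg hq.le,
    card_Sy, card_II, div_eq_mul_inv, ← mul_sum]
  have : (Fintype.card F : ℝ) ^ Tn ((2 * k : ℕ) : ℝ) ≠ 0 := by positivity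
  field_simp

open Classical in
theorem deg_pt (hc : ringChar F ≠ 2) (hk1 : 10 ^ 7 ≤ k) (hq : 4 * k ≤ Fintype.card F)
    (ε : Pat) (x : Fin 8 → ZZ F k) :
    (if Gen k x then 0 else Phi k ε x) ≤
      (64 * ((((2 * k : ℕ) : ℝ) + 1) ^ 7 * 5 ^ (2 * k))) ^ 12 *
        (Fintype.card F : ℝ) ^ (-1 / 10 ^ 6 : ℝ) * ∏ v, psi k v x := by
  have hq0 : (0 : ℝ) < Fintype.card F := by positivity
  have hq1 : (1 : ℝ) ≤ Fintype.card F := by exact_mod_cast Fintype.card_pos
  split_ifs with hG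
  · exact mul_nonneg (by positivity) (prod_nonneg fun v _ => by unfold psi; positivity)
  have H := theta (symp (F := F) (k := k)) (by omega) (fun v => gr (x v).1) (Linf F (II k))
    (fun v => gr_lag _) (fun v => gr_inf_Linf _) (by
      by_contra h
      push Not at h
      exact hG fun P => (gr_inf_bot _ _).1 (h P))
  refine (prod_le_prod (fun f _ => FK_nonneg _ _) fun f _ =>
    FK_deg hc (by omega) hq _ _).trans ?_
  rw [prod_mul_distrib, prod_const, card_univ, Fintype.card_fin, mul_assoc _ _ (∏ v, psi k v x)]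
  refine mul_le_mul_of_nonneg_left ?_ (by positivity)
  simp only [psi]
  rw [← Real.rpow_sum_of_pos hq0, ← Real.rpow_sum_of_pos hq0, ← Real.rpow_add hq0, sum_neg_distrib]
  exact Real.rpow_le_rpow_of_exponent_le hq1 (le_add_neg_iff_add_le.2 H)

end Lay

open Lay

open Classical in
theorem deg_part (hc : ringChar F ≠ 2) (hk1 : 10 ^ 7 ≤ k) (hq : 4 * k ≤ Fintype.card F)
    (ε : Pat) :
    av (fun x : Fin 8 → ZZ F k => if Gen k x then 0 else Phi k ε x) ≤
      64 ^ 12 * ((((2 * k : ℕ) : ℝ) + 1) ^ 7 * 5 ^ (2 * k)) ^ 20 *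
        (Fintype.card F : ℝ) ^ (-1 / 10 ^ 6 : ℝ) := by
  refine (Av.mono (deg_pt hc hk1 hq ε)).trans ?_
  rw [Av.mul_left]
  have H := av_chain (psi (F := F) k) (by positivity) (fun v x => by unfold psi; positivity)
    (fun v w h x y => by simp only [psi, rl_T x h.le, T_ne _ h.ne]) (psi_av hc) univ
  refine (mul_le_mul_of_nonneg_left H (by positivity)).trans (le_of_eq ?_)
  rw [card_univ, Fintype.card_fin]
  generalize (((2 * k : ℕ) : ℝ) + 1) ^ 7 * 5 ^ (2 * k) = C
  ring

end P050
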