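import Vale.Agent.P050.Face

namespace P050

variable {F : Type} [Field F] [Fintype F] [DecidableEq F]

/-- product of the twelve face kernels -/
noncomputable def Phi (k : ℕ) (ε : Pat) (x : Fin 8 → ZZ F k) : ℝ :=
  ∏ f, FK k (fun t => ε f t * sg (x (fv f t)).2) (fun t => (x (fv f t)).1)

/-- all eighteen differences are invertible -/
def Gen (k : ℕ) (x : Fin 8 → ZZ F k) : Prop :=
  ∀ P : Fin 18, (mat ((x (eu P)).1 - (x (ev P)).1)).det ≠ 0

end P050
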