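import Vale.Agent.P050.LayX

namespace P050
open Finset

variable {F : Type} [Field F] [Fintype F] [DecidableEq F] {k : ℕ}

namespace Lay

/-- signed quadratic character along an edge -/
noncomputable def gm (k : ℕ) (P : Fin 18) (x : Fin 8 → ZZ F k) : ℝ :=
  (sg (x (eu P)).2 : ℝ) * (sg (x (ev P)).2 : ℝ) * gg ((x (eu P)).1 - (x (ev P)).1)

theorem sg_abs (b : Bool) : |(sg b : ℝ)| = 1 := by cases b <;> simp [sg]

theorem st_abs (s : SignType) : |(s : ℝ)| ≤ 1 := by cases s <;> simp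

theorem ps_abs (ε : Pat) (e : Fin 12 × Fin 3) : |ps ε e| ≤ 1 := by
  rw [ps, abs_mul]
  exact mul_le_one₀ (st_abs _) (abs_nonneg _) (st_abs _)

theorem gm_abs (P : Fin 18) (x : Fin 8 → ZZ F k) : |gm k P x| ≤ 1 := by
  simp only [gm, abs_mul, sg_abs, one_mul, gg_abs]

theorem gm_congr {P : Fin 18} {x x' : Fin 8 → ZZ F k} (h1 : x (eu P) = x' (eu P))
    (h2 : x (ev P) = x' (ev P)) : gm k P x = gm k P x' := by
  simp only [gm, h1, h2]

theorem prod_abs {κ : Type} (s : Finset κ) {f : κ → ℝ} {c : ℝ} (h : ∀ i, |f i| ≤ c) :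
    |∏ i ∈ s, f i| ≤ c ^ s.card := by
  rw [abs_prod, ← prod_const]
  exact prod_le_prod (fun _ _ => abs_nonneg _) fun i _ => h i

theorem count (hc : ringChar F ≠ 2) (hk1 : 1 ≤ k) {S : Finset (Fin 18)} (hS : S.Nonempty) :
    |av fun x : Fin 8 → ZZ F k => ∏ P ∈ S, gm k P x| ≤
      √(2 / (Fintype.card F : ℝ)) + 2 * k / (Fintype.card F : ℝ) := by
  obtain ⟨P0, h0⟩ := hS
  have : Nonempty (II k) := ⟨.inl ⟨0, hk1⟩⟩
  have huv : ∀ P, ev P ≠ eu P := by decide
  have key : ∀ P0 P : Fin 18, P ≠ P0 → eu P = ev P0 ∨ ev P = ev P0 →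
      eu P ≠ eu P0 ∧ ev P ≠ eu P0 := by decide
  rw [resample _ (eu P0), resample _ (ev P0)]
  refine (Av.abs_le _).trans (Av.le_const fun x => ?_)
  have H := qr hc (fun y => (sg (x (eu P0)).2 : ℝ) * (sg (x (ev P0)).2 : ℝ) *
      ∏ P ∈ (S.erase P0).filter fun P => ¬ (eu P = ev P0 ∨ ev P = ev P0), gm k P (T x (eu P0) y))
    (fun z => ∏ P ∈ (S.erase P0).filter fun P => eu P = ev P0 ∨ ev P = ev P0,
      gm k P (T x (ev P0) z))
    (fun y => by
      rw [abs_mul, abs_mul, sg_abs, sg_abs, one_mul, one_mul]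
      simpa using prod_abs _ fun P => gm_abs P _)
    (fun z => by simpa using prod_abs _ fun P => gm_abs P _)
  rw [Av.prod, Av.comm] at H
  have hcard : (Fintype.card (II k) : ℝ) = 2 * k := by simp [two_mul]
  rw [hcard] at H
  refine le_of_eq_of_le (congrArg abs (congrArg av (funext fun z => congrArg av (funext fun y =>
    ?_)))) H
  have e : ∀ w, w ≠ ev P0 → T (T x (ev P0) z) (eu P0) y w = T x (eu P0) y w := fun w hw => by
    by_cases h : w = eu P0
    · rw [h, T_self, T_self, T_ne _ (huv P0).symm]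
    · rw [T_ne _ h, T_ne _ h, T_ne _ hw]
  rw [← mul_prod_erase _ _ h0, ← prod_filter_not_mul_prod_filter _
    fun P => eu P = ev P0 ∨ ev P = ev P0]
  rw [prod_congr rfl (g := fun P => gm k P (T x (eu P0) y)) fun P hP => by
      have := not_or.1 (mem_filter.1 hP).2
      exact gm_congr (e _ this.1) (e _ this.2),
    prod_congr (s₁ := filter (fun P => eu P = ev P0 ∨ ev P = ev P0) _) rfl
      (g := fun P => gm k P (T x (ev P0) z)) fun P hP => by
      have := key P0 P (ne_of_mem_erase (mem_filter.1 hP).1) (mem_filter.1 hP).2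
      exact gm_congr (T_ne _ this.1 _) (T_ne _ this.2 _)]
  simp only [gm, T_self, T_ne _ (huv P0), T_ne _ (huv P0).symm]
  ring

omit [Field F] [DecidableEq F] in
theorem lam_nonneg (hk1 : 1 ≤ k) (hq : 4 * k ≤ Fintype.card F) :
    0 ≤ lam k (Fintype.card F) := by
  have h1 : (1 : ℝ) ≤ k := by exact_mod_cast hk1
  have h2 : (4 : ℝ) * k ≤ Fintype.card F := by exact_mod_cast hq
  have h3 : 0 ≤ 1 - 2 * (k : ℝ) / Fintype.card F := by
    rw [sub_nonneg, div_le_one (by linarith)]; linarith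
  exact div_nonneg (pow_nonneg (div_nonneg (by linarith) (by linarith)) _) (pow_nonneg h3 _)

open Classical in
theorem gen_pt (hc : ringChar F ≠ 2) (hk : Even k) (hk1 : 1 ≤ k) (hq : 4 * k ≤ Fintype.card F)
    (ε : Pat) (x : Fin 8 → ZZ F k) :
    (if Gen k x then Phi k ε x else 0) ≤ lam k (Fintype.card F) ^ 12 *
      ∏ P, ((ps ε (pf P 0) + ps ε (pf P 1)) * gm k P x + (1 + ps ε (pf P 0) * ps ε (pf P 1))) := by
  have key : ∀ P b, fv (pf P b).1 ((pf P b).2 + 1) = eu P ∧ fv (pf P b).1 ((pf P b).2 + 2) = ev P ∨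
      fv (pf P b).1 ((pf P b).2 + 1) = ev P ∧ fv (pf P b).1 ((pf P b).2 + 2) = eu P := by decide
  have hb : Function.Bijective fun p : Fin 18 × Fin 2 => pf p.1 p.2 := by decide +kernel
  split_ifs with hG
  · have hne : ∀ f (r : Fin 3), (mat ((x (fv f (r + 1))).1 - (x (fv f (r + 2))).1)).det ≠ 0 := by
      intro f r
      obtain ⟨⟨P, b⟩, h⟩ := hb.2 (f, r)
      have h1 := key P b
      simp only at h
      rw [h] at h1
      rw [← gr_inf_bot]
      rcases h1 with ⟨h1, h2⟩ | ⟨h1, h2⟩ <;> simp only at h1 h2 <;> rw [h1, h2]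
      exacts [(gr_inf_bot _ _).2 (hG P), inf_comm (gr (x (eu P)).1) _ ▸ (gr_inf_bot _ _).2 (hG P)]
    refine (prod_le_prod (fun f _ => FK_nonneg _ _) fun f _ =>
      FK_gen hc hk hk1 hq _ _ (hne f)).trans (le_of_eq ?_)
    rw [prod_mul_distrib, prod_const, card_univ, Fintype.card_fin, ← Fintype.prod_prod_type',
      ← hb.prod_comp, Fintype.prod_prod_type]
    refine congrArg _ (prod_congr rfl fun P _ => ?_)
    have e : ∀ b, 1 + ((ε (pf P b).1 ((pf P b).2 + 1) * sg (x (fv (pf P b).1 ((pf P b).2 + 1))).2 :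
        SignType) : ℝ) * ((ε (pf P b).1 ((pf P b).2 + 2) *
          sg (x (fv (pf P b).1 ((pf P b).2 + 2))).2 : SignType) : ℝ) *
        gg ((x (fv (pf P b).1 ((pf P b).2 + 1))).1 - (x (fv (pf P b).1 ((pf P b).2 + 2))).1) =
        1 + ps ε (pf P b) * gm k P x := fun b => by
      rcases key P b with ⟨h1, h2⟩ | ⟨h1, h2⟩ <;> rw [h1, h2, SignType.coe_mul, SignType.coe_mul]
      · simp only [ps, gm]; ring
      · rw [← gg_neg, neg_sub]; simp only [ps, gm]; ring
    have e2 : gm k P x ^ 2 = 1 := by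
      rw [← sq_abs, gm, abs_mul, abs_mul, sg_abs, sg_abs]
      rcases gg_sq _ (hG P) with h | h <;> simp [h]
    rw [Fin.prod_univ_two, e, e]
    linear_combination ps ε (pf P 0) * ps ε (pf P 1) * e2
  · refine mul_nonneg (pow_nonneg (lam_nonneg hk1 hq) _) (prod_nonneg fun P _ => ?_)
    obtain ⟨a1, a2⟩ := abs_le.1 (ps_abs ε (pf P 0))
    obtain ⟨b1, b2⟩ := abs_le.1 (ps_abs ε (pf P 1))
    obtain ⟨c1, c2⟩ := abs_le.1 (gm_abs P x)
    nlinarith [mul_nonneg (mul_nonneg (neg_le_iff_add_nonneg.1 a1) (neg_le_iff_add_nonneg.1 b1))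
      (neg_le_iff_add_nonneg.1 c1), mul_nonneg (mul_nonneg (sub_nonneg.2 a2) (sub_nonneg.2 b2))
      (sub_nonneg.2 c2)]

end Lay

open Lay

open Classical in
theorem gen_part (hc : ringChar F ≠ 2) (hk : Even k) (hk1 : 1 ≤ k) (hq : 4 * k ≤ Fintype.card F)
    (ε : Pat) :
    av (fun x : Fin 8 → ZZ F k => if Gen k x then Phi k ε x else 0) ≤
      lam k (Fintype.card F) ^ 12 *
        (mm ε + 4 ^ 18 * (√(2 / (Fintype.card F : ℝ)) + 2 * k / (Fintype.card F : ℝ))) := by
  refine (Av.mono (gen_pt hc hk hk1 hq ε)).trans ?_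
  rw [Av.mul_left]
  refine mul_le_mul_of_nonneg_left ?_ (pow_nonneg (lam_nonneg hk1 hq) _)
  generalize hδ : √(2 / (Fintype.card F : ℝ)) + 2 * k / (Fintype.card F : ℝ) = δ
  have hδ0 : 0 ≤ δ := by rw [← hδ]; positivity
  have ex : ∀ (A B g : Fin 18 → ℝ), ∏ P, (B P * g P + A P) =
      ∑ S ∈ univ.powerset, (∏ P ∈ S, B P) * (∏ P ∈ S, g P) * ∏ P ∈ univ \ S, A P :=
    fun A B g => by simp only [prod_add, prod_mul_distrib]
  simp only [ex]
  rw [av_sum, ← add_sum_erase _ _ (empty_mem_powerset _)]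
  refine add_le_add (by simp [Av.const, mm]) ?_
  refine (sum_le_card_nsmul _ _ (2 ^ 18 * δ) fun S hS => ?_).trans ?_
  · have hS' : S.Nonempty := nonempty_iff_ne_empty.2 (ne_of_mem_erase hS)
    simp only [mul_right_comm _ (∏ P ∈ S, gm k P _)]
    rw [Av.mul_left]
    refine (le_abs_self _).trans ?_
    rw [abs_mul, abs_mul]
    refine mul_le_mul ?_ (hδ ▸ count hc hk1 hS') (abs_nonneg _) (by norm_num)
    have h2 : (2 : ℝ) ^ 18 = 2 ^ S.card * 2 ^ (univ \ S).card := by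
      rw [← pow_add, add_comm, card_sdiff_add_card_eq_card (subset_univ _)]; rfl
    rw [h2]
    refine mul_le_mul (prod_abs _ fun P => ?_) (prod_abs _ fun P => ?_) (abs_nonneg _)
      (by positivity)
    · linarith [abs_add_le (ps ε (pf P 0)) (ps ε (pf P 1)), ps_abs ε (pf P 0), ps_abs ε (pf P 1)]
    · have := mul_le_one₀ (ps_abs ε (pf P 0)) (abs_nonneg _) (ps_abs ε (pf P 1))
      have h := abs_add_le 1 (ps ε (pf P 0) * ps ε (pf P 1))
      rw [abs_mul, abs_one] at h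
      linarith
  · have h : ((((univ : Finset (Fin 18)).powerset.erase ∅).card : ℕ) : ℝ) ≤ 2 ^ 18 := by
      have := card_erase_le (s := (univ : Finset (Fin 18)).powerset) (a := ∅)
      rw [card_powerset, card_univ, Fintype.card_fin] at this
      exact_mod_cast this
    rw [nsmul_eq_mul]
    nlinarith

end P050
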