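import Vale.Agent.P050.LayDef
import Vale.Agent.P050.Av

namespace P050.Lay
open Finset

variable {ι A B : Type} [DecidableEq ι]

/-- replace the first component of coordinate `v` -/
def T (x : ι → A × B) (v : ι) (y : A) : ι → A × B := Function.update x v (y, (x v).2)

theorem T_self (x : ι → A × B) (v : ι) (y : A) : T x v y v = (y, (x v).2) := by simp [T]

theorem T_ne (x : ι → A × B) {v w : ι} (h : w ≠ v) (y : A) : T x v y w = x w := by simp [T, h]

theorem resample [Fintype ι] [Fintype A] [Fintype B] [Nonempty A] (f : (ι → A × B) → ℝ) (v : ι) :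
    av f = av fun x => av fun y : A => f (T x v y) := by
  have hi : Function.Involutive fun p : (ι → A × B) × A => (T p.1 v p.2, (p.1 v).1) := by
    rintro ⟨x, y⟩
    refine Prod.ext (funext fun w => ?_) (by simp [T_self])
    by_cases h : w = v
    · subst h; simp [T_self]
    · simp [T_ne, h]
  have h := Av.equiv hi.toPerm fun p => f p.1
  rw [Av.prod, Av.prod fun p : (ι → A × B) × A => f p.1] at h
  simp only [Av.const] at h
  exact h.symm

theorem av_sum {α κ : Type} [Fintype α] (s : Finset κ) (f : κ → α → ℝ) :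
    av (fun x => ∑ i ∈ s, f i x) = ∑ i ∈ s, av (f i) := by
  simp only [av, ← sum_div]
  rw [sum_comm]

theorem av_pi {α : Type} [Fintype ι] [Fintype α] (G : ι → α → ℝ) :
    av (fun y : ι → α => ∏ i, G i (y i)) = ∏ i, av (G i) := by
  simp only [av, prod_div_distrib, prod_univ_sum, Fintype.piFinset_univ, prod_const, card_univ,
    Fintype.card_fun, Nat.cast_pow]

theorem av_chain [LinearOrder ι] [Fintype ι] [Fintype A] [Fintype B] [Nonempty A] [Nonempty B]
    (ψ : ι → (ι → A × B) → ℝ) {C : ℝ} (hC : 0 ≤ C) (h0 : ∀ v x, 0 ≤ ψ v x)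
    (h1 : ∀ v w, w < v → ∀ x y, ψ w (T x v y) = ψ w x)
    (h2 : ∀ v x, av (fun y => ψ v (T x v y)) ≤ C) (S : Finset ι) :
    av (fun x => ∏ v ∈ S, ψ v x) ≤ C ^ S.card := by
  induction S using Finset.induction_on_max with
  | empty => simp [Av.const]
  | insert a s hs ih =>
    have ha : a ∉ s := fun h => lt_irrefl _ (hs a h)
    rw [resample _ a, card_insert_of_notMem ha, pow_succ']
    refine le_trans (Av.mono fun x => ?_) ((Av.mul_left C _).le.trans
      (mul_le_mul_of_nonneg_left ih hC))
    have : ∀ y, ∏ v ∈ insert a s, ψ v (T x a y) = (∏ v ∈ s, ψ v x) * ψ a (T x a y) := fun y => by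
      rw [prod_insert ha, mul_comm, prod_congr rfl fun w hw => h1 a w (hs w hw) x y]
    simp only [this]
    rw [Av.mul_left, mul_comm]
    exact mul_le_mul_of_nonneg_right (h2 a x) (prod_nonneg fun _ _ => h0 _ _)

end P050.Lay
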