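import Vale.Agent.P050.LayG
import Vale.Agent.P050.LayD

namespace P050
open Filter Topology

variable {F : Type} [Field F] [Fintype F] [DecidableEq F] {k : ℕ}

theorem tL_eq (ε : Pat) : tL (WW (F := F) k) ε = av (fun x : Fin 8 → ZZ F k => Phi k ε x) := by
  rw [tL, ← Av.equiv (Equiv.sumArrowEquivProdArrow _ _ _).symm, Av.prod]
  refine congrArg av (funext fun x => ?_)
  exact Lay.av_pi fun f (y : ZZ F k) => ∏ t, WW k (ε f t) (x (fv f t)) y

theorem Lay.lim (k : ℕ) (m K : ℝ) : Tendsto (fun q : ℝ => lam k q ^ 12 *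
    (m + 4 ^ 18 * (√(2 / q) + 2 * k / q)) + K * q ^ (-1 / 10 ^ 6 : ℝ)) atTop (𝓝 m) := by
  have h0 : ∀ c : ℝ, Tendsto (fun q : ℝ => c / q) atTop (𝓝 0) := fun c =>
    tendsto_const_nhds.div_atTop tendsto_id
  have h1 : Tendsto th atTop (𝓝 1) := by
    have := ((h0 1).const_sub 1).inv₀ (by norm_num)
    rw [sub_zero, inv_one] at this
    refine this.congr' ((eventually_gt_atTop 1).mono fun q hq => ?_)
    have : q - 1 ≠ 0 := by linarith
    have : q ≠ 0 := by linarith
    unfold th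
    field_simp
  have h2 : Tendsto (lam k) atTop (𝓝 1) := by
    have := (h1.pow (3 * k)).div (((h0 (2 * k)).const_sub 1).pow 3) (by norm_num)
    rw [sub_zero, one_pow, one_pow, div_one] at this
    exact this
  have h3 : Tendsto (fun q : ℝ => q ^ (-1 / 10 ^ 6 : ℝ)) atTop (𝓝 0) := by
    rw [neg_div]
    exact tendsto_rpow_neg_atTop (by norm_num)
  have := ((h2.pow 12).mul ((((h0 2).sqrt.add (h0 (2 * k))).const_mul (4 ^ 18)).const_add m)).add
    (h3.const_mul K)
  rw [Real.sqrt_zero, one_pow, one_mul, add_zero, mul_zero, mul_zero, add_zero, add_zero] at this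
  exact this

theorem good_exists (γ : ℝ) (hγ : 0 < γ) :
    ∃ (Z : Type) (_ : Fintype Z) (_ : DecidableEq Z) (_ : Nonempty Z)
      (W : SignType → Z → Z → ℝ), Good W γ := by
  obtain ⟨k, hk1, hk⟩ : ∃ k : ℕ, 10 ^ 7 ≤ k ∧ Even k := ⟨2 * 10 ^ 7, by omega, even_two_mul _⟩
  have H := eventually_all.2 fun ε : Pat => (Lay.lim k (mm ε)
    (64 ^ 12 * ((((2 * k : ℕ) : ℝ) + 1) ^ 7 * 5 ^ (2 * k)) ^ 20)).eventually
    (eventually_le_nhds (lt_add_of_pos_right _ hγ))
  obtain ⟨N, hN⟩ := eventually_atTop.1 (tendsto_natCast_atTop_atTop.eventually H)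
  obtain ⟨p, hp, hp'⟩ := Nat.exists_infinite_primes (max N (4 * k))
  have : Fact p.Prime := ⟨hp'⟩
  have hq : 4 * k ≤ Fintype.card (ZMod p) := by rw [ZMod.card]; omega
  have hc : ringChar (ZMod p) ≠ 2 := by rw [ZMod.ringChar_zmod_n]; omega
  refine ⟨ZZ (ZMod p) k, inferInstance, inferInstance, inferInstance, WW k,
    fun x y => by simp [WW, VV], fun s x y => VV_nonneg _ _, WW_symm hk,
    WW_mean hc (by omega) hq, fun ε => ?_⟩
  have h1 := gen_part hc hk (by omega) hq ε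
  have h2 := deg_part hc hk1 hq ε
  rw [ZMod.card] at h1 h2
  refine le_trans (le_of_eq ?_) ((add_le_add h1 h2).trans (hN p (by omega) ε))
  rw [tL_eq, ← Av.add]
  exact congrArg av (funext fun x => by split_ifs <;> simp)

end P050
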