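import Vale.Agent.P050.Layer
import Vale.Agent.P050.GadA
import Vale.Agent.P050.GadC
import Vale.Agent.P050.Graph

namespace P050

theorem main : ∃ (V : Type) (_ : Fintype V) (_ : Nonempty V) (G : SimpleGraph V),
    (Nat.card (HG →g G) : ℝ) / (Fintype.card V : ℝ) ^ Fintype.card VH <
      (2 * (Nat.card G.edgeSet : ℝ) / (Fintype.card V : ℝ) ^ 2) ^ Nat.card HG.edgeSet := by
  obtain ⟨p, m, hp, hm, hlt⟩ := gadC
  set A := (∑ ψ : VH → VH, (∏ v, (m (ψ v) : ℝ)) * ZM p ψ) / (∑ v, (m v : ℝ)) ^ 20 with hA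
  have hC : (0 : ℝ) < 16 * (2 ^ 18 + 1) ^ 7 := by positivity
  have hγ : 0 < min 1 ((1 - A) / (16 * (2 ^ 18 + 1) ^ 7)) :=
    lt_min one_pos (div_pos (by linarith) hC)
  obtain ⟨Z, i1, i2, i3, W, hW⟩ := good_exists _ hγ
  obtain ⟨Y, j1, j2, j3, U, h0, hs, hmean, ht⟩ :=
    gadA p hp m hm W _ hγ.le (min_le_left _ _) hW
  refine to_graph U h0 hs hmean (lt_of_le_of_lt ht ?_)
  have h1 : min 1 ((1 - A) / (16 * (2 ^ 18 + 1) ^ 7)) * (16 * (2 ^ 18 + 1) ^ 7) ≤ 1 - A := by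
    have := min_le_right (1 : ℝ) ((1 - A) / (16 * (2 ^ 18 + 1) ^ 7))
    rwa [le_div_iff₀ hC] at this
  rw [← hA]
  linarith

end P050
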