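import Vale.Agent.P050.SpG

namespace P050
open Module Submodule Finset

variable {F Ω : Type} [Field F] [Fintype F] [AddCommGroup Ω] [Module F Ω] [FiniteDimensional F Ω]
  {B : LinearMap.BilinForm F Ω} {n k : ℕ}

theorem three_le_q (hc : ringChar F ≠ 2) : (3 : ℝ) ≤ Fintype.card F := by
  have h1 := FiniteField.odd_card_of_char_ne_two hc
  have h2 := Fintype.one_lt_card (α := F)
  have : 3 ≤ Fintype.card F := by omega
  exact_mod_cast this

theorem sum_bound (hB : Symp B n) (hc : ringChar F ≠ 2) {L1 L2 L3 : Submodule F Ω}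
    (h1 : Lag B L1) (h2 : Lag B L2) (h3 : Lag B L3) (W : Finset (Submodule F Ω))
    (hW : ∀ w ∈ W, Lag B w) :
    ∑ w ∈ W, (Fintype.card F : ℝ) ^ (-ExL n L1 L2 L3 w) ≤ ((n : ℝ) + 1) ^ 7 * 5 ^ n := by
  classical
  haveI : Finite Ω := Module.finite_of_finite F
  letI := Fintype.ofFinite Ω
  have hq := three_le_q hc
  have hq0 : (0 : ℝ) < Fintype.card F := by linarith
  have hth := one_le_th (show (2 : ℝ) ≤ Fintype.card F by linarith)
  let g : Submodule F Ω → Fin 7 → ℕ := fun w =>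
    ![finrank F ↥(w ⊓ L1), finrank F ↥(w ⊓ L2), finrank F ↥(w ⊓ L3), finrank F ↥(w ⊓ L1 ⊓ L2),
      finrank F ↥(w ⊓ L1 ⊓ L3), finrank F ↥(w ⊓ L2 ⊓ L3), finrank F ↥(w ⊓ L1 ⊓ L2 ⊓ L3)]
  have hg : ∀ w ∈ W, g w ∈ Fintype.piFinset fun _ : Fin 7 => range (n + 1) := by
    intro w hw
    have hn := (hW w hw).rk hB
    have a : ∀ A : Submodule F Ω, A ≤ w → finrank F A < n + 1 := fun A hA => by
      have := finrank_mono hA; omega
    rw [Fintype.mem_piFinset]
    intro j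
    rw [mem_range]
    fin_cases j
    · exact a _ inf_le_left
    · exact a _ inf_le_left
    · exact a _ inf_le_left
    · exact a _ (inf_le_left.trans inf_le_left)
    · exact a _ (inf_le_left.trans inf_le_left)
    · exact a _ (inf_le_left.trans inf_le_left)
    · exact a _ (inf_le_left.trans (inf_le_left.trans inf_le_left))
  rw [← sum_fiberwise_of_maps_to hg]
  have hcl : ∀ y ∈ Fintype.piFinset fun _ : Fin 7 => range (n + 1),
      ∑ w ∈ W with g w = y, (Fintype.card F : ℝ) ^ (-ExL n L1 L2 L3 w) ≤ 5 ^ n := by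
    intro y hy
    have hy2 : y 2 ≤ n := by
      have := mem_range.1 (Fintype.mem_piFinset.1 hy 2); omega
    have hd : ∀ w ∈ W.filter fun w => g w = y,
        Dat B ⊥ L1 L2 L3 (y 0) (y 1) (y 2) (y 3) (y 4) (y 5) (y 6) w := by
      intro w hw
      have hw' := mem_filter.1 hw
      rw [← hw'.2]
      exact ⟨hW w hw'.1, bot_le, rfl, rfl, rfl, rfl, rfl, rfl, rfl⟩
    have hb := bd_all hB hc n ⊥ L1 L2 L3 n _ _ _ _ _ _ _ _ (by simp)
      ⟨h1, h2, h3, bot_le, bot_le, bot_le⟩ (by omega) hd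
    rw [sum_congr rfl (g := fun _ => (Fintype.card F : ℝ) ^
      (-ER n ⊥ L1 L2 L3 (y 0) (y 1) (y 2) (y 3) (y 4) (y 5) (y 6))) fun w hw => by
        have d := hd w hw
        simp only [ExL, ER, dm, d.e1, d.e2, d.e3, d.e12, d.e13, d.e23, d.e123, finrank_bot,
          Nat.cast_zero, sub_zero], sum_const, nsmul_eq_mul, Real.rpow_neg hq0.le,
      ← div_eq_mul_inv, div_le_iff₀ (by positivity)]
    refine hb.trans (mul_le_mul_of_nonneg_right ?_ (by positivity))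
    rw [← mul_pow]
    refine pow_le_pow_left₀ (by positivity) ?_ n
    unfold th
    rw [div_mul_eq_mul_div, div_le_iff₀ (by linarith)]
    linarith
  refine (sum_le_sum hcl).trans (le_of_eq ?_)
  rw [sum_const, Fintype.card_piFinset]
  simp

theorem pair_sharp (hB : Symp B n) (hn : n = 2 * k) (hc : ringChar F ≠ 2)
    {L1 L2 L3 : Submodule F Ω} (h1 : Lag B L1) (h2 : Lag B L2) (h3 : Lag B L3)
    (h12 : L1 ⊓ L2 = ⊥) (W : Finset (Submodule F Ω))
    (hW : ∀ w ∈ W, Lag B w ∧ finrank F ↥(w ⊓ L1) = k ∧ finrank F ↥(w ⊓ L2) = k ∧ w ⊓ L3 = ⊥) :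
    (W.card : ℝ) ≤ th (Fintype.card F) ^ (2 * k) * (Fintype.card F : ℝ) ^ ((k : ℝ) ^ 2) := by
  haveI : Finite Ω := Module.finite_of_finite F
  letI := Fintype.ofFinite Ω
  have hb := bd_all hB hc n ⊥ L1 L2 L3 0 k k 0 0 0 0 0 W (by simp)
    ⟨h1, h2, h3, bot_le, bot_le, bot_le⟩ (by omega) fun w hw => by
      obtain ⟨a, b, c, d⟩ := hW w hw
      refine ⟨a, bot_le, b, c, by rw [d, finrank_bot], by rw [inf_assoc, h12]; simp, ?_, ?_, ?_⟩
      · rw [inf_right_comm, d]; simp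
      · rw [inf_right_comm, d]; simp
      · rw [inf_assoc w, h12]; simp
  refine hb.trans (le_of_eq ?_)
  rw [pow_zero, mul_one, ← hn]
  congr 2
  simp only [ER, Ex, pr, Tn, dm, finrank_bot, hn]
  push_cast; ring

theorem triple_sharp (hB : Symp B n) (hn : n = 2 * k) (hc : ringChar F ≠ 2)
    {L1 L2 L3 : Submodule F Ω} (h1 : Lag B L1) (h2 : Lag B L2) (h3 : Lag B L3)
    (h12 : L1 ⊓ L2 = ⊥) (h13 : L1 ⊓ L3 = ⊥) (h23 : L2 ⊓ L3 = ⊥) (W : Finset (Submodule F Ω))
    (hW : ∀ w ∈ W, Lag B w ∧ finrank F ↥(w ⊓ L1) = k ∧ finrank F ↥(w ⊓ L2) = k ∧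
      finrank F ↥(w ⊓ L3) = k) :
    (W.card : ℝ) ≤ 2 * th (Fintype.card F) ^ (3 * k) * (Fintype.card F : ℝ) ^ (Tn k - k) := by
  haveI : Finite Ω := Module.finite_of_finite F
  letI := Fintype.ofFinite Ω
  have hth := one_le_th (two_le_q (F := F))
  have hb := tri hB hc k ⊥ L1 L2 L3 W 0 (by simp) (by omega)
    ⟨h1, h2, h3, bot_le, bot_le, bot_le⟩ fun w hw => by
      obtain ⟨a, b, c, d⟩ := hW w hw
      refine ⟨a, bot_le, by omega, by omega, by omega, by rw [inf_assoc, h12]; simp,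
        by rw [inf_assoc, h13]; simp, by rw [inf_assoc, h23]; simp, by rw [inf_assoc w, h12]; simp⟩
  refine hb.trans ?_
  gcongr
  split_ifs <;> norm_num

end P050
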