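import Vale.Agent.P050.SpA

namespace P050
open Module Submodule Finset

variable {F : Type} [Field F] [Fintype F]

section tools

theorem dc {α β : Type} (W : Finset α) (U : Finset β) (r : α → β → Prop)
    [∀ a b, Decidable (r a b)] (a b : ℝ)
    (ha : ∀ w ∈ W, a ≤ ((U.filter (r w)).card : ℝ))
    (hb : ∀ u ∈ U, ((W.filter fun w => r w u).card : ℝ) ≤ b) :
    (W.card : ℝ) * a ≤ (U.card : ℝ) * b := by
  have h := Finset.sum_card_bipartiteAbove_eq_sum_card_bipartiteBelow (s := W) (t := U) r
  have h' : ∑ w ∈ W, ((U.filter (r w)).card : ℝ) =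
      ∑ u ∈ U, ((W.filter fun w => r w u).card : ℝ) := by
    exact_mod_cast h
  calc (W.card : ℝ) * a = ∑ _w ∈ W, a := by simp
    _ ≤ _ := sum_le_sum ha
    _ = _ := h'
    _ ≤ ∑ _u ∈ U, b := sum_le_sum hb
    _ = _ := by simp

theorem two_le_q : (2 : ℝ) ≤ Fintype.card F := by
  exact_mod_cast Fintype.one_lt_card (α := F)

theorem one_le_th {q : ℝ} (hq : 2 ≤ q) : 1 ≤ th q := by
  unfold th; rw [le_div_iff₀ (by linarith)]; linarith

theorem ratio {q x y : ℝ} (hq : 2 ≤ q) {s c : ℕ} (hsc : s < c) (hx : 0 ≤ x)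
    (h : x * (q ^ c - q ^ s) ≤ y) : x ≤ th q * q ^ (-(c : ℝ)) * y := by
  have hq0 : 0 < q := by linarith
  have h1 : q ^ s * q ≤ q ^ c := by
    rw [← pow_succ]; exact pow_le_pow_right₀ (by linarith) hsc
  have hc : 0 < q ^ c := pow_pos hq0 c
  rw [Real.rpow_neg hq0.le, Real.rpow_natCast, th]
  have h2 : x * (q ^ c * (q - 1)) ≤ q * y := by nlinarith [mul_le_mul_of_nonneg_left h1 hx]
  rw [show q / (q - 1) * (q ^ c)⁻¹ * y = q * y / (q ^ c * (q - 1)) by
    field_simp, le_div_iff₀ (by apply mul_pos hc; linarith)]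
  exact h2

variable {V : Type} [AddCommGroup V] [Module F V] [Fintype V]

open Classical in
/-- the elements of a subspace, as a finset -/
noncomputable def fs (A : Submodule F V) : Finset V := univ.filter (· ∈ A)

omit [Fintype F] in
@[simp] theorem mem_fs {A : Submodule F V} {x : V} : x ∈ fs A ↔ x ∈ A := by simp [fs]

theorem card_fs (A : Submodule F V) :
    ((fs A).card : ℝ) = (Fintype.card F : ℝ) ^ finrank F A := by
  classical
  have h := Module.natCard_eq_pow_finrank (K := F) (V := A)
  rw [Nat.card_eq_fintype_card (α := F)] at h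
  have h2 : Nat.card A = (fs A).card := by
    rw [Nat.card_eq_fintype_card, Fintype.card_subtype]; congr 1
  rw [← h2, h]; push_cast; rfl

theorem card_diff (U : Finset V) (p : V → Prop) [DecidablePred p] (A C : Submodule F V)
    (h : ∀ x, x ∈ A → x ∉ C → x ∈ U ∧ p x) :
    (Fintype.card F : ℝ) ^ finrank F A - (Fintype.card F : ℝ) ^ finrank F ↥(A ⊓ C)
      ≤ ((U.filter p).card : ℝ) := by
  classical
  rw [← card_fs, ← card_fs]
  have h1 : fs A ⊆ U.filter p ∪ fs (A ⊓ C) := by
    intro x hx
    rw [mem_fs] at hx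
    by_cases hc : x ∈ C
    · exact mem_union_right _ (mem_fs.2 ⟨hx, hc⟩)
    · exact mem_union_left _ (mem_filter.2 (h x hx hc))
  have h2 := (card_le_card h1).trans (card_union_le _ _)
  have h3 : ((fs A).card : ℝ) ≤ (U.filter p).card + (fs (A ⊓ C)).card := by exact_mod_cast h2
  linarith

/-- shifting along a vector: count of `Z` times `q` against a bound on each line -/
theorem line_count (P : Submodule F V) (v : V) (Z : V → Prop) [DecidablePred Z] (T : Finset V)
    (b : ℝ) (hT : ∀ x ∈ P, Z x → ∀ t : F, x - t • v ∈ T)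
    (hb : ∀ x ∈ T, ((univ.filter fun t : F => Z (x + t • v)).card : ℝ) ≤ b) :
    (((fs P).filter Z).card : ℝ) * Fintype.card F ≤ T.card * b := by
  have h := dc (univ : Finset F) T (fun t x => Z (x + t • v)) (((fs P).filter Z).card : ℝ) b
    (fun t _ => ?_) hb
  · rw [card_univ] at h; linarith
  · have : ((fs P).filter Z).card ≤ (T.filter fun x => Z (x + t • v)).card := by
      apply card_le_card_of_injOn (fun x => x - t • v)
      · intro x hx
        simp only [coe_filter, mem_fs, Set.mem_ofPred_eq] at hx ⊢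
        exact ⟨hT x hx.1 hx.2 t, by simpa using hx.2⟩
      · intro x _ y _ hxy
        simpa using hxy
    exact_mod_cast this

theorem zeros_two [DecidableEq F] (β : LinearMap.BilinForm F V) (P : Submodule F V) {v : V} (hv : v ∈ P)
    (hvv : β v v ≠ 0) :
    (((fs P).filter fun x => β x x = 0).card : ℝ) * Fintype.card F ≤ (fs P).card * 2 := by
  refine line_count P v _ (fs P) 2 (fun x hx _ t => mem_fs.2 (sub_mem hx (smul_mem _ _ hv))) ?_
  intro x _
  set p : Polynomial F := Polynomial.C (β v v) * Polynomial.X ^ 2 +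
    Polynomial.C (β x v + β v x) * Polynomial.X + Polynomial.C (β x x) with hp
  have hd : p.natDegree = 2 := Polynomial.natDegree_quadratic hvv
  have h0 : p ≠ 0 := by intro h; rw [h] at hd; simp at hd
  have := Polynomial.card_le_degree_of_subset_roots (p := p)
    (Z := univ.filter fun t : F => β (x + t • v) (x + t • v) = 0) (by
      intro t ht
      have ht' : β (x + t • v) (x + t • v) = 0 := (mem_filter.1 ht).2
      rw [Polynomial.mem_roots h0, Polynomial.IsRoot, hp]
      simp only [map_add, map_smul, LinearMap.add_apply, LinearMap.smul_apply, smul_eq_mul] at ht'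
      simp only [Polynomial.eval_add, Polynomial.eval_mul, Polynomial.eval_C, Polynomial.eval_pow,
        Polynomial.eval_X]
      linear_combination ht')
  rw [hd] at this
  exact_mod_cast this

theorem zeros_one [DecidableEq F] (hc : ringChar F ≠ 2) (β : LinearMap.BilinForm F V) (P : Submodule F V) {u : V}
    (hu : u ∈ P) (huu : β u u = 0) (hs : ∀ x ∈ P, β x u = β u x) :
    (((fs P).filter fun x => β x x = 0 ∧ β u x ≠ 0).card : ℝ) * Fintype.card F
      ≤ (fs P).card * 1 := by
  have h := line_count P u (fun x => β x x = 0 ∧ β u x ≠ 0) (fs P) 1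
    (fun x hx _ t => mem_fs.2 (sub_mem hx (smul_mem _ _ hu))) ?_
  · exact h
  intro x hx
  have h2 : (2 : F) ≠ 0 := Ring.two_ne_zero hc
  have : (univ.filter fun t : F => β (x + t • u) (x + t • u) = 0 ∧ β u (x + t • u) ≠ 0).card
      ≤ 1 := by
    rw [card_le_one]
    intro a ha b hb
    have ha' := (mem_filter.1 ha).2
    have hb' := (mem_filter.1 hb).2
    simp only [map_add, map_smul, LinearMap.add_apply, LinearMap.smul_apply, smul_eq_mul, huu,
      hs x (mem_fs.1 hx), mul_zero, add_zero] at ha' hb'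
    have : 2 * β u x * (a - b) = 0 := by linear_combination ha'.1 - hb'.1
    rcases mul_eq_zero.1 this with h | h
    · exact absurd h (mul_ne_zero h2 ha'.2)
    · exact sub_eq_zero.1 h
  exact_mod_cast this

omit [Fintype F] [Fintype V] in
theorem polar_zero (hc : ringChar F ≠ 2) (β : LinearMap.BilinForm F V) (P : Submodule F V)
    (hs : ∀ x ∈ P, ∀ y ∈ P, β x y = β y x) (h0 : ∀ x ∈ P, β x x = 0) :
    ∀ x ∈ P, ∀ y ∈ P, β x y = 0 := by
  intro x hx y hy
  have h2 : (2 : F) ≠ 0 := Ring.two_ne_zero hc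
  have e := h0 _ (add_mem hx hy)
  simp only [map_add, LinearMap.add_apply, h0 x hx, h0 y hy, hs y hy x hx] at e
  have : 2 * β x y = 0 := by linear_combination e
  exact (mul_eq_zero.1 this).resolve_left h2

end tools

variable {Ω : Type} [AddCommGroup Ω] [Module F Ω] [Fintype Ω]
  {B : LinearMap.BilinForm F Ω} {n : ℕ}

omit [Fintype F] in
theorem card_le_one_of_rk (hB : Symp B n) {S : Submodule F Ω} (hS : finrank F S = n)
    (W : Finset (Submodule F Ω)) (hW : ∀ w ∈ W, Lag B w ∧ S ≤ w) : (W.card : ℝ) ≤ 1 := by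
  have : W.card ≤ 1 := by
    rw [card_le_one]
    intro a ha b hb
    have e : ∀ w ∈ W, S = w := fun w hw =>
      eq_of_le_of_finrank_le (hW w hw).2 (by rw [(hW w hw).1.rk hB, hS])
    rw [← e a ha, ← e b hb]
  exact_mod_cast this

/-- the number of Lagrangians containing `S` -/
theorem cnt0 (hB : Symp B n) (r : ℕ) : ∀ (S : Submodule F Ω) (W : Finset (Submodule F Ω)),
    finrank F S + r = n → (∀ w ∈ W, Lag B w ∧ S ≤ w) →
    (W.card : ℝ) ≤ th (Fintype.card F) ^ r * (Fintype.card F : ℝ) ^ Tn r := by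
  classical
  have hq := two_le_q (F := F)
  have hq0 : (0 : ℝ) < Fintype.card F := by linarith
  have hth := one_le_th hq
  induction r with
  | zero =>
    intro S W hS hW
    simpa [Tn] using card_le_one_of_rk hB (by omega) W hW
  | succ r ih =>
    intro S W hS hW
    have h := dc W (fs (B.orthogonal S)) (fun w u => u ∈ w ∧ u ∉ S)
      ((Fintype.card F : ℝ) ^ n - (Fintype.card F : ℝ) ^ finrank F S)
      (th (Fintype.card F) ^ r * (Fintype.card F : ℝ) ^ Tn r) (fun w hw => ?_) (fun u _ => ?_)
    · have h2 := ratio hq (by omega) (by positivity) h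
      have h3 : finrank F (B.orthogonal S) = n + (r + 1) := by have := rk_orth hB S; omega
      rw [card_fs, h3, ← Real.rpow_natCast _ (n + (r + 1))] at h2
      refine h2.trans (le_of_eq ?_)
      rw [show Tn ((r + 1 : ℕ) : ℝ) = -(n : ℝ) + (((n + (r + 1) : ℕ) : ℝ) + Tn r) by
        unfold Tn; push_cast; ring, Real.rpow_add hq0, Real.rpow_add hq0]
      ring
    · have := card_diff (fs (B.orthogonal S)) (fun u => u ∈ w ∧ u ∉ S) w S
        (fun x hx hx' => ⟨mem_fs.2 fun y hy => (hW w hw).1.iso ((hW w hw).2 hy) hx, hx, hx'⟩)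
      rwa [(hW w hw).1.rk hB, inf_eq_right.2 (hW w hw).2] at this
    · by_cases hu : u ∈ S
      · simp only [hu, not_true, and_false, filter_false, card_empty, Nat.cast_zero]
        positivity
      · refine ih (S ⊔ span F {u}) _ ?_ fun w hw => ?_
        · rw [finrank_sup_span_singleton hu]; omega
        · have hw' := mem_filter.1 hw
          exact ⟨(hW w hw'.1).1, sup_le (hW w hw'.1).2
            ((span_singleton_le_iff_mem _ _).2 hw'.2.1)⟩

end P050
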