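import Vale.Agent.P050.SpC

namespace P050
open Module Submodule Finset

variable {F : Type} [Field F] {Ω : Type} [AddCommGroup Ω] [Module F Ω]
  {B : LinearMap.BilinForm F Ω} {n : ℕ}

structure Dat (B : LinearMap.BilinForm F Ω) (S L1 L2 L3 : Submodule F Ω)
    (k1 k2 k3 c12 c13 c23 i : ℕ) (w : Submodule F Ω) : Prop where
  lag : Lag B w
  le : S ≤ w
  e1 : finrank F ↥(w ⊓ L1) = k1
  e2 : finrank F ↥(w ⊓ L2) = k2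
  e3 : finrank F ↥(w ⊓ L3) = k3
  e12 : finrank F ↥(w ⊓ L1 ⊓ L2) = c12
  e13 : finrank F ↥(w ⊓ L1 ⊓ L3) = c13
  e23 : finrank F ↥(w ⊓ L2 ⊓ L3) = c23
  e123 : finrank F ↥(w ⊓ L1 ⊓ L2 ⊓ L3) = i

structure Ref (B : LinearMap.BilinForm F Ω) (S L1 L2 L3 : Submodule F Ω) : Prop where
  l1 : Lag B L1
  l2 : Lag B L2
  l3 : Lag B L3
  s1 : S ≤ L1
  s2 : S ≤ L2
  s3 : S ≤ L3

noncomputable def ER (n : ℕ) (S L1 L2 L3 : Submodule F Ω) (k1 k2 k3 c12 c13 c23 i : ℕ) : ℝ :=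
  Ex (n - dm S) (k1 - dm S) (k2 - dm S) (k3 - dm S) (dm (L1 ⊓ L2) - dm S) (dm (L1 ⊓ L3) - dm S)
    (dm (L2 ⊓ L3) - dm S) (dm (L1 ⊓ L2 ⊓ L3) - dm S) (c12 - dm S) (c13 - dm S) (c23 - dm S)
    (i - dm S)

variable {S L1 L2 L3 w : Submodule F Ω} {k1 k2 k3 c12 c13 c23 i : ℕ}

theorem Dat.sw12 (h : Dat B S L1 L2 L3 k1 k2 k3 c12 c13 c23 i w) :
    Dat B S L2 L1 L3 k2 k1 k3 c12 c23 c13 i w :=
  ⟨h.lag, h.le, h.e2, h.e1, h.e3, by rw [inf_right_comm]; exact h.e12, h.e23, h.e13,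
    by rw [inf_right_comm w L2 L1]; exact h.e123⟩

theorem Dat.sw23 (h : Dat B S L1 L2 L3 k1 k2 k3 c12 c13 c23 i w) :
    Dat B S L1 L3 L2 k1 k3 k2 c13 c12 c23 i w :=
  ⟨h.lag, h.le, h.e1, h.e3, h.e2, h.e13, h.e12, by rw [inf_right_comm]; exact h.e23,
    by rw [inf_right_comm]; exact h.e123⟩

theorem Ref.sw12 (h : Ref B S L1 L2 L3) : Ref B S L2 L1 L3 := ⟨h.l2, h.l1, h.l3, h.s2, h.s1, h.s3⟩
theorem Ref.sw23 (h : Ref B S L1 L2 L3) : Ref B S L1 L3 L2 := ⟨h.l1, h.l3, h.l2, h.s1, h.s3, h.s2⟩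

theorem ER_sw12 : ER n S L2 L1 L3 k2 k1 k3 c12 c23 c13 i = ER n S L1 L2 L3 k1 k2 k3 c12 c13 c23 i := by
  unfold ER Ex pr
  rw [inf_comm L2 L1]; ring

theorem ER_sw23 : ER n S L1 L3 L2 k1 k3 k2 c13 c12 c23 i = ER n S L1 L2 L3 k1 k2 k3 c12 c13 c23 i := by
  unfold ER Ex pr
  rw [inf_comm L3 L2, inf_right_comm L1 L3 L2]; ring

variable [FiniteDimensional F Ω]

theorem eq_of_rk {A : Submodule F Ω} (h : S ≤ A) (e : finrank F A = finrank F S) : A = S :=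
  (eq_of_le_of_finrank_le h e.le).symm

theorem rk_sandwich {A C : Submodule F Ω} {m : ℕ} (h1 : S ≤ A) (h2 : A ≤ C)
    (e1 : finrank F S = m) (e2 : finrank F C = m) : finrank F A = m := by
  have := finrank_mono h1
  have := finrank_mono h2
  omega

theorem inf_inf (w A C : Submodule F Ω) : w ⊓ A ⊓ C = (w ⊓ A) ⊓ (w ⊓ C) := by
  rw [← inf_assoc, inf_right_comm w A w, inf_idem]

theorem pair_data (hB : Symp B n) (hR : Ref B S L1 L2 L3)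
    (h : Dat B S L1 L2 L3 k1 k2 k3 c12 c13 c23 (finrank F S) w) {u : Ω} (hu : u ∈ w)
    (h1 : u ∈ L1) (h2 : u ∈ L2) (hS : u ∉ S) :
    u ∉ L3 ∧ Dat B (S ⊔ span F {u}) L1 L2 (mv B L3 u) k1 k2 (k3 + 1) c12 (c13 + 1) (c23 + 1)
      (finrank F S + 1) w := by
  have h3 : u ∉ L3 := by
    intro h3
    have e := eq_of_rk (le_inf (le_inf (le_inf h.le hR.s1) hR.s2) hR.s3) h.e123
    exact hS (e ▸ (⟨⟨⟨hu, h1⟩, h2⟩, h3⟩ : u ∈ w ⊓ L1 ⊓ L2 ⊓ L3))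
  refine ⟨h3, h.lag, sup_le h.le ((span_singleton_le_iff_mem _ _).2 hu), h.e1, h.e2, ?_, h.e12,
    ?_, ?_, ?_⟩
  · rw [rk_inf_mv hu (fun x hx => h.lag.iso hu hx) h3, h.e3]
  · rw [rk_inf_mv (A := w ⊓ L1) ⟨hu, h1⟩ (fun x hx => h.lag.iso hu hx.1) h3, h.e13]
  · rw [rk_inf_mv (A := w ⊓ L2) ⟨hu, h2⟩ (fun x hx => h.lag.iso hu hx.1) h3, h.e23]
  · rw [rk_inf_mv (A := w ⊓ L1 ⊓ L2) ⟨⟨hu, h1⟩, h2⟩ (fun x hx => h.lag.iso hu hx.1.1) h3, h.e123]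

theorem single_data (hB : Symp B n) {s : ℕ} (hs : finrank F S = s) (hR : Ref B S L1 L2 L3)
    (h : Dat B S L1 L2 L3 k1 k2 k3 s s s s w) {u : Ω} (hu : u ∈ w)
    (h3 : u ∈ L3) (hn : u ∉ w ⊓ L1 ⊔ w ⊓ L2) :
    finrank F ↥(S ⊔ span F {u}) = s + 1 ∧ Ref B (S ⊔ span F {u}) (mv B L1 u) (mv B L2 u) L3 ∧
    Dat B (S ⊔ span F {u}) (mv B L1 u) (mv B L2 u) L3 (k1 + 1) (k2 + 1) k3 (s + 1) (s + 1) (s + 1)
      (s + 1) w := by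
  have h1 : u ∉ L1 := fun h1 => hn (mem_sup_left ⟨hu, h1⟩)
  have h2 : u ∉ L2 := fun h2 => hn (mem_sup_right ⟨hu, h2⟩)
  have hS : u ∉ S := fun h => h1 (hR.s1 h)
  have hw : ∀ x ∈ w, B u x = 0 := fun x hx => h.lag.iso hu hx
  have hS' : finrank F ↥(S ⊔ span F {u}) = s + 1 := by rw [finrank_sup_span_singleton hS, hs]
  have sp : ∀ {A : Submodule F Ω}, u ∈ A → span F {u} ≤ A := fun h =>
    (span_singleton_le_iff_mem _ _).2 h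
  have hR' : Ref B (S ⊔ span F {u}) (mv B L1 u) (mv B L2 u) L3 :=
    ⟨mv_lag hB hR.l1 u, mv_lag hB hR.l2 u, hR.l3,
      sup_le (le_mv hR.s1 fun x hx => hw x (h.le hx)) (sp (self_mem_mv _ _)),
      sup_le (le_mv hR.s2 fun x hx => hw x (h.le hx)) (sp (self_mem_mv _ _)),
      sup_le hR.s3 (sp h3)⟩
  have hle : S ⊔ span F {u} ≤ w := sup_le h.le (sp hu)
  have a1 : finrank F ↥(w ⊓ mv B L1 u) = k1 + 1 := by rw [rk_inf_mv hu hw h1, h.e1]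
  have a2 : finrank F ↥(w ⊓ mv B L2 u) = k2 + 1 := by rw [rk_inf_mv hu hw h2, h.e2]
  have a13 : finrank F ↥(w ⊓ mv B L1 u ⊓ L3) = s + 1 := by
    rw [inf_right_comm, rk_inf_mv (A := w ⊓ L3) ⟨hu, h3⟩ (fun x hx => hw x hx.1) h1,
      inf_right_comm, h.e13]
  refine ⟨hS', hR', h.lag, hle, a1, a2, h.e3, ?_, a13, ?_, ?_⟩
  · have e := finrank_sup_add_finrank_inf_eq (w ⊓ mv B L1 u) (w ⊓ mv B L2 u)
    have e' := finrank_sup_add_finrank_inf_eq (w ⊓ L1) (w ⊓ L2)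
    rw [← inf_inf, h.e12, h.e1, h.e2] at e'
    rw [← inf_inf, a1, a2, inf_mv hu hw, inf_mv (L := L2) hu hw, sup_sup_sup_comm, sup_idem,
      finrank_sup_span_singleton hn, ← inf_mv hu hw] at e
    omega
  · rw [inf_right_comm, rk_inf_mv (A := w ⊓ L3) ⟨hu, h3⟩ (fun x hx => hw x hx.1) h2,
      inf_right_comm, h.e23]
  · exact rk_sandwich (le_inf (le_inf (le_inf hle hR'.s1) hR'.s2) hR'.s3)
      (le_inf (inf_le_left.trans inf_le_left) inf_le_right) hS' a13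

theorem rel_data (hB : Symp B n) {s k : ℕ} (hs : finrank F S = s) (hR : Ref B S L1 L2 L3)
    (h : Dat B S L1 L2 L3 k k k s s s s w) {x : Ω × Ω}
    (hx : x ∈ Rel (w ⊓ L1) (w ⊓ L2) (w ⊓ L3)) (hn : x.1 ∉ S) :
    finrank F ↥(S ⊔ span F {x.1} ⊔ span F {x.2}) = s + 2 ∧
    Ref B (S ⊔ span F {x.1} ⊔ span F {x.2}) (mv B L1 x.2) (mv B L2 x.1) (mv B L3 x.1) ∧
    Dat B (S ⊔ span F {x.1} ⊔ span F {x.2}) (mv B L1 x.2) (mv B L2 x.1) (mv B L3 x.1)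
      (k + 1) (k + 1) (k + 1) (s + 2) (s + 2) (s + 2) (s + 2) w := by
  obtain ⟨u, v⟩ := x
  rw [mem_Rel] at hx
  obtain ⟨⟨hu, hu1⟩, ⟨hv, hv2⟩, huv, huv3⟩ := hx
  dsimp only at *
  have E12 := eq_of_rk (le_inf (le_inf h.le hR.s1) hR.s2) (h.e12.trans hs.symm)
  have E13 := eq_of_rk (le_inf (le_inf h.le hR.s1) hR.s3) (h.e13.trans hs.symm)
  have hu2 : u ∉ L2 := fun h2 => hn (E12 ▸ (⟨⟨hu, hu1⟩, h2⟩ : u ∈ w ⊓ L1 ⊓ L2))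
  have hu3 : u ∉ L3 := fun h3 => hn (E13 ▸ (⟨⟨hu, hu1⟩, h3⟩ : u ∈ w ⊓ L1 ⊓ L3))
  have hv1 : v ∉ L1 := fun h1 => by
    have hvS : v ∈ S := E12 ▸ (⟨⟨hv, h1⟩, hv2⟩ : v ∈ w ⊓ L1 ⊓ L2)
    exact hu3 (by simpa using sub_mem huv3 (hR.s3 hvS))
  have wu : ∀ x ∈ w, B u x = 0 := fun x hx => h.lag.iso hu hx
  have wv : ∀ x ∈ w, B v x = 0 := fun x hx => h.lag.iso hv hx
  have sp : ∀ {A : Submodule F Ω} {z : Ω}, z ∈ A → span F {z} ≤ A := fun h =>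
    (span_singleton_le_iff_mem _ _).2 h
  have hS' : finrank F ↥(S ⊔ span F {u} ⊔ span F {v}) = s + 2 := by
    rw [finrank_sup_span_singleton fun hh => hv1 (sup_le hR.s1 (sp hu1) hh),
      finrank_sup_span_singleton hn, hs]
  have hR' : Ref B (S ⊔ span F {u} ⊔ span F {v}) (mv B L1 v) (mv B L2 u) (mv B L3 u) :=
    ⟨mv_lag hB hR.l1 v, mv_lag hB hR.l2 u, mv_lag hB hR.l3 u,
      sup_le (sup_le (le_mv hR.s1 fun x hx => wv x (h.le hx)) (sp (mem_mv hu1 (wv u hu))))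
        (sp (self_mem_mv _ _)),
      sup_le (sup_le (le_mv hR.s2 fun x hx => wu x (h.le hx)) (sp (self_mem_mv _ _)))
        (sp (mem_mv hv2 (wu v hv))),
      sup_le (sup_le (le_mv hR.s3 fun x hx => wu x (h.le hx)) (sp (self_mem_mv _ _)))
        (sp (by simpa using sub_mem (mem_mv huv3 (wu _ huv)) (self_mem_mv L3 u)))⟩
  have hle : S ⊔ span F {u} ⊔ span F {v} ≤ w := sup_le (sup_le h.le (sp hu)) (sp hv)
  have a1 : finrank F ↥(w ⊓ mv B L1 v) = k + 1 := by rw [rk_inf_mv hv wv hv1, h.e1]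
  have a2 : finrank F ↥(w ⊓ mv B L2 u) = k + 1 := by rw [rk_inf_mv hu wu hu2, h.e2]
  have a3 : finrank F ↥(w ⊓ mv B L3 u) = k + 1 := by rw [rk_inf_mv hu wu hu3, h.e3]
  have key : ∀ {A C : Submodule F Ω} {y z : Ω}, y ∈ w → z ∈ w → (∀ x ∈ w, B y x = 0) →
      (∀ x ∈ w, B z x = 0) → finrank F ↥(w ⊓ A) = k → finrank F ↥(w ⊓ C) = k →
      finrank F ↥(w ⊓ A ⊓ C) = s → finrank F ↥(w ⊓ mv B A y) = k + 1 →
      finrank F ↥(w ⊓ mv B C z) = k + 1 → y ∈ w ⊓ A ⊔ w ⊓ C → z ∈ w ⊓ A ⊔ w ⊓ C →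
      finrank F ↥(w ⊓ mv B A y ⊓ mv B C z) = s + 2 := by
    intro A C y z hy hz wy wz b1 b2 b3 b4 b5 b6 b7
    have e := finrank_sup_add_finrank_inf_eq (w ⊓ mv B A y) (w ⊓ mv B C z)
    have e' := finrank_sup_add_finrank_inf_eq (w ⊓ A) (w ⊓ C)
    rw [← inf_inf, b1, b2, b3] at e'
    have e'' : w ⊓ mv B A y ⊔ w ⊓ mv B C z = w ⊓ A ⊔ w ⊓ C := by
      rw [inf_mv hy wy, inf_mv hz wz, sup_sup_sup_comm]
      exact sup_eq_left.2 (sup_le (sp b6) (sp b7))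
    rw [← inf_inf, b4, b5, e''] at e
    omega
  have a12 := key hv hu wv wu h.e1 h.e2 h.e12 a1 a2 (mem_sup_right ⟨hv, hv2⟩)
    (mem_sup_left ⟨hu, hu1⟩)
  refine ⟨hS', hR', h.lag, hle, a1, a2, a3, a12, ?_, ?_, ?_⟩
  · refine key hv hu wv wu h.e1 h.e3 h.e13 a1 a3 ?_ (mem_sup_left ⟨hu, hu1⟩)
    simpa using sub_mem (mem_sup_right (S := w ⊓ L1) (⟨huv, huv3⟩ : u + v ∈ w ⊓ L3))
      (mem_sup_left (T := w ⊓ L3) (⟨hu, hu1⟩ : u ∈ w ⊓ L1))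
  · have : u ∈ w ⊓ L2 ⊔ w ⊓ L3 := by
      simpa using sub_mem (mem_sup_right (S := w ⊓ L2) (⟨huv, huv3⟩ : u + v ∈ w ⊓ L3))
        (mem_sup_left (T := w ⊓ L3) (⟨hv, hv2⟩ : v ∈ w ⊓ L2))
    exact key hu hu wu wu h.e2 h.e3 h.e23 a2 a3 this this
  · exact rk_sandwich (le_inf (le_inf (le_inf hle hR'.s1) hR'.s2) hR'.s3) inf_le_left hS' a12

end P050
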