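import Vale.Agent.P050.SpD

namespace P050
open Module Submodule Finset

variable {F : Type} [Field F] [Fintype F] {Ω : Type} [AddCommGroup Ω] [Module F Ω] [Fintype Ω]
  {B : LinearMap.BilinForm F Ω} {n : ℕ}

theorem fin_step {q x K E : ℝ} (hq : 2 ≤ q) {s c j : ℕ} (hsc : s < c) (hx : 0 ≤ x)
    (h : x * (q ^ c - q ^ s) ≤ q ^ j * (K * q ^ (E - (j - c)))) : x ≤ th q * K * q ^ E := by
  have hq0 : 0 < q := by linarith
  refine (ratio hq hsc hx h).trans (le_of_eq ?_)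
  have : q ^ E = q ^ (-(c : ℝ)) * (q ^ j * q ^ (E - (j - c))) := by
    rw [← Real.rpow_natCast q j, ← Real.rpow_add hq0, ← Real.rpow_add hq0]
    congr 1; ring
  rw [this]; ring

def Bd (B : LinearMap.BilinForm F Ω) (n r : ℕ) : Prop :=
  ∀ (S L1 L2 L3 : Submodule F Ω) (e k1 k2 k3 c12 c13 c23 i : ℕ) (W : Finset (Submodule F Ω)),
    finrank F S + r = n → Ref B S L1 L2 L3 →
    (k1 ≤ finrank F S + e ∨ k2 ≤ finrank F S + e ∨ k3 ≤ finrank F S + e) →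
    (∀ w ∈ W, Dat B S L1 L2 L3 k1 k2 k3 c12 c13 c23 i w) →
    (W.card : ℝ) ≤ th (Fintype.card F) ^ r * 3 ^ e *
      (Fintype.card F : ℝ) ^ ER n S L1 L2 L3 k1 k2 k3 c12 c13 c23 i

variable {S L1 L2 L3 : Submodule F Ω} {r e k1 k2 k3 c12 c13 c23 i : ℕ}
  {W : Finset (Submodule F Ω)}

theorem triple_move (ih : Bd B n r) (hS : finrank F S + (r + 1) = n) (hR : Ref B S L1 L2 L3)
    (he : k1 ≤ finrank F S + e ∨ k2 ≤ finrank F S + e ∨ k3 ≤ finrank F S + e)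
    (hW : ∀ w ∈ W, Dat B S L1 L2 L3 k1 k2 k3 c12 c13 c23 i w) (hi : finrank F S < i) :
    (W.card : ℝ) ≤ th (Fintype.card F) ^ (r + 1) * 3 ^ e *
      (Fintype.card F : ℝ) ^ ER n S L1 L2 L3 k1 k2 k3 c12 c13 c23 i := by
  classical
  have hq := two_le_q (F := F)
  have hth := one_le_th hq
  have h := dc W (fs (L1 ⊓ L2 ⊓ L3)) (fun w u => u ∈ w ∧ u ∉ S)
    ((Fintype.card F : ℝ) ^ i - (Fintype.card F : ℝ) ^ finrank F S)
    (th (Fintype.card F) ^ r * 3 ^ e * (Fintype.card F : ℝ) ^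
      (ER n S L1 L2 L3 k1 k2 k3 c12 c13 c23 i - (finrank F ↥(L1 ⊓ L2 ⊓ L3) - i)))
    (fun w hw => ?_) (fun u hu => ?_)
  · rw [card_fs] at h
    refine (fin_step hq hi (by positivity) h).trans (le_of_eq (by ring))
  · have d := hW w hw
    have := card_diff (fs (L1 ⊓ L2 ⊓ L3)) (fun u => u ∈ w ∧ u ∉ S) (w ⊓ L1 ⊓ L2 ⊓ L3) S
      (fun x hx hx' => ⟨mem_fs.2 ⟨⟨hx.1.1.2, hx.1.2⟩, hx.2⟩, hx.1.1.1, hx'⟩)
    rwa [d.e123, inf_eq_right.2 (le_inf (le_inf (le_inf d.le hR.s1) hR.s2) hR.s3)] at this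
  · by_cases huS : u ∈ S
    · simp only [huS, not_true, and_false, filter_false, card_empty, Nat.cast_zero]
      positivity
    · rw [mem_fs] at hu
      have sp : ∀ {A : Submodule F Ω}, u ∈ A → span F {u} ≤ A := fun h =>
        (span_singleton_le_iff_mem _ _).2 h
      have hS' := finrank_sup_span_singleton huS
      refine (ih (S ⊔ span F {u}) L1 L2 L3 e k1 k2 k3 c12 c13 c23 i _ (by omega)
        ⟨hR.l1, hR.l2, hR.l3, sup_le hR.s1 (sp hu.1.1), sup_le hR.s2 (sp hu.1.2),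
          sup_le hR.s3 (sp hu.2)⟩ (by omega) fun w hw => ?_).trans (le_of_eq ?_)
      · have hw' := mem_filter.1 hw
        have d := hW w hw'.1
        exact ⟨d.lag, sup_le d.le (sp hw'.2.1), d.e1, d.e2, d.e3, d.e12, d.e13, d.e23, d.e123⟩
      · congr 2
        simp only [ER, Ex, pr, Tn, dm, hS']
        push_cast; ring

theorem pair_move (hB : Symp B n) (ih : Bd B n r) (hS : finrank F S + (r + 1) = n)
    (hR : Ref B S L1 L2 L3)
    (he : k1 ≤ finrank F S + e ∨ k2 ≤ finrank F S + e ∨ k3 ≤ finrank F S + e)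
    (hW : ∀ w ∈ W, Dat B S L1 L2 L3 k1 k2 k3 c12 c13 c23 (finrank F S) w)
    (hi : finrank F S < c12) :
    (W.card : ℝ) ≤ th (Fintype.card F) ^ (r + 1) * 3 ^ e *
      (Fintype.card F : ℝ) ^ ER n S L1 L2 L3 k1 k2 k3 c12 c13 c23 (finrank F S) := by
  classical
  have hq := two_le_q (F := F)
  have hth := one_le_th hq
  have h := dc W (fs (L1 ⊓ L2)) (fun w u => u ∈ w ∧ u ∉ S)
    ((Fintype.card F : ℝ) ^ c12 - (Fintype.card F : ℝ) ^ finrank F S)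
    (th (Fintype.card F) ^ r * 3 ^ e * (Fintype.card F : ℝ) ^
      (ER n S L1 L2 L3 k1 k2 k3 c12 c13 c23 (finrank F S) - (finrank F ↥(L1 ⊓ L2) - c12)))
    (fun w hw => ?_) (fun u hu => ?_)
  · rw [card_fs] at h
    refine (fin_step hq hi (by positivity) h).trans (le_of_eq (by ring))
  · have d := hW w hw
    have := card_diff (fs (L1 ⊓ L2)) (fun u => u ∈ w ∧ u ∉ S) (w ⊓ L1 ⊓ L2) S
      (fun x hx hx' => ⟨mem_fs.2 ⟨hx.1.2, hx.2⟩, hx.1.1, hx'⟩)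
    rwa [d.e12, inf_eq_right.2 (le_inf (le_inf d.le hR.s1) hR.s2)] at this
  · rcases (W.filter fun w => u ∈ w ∧ u ∉ S).eq_empty_or_nonempty with h0 | ⟨w0, hw0⟩
    · rw [h0, card_empty, Nat.cast_zero]; positivity
    · rw [mem_fs] at hu
      have hw0' := mem_filter.1 hw0
      have huS := hw0'.2.2
      have h3 := (pair_data hB hR (hW w0 hw0'.1) hw0'.2.1 hu.1 hu.2 huS).1
      have sp : ∀ {A : Submodule F Ω}, u ∈ A → span F {u} ≤ A := fun h =>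
        (span_singleton_le_iff_mem _ _).2 h
      have hS' := finrank_sup_span_singleton huS
      have a13 := rk_inf_mv (B := B) hu.1 (fun x hx => hR.l1.iso hu.1 hx) h3
      have a23 := rk_inf_mv (B := B) hu.2 (fun x hx => hR.l2.iso hu.2 hx) h3
      have a123 := rk_inf_mv (B := B) hu (fun x hx => hR.l1.iso hu.1 hx.1) h3
      refine (ih (S ⊔ span F {u}) L1 L2 (mv B L3 u) e k1 k2 (k3 + 1) c12 (c13 + 1) (c23 + 1)
        (finrank F S + 1) _ (by omega)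
        ⟨hR.l1, hR.l2, mv_lag hB hR.l3 u, sup_le hR.s1 (sp hu.1), sup_le hR.s2 (sp hu.2),
          sup_le (le_mv hR.s3 fun x hx => hR.l1.iso hu.1 (hR.s1 hx)) (sp (self_mem_mv _ _))⟩
        (by omega) fun w hw => ?_).trans (le_of_eq ?_)
      · have hw' := mem_filter.1 hw
        exact (pair_data hB hR (hW w hw'.1) hw'.2.1 hu.1 hu.2 huS).2
      · congr 2
        simp only [ER, Ex, pr, Tn, dm, hS', a13, a23, a123]
        push_cast; ring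

theorem single_move (hB : Symp B n) (ih : Bd B n r) {s : ℕ} (hs : finrank F S = s)
    (hS : s + (r + 1) = n) (hR : Ref B S L1 L2 L3)
    (he : k1 ≤ s + e ∨ k2 ≤ s + e ∨ k3 ≤ s + 1 + e)
    (hW : ∀ w ∈ W, Dat B S L1 L2 L3 k1 k2 k3 s s s s w ∧ ¬ w ⊓ L3 ≤ w ⊓ L1 ⊔ w ⊓ L2) :
    (W.card : ℝ) ≤ th (Fintype.card F) ^ (r + 1) * 3 ^ e *
      (Fintype.card F : ℝ) ^ ER n S L1 L2 L3 k1 k2 k3 s s s s := by
  classical
  have hq := two_le_q (F := F)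
  have hth := one_le_th hq
  have hlt : ∀ w ∈ W, finrank F ↥(w ⊓ L3 ⊓ (w ⊓ L1 ⊔ w ⊓ L2)) < k3 := by
    intro w hw
    rw [← (hW w hw).1.e3]
    exact finrank_lt_finrank_of_lt (inf_lt_left.2 (hW w hw).2)
  rcases W.eq_empty_or_nonempty with h0 | ⟨w1, hw1⟩
  · rw [h0, card_empty, Nat.cast_zero]; positivity
  have hk : k3 - 1 < k3 := by have := hlt w1 hw1; omega
  have h := dc W (fs L3) (fun w u => u ∈ w ∧ u ∉ w ⊓ L1 ⊔ w ⊓ L2)
    ((Fintype.card F : ℝ) ^ k3 - (Fintype.card F : ℝ) ^ (k3 - 1))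
    (th (Fintype.card F) ^ r * 3 ^ e * (Fintype.card F : ℝ) ^
      (ER n S L1 L2 L3 k1 k2 k3 s s s s - (n - k3)))
    (fun w hw => ?_) (fun u hu => ?_)
  · rw [card_fs, hR.l3.rk hB] at h
    refine (fin_step hq hk (by positivity) h).trans (le_of_eq (by ring))
  · have d := (hW w hw).1
    have := card_diff (fs L3) (fun u => u ∈ w ∧ u ∉ w ⊓ L1 ⊔ w ⊓ L2) (w ⊓ L3) (w ⊓ L1 ⊔ w ⊓ L2)
      (fun x hx hx' => ⟨mem_fs.2 hx.2, hx.1, hx'⟩)
    rw [d.e3] at this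
    have h2 : (Fintype.card F : ℝ) ^ finrank F ↥(w ⊓ L3 ⊓ (w ⊓ L1 ⊔ w ⊓ L2)) ≤
        (Fintype.card F : ℝ) ^ (k3 - 1) :=
      pow_le_pow_right₀ (by linarith) (by have := hlt w hw; omega)
    linarith
  · rcases (W.filter fun w => u ∈ w ∧ u ∉ w ⊓ L1 ⊔ w ⊓ L2).eq_empty_or_nonempty with
      h0 | ⟨w0, hw0⟩
    · rw [h0, card_empty, Nat.cast_zero]; positivity
    · rw [mem_fs] at hu
      have hw0' := mem_filter.1 hw0
      obtain ⟨hS', hR', -⟩ := single_data hB hs hR (hW w0 hw0'.1).1 hw0'.2.1 hu hw0'.2.2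
      refine (ih _ _ _ _ e (k1 + 1) (k2 + 1) k3 (s + 1) (s + 1) (s + 1) (s + 1) _ (by omega) hR'
        (by omega) fun w hw => ?_).trans (le_of_eq ?_)
      · have hw' := mem_filter.1 hw
        exact (single_data hB hs hR (hW w hw'.1).1 hw'.2.1 hu hw'.2.2).2.2
      · congr 2
        simp only [ER, Ex, pr, Tn, dm, hS', hs]
        push_cast; ring

open Classical in
theorem rel_count (hB : Symp B n) {s k : ℕ} (hs : finrank F S = s) (hR : Ref B S L1 L2 L3)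
    (hW : ∀ w ∈ W, Dat B S L1 L2 L3 k k k s s s s w ∧ w ⊓ L3 ≤ w ⊓ L1 ⊔ w ⊓ L2) (b : ℝ)
    (hb0 : 0 ≤ b)
    (hb : ∀ (S' M1 M2 M3 : Submodule F Ω) (W' : Finset (Submodule F Ω)),
      finrank F S' = s + 2 → Ref B S' M1 M2 M3 →
      (∀ w ∈ W', Dat B S' M1 M2 M3 (k + 1) (k + 1) (k + 1) (s + 2) (s + 2) (s + 2) (s + 2) w) →
      (W'.card : ℝ) ≤ b) :
    (W.card : ℝ) * ((Fintype.card F : ℝ) ^ (s + k) - (Fintype.card F : ℝ) ^ (s + s)) ≤
      (((fs (Rel L1 L2 L3)).filter fun x => B x.1 x.2 = 0).card : ℝ) * b := by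
  refine dc W _ (fun w x => x ∈ Rel (w ⊓ L1) (w ⊓ L2) (w ⊓ L3) ∧ x.1 ∉ S) _ _
    (fun w hw => ?_) (fun x _ => ?_)
  · have d := (hW w hw).1
    have := card_diff ((fs (Rel L1 L2 L3)).filter fun x => B x.1 x.2 = 0)
      (fun x => x ∈ Rel (w ⊓ L1) (w ⊓ L2) (w ⊓ L3) ∧ x.1 ∉ S)
      (Rel (w ⊓ L1) (w ⊓ L2) (w ⊓ L3)) (Rel S (w ⊓ L2) (w ⊓ L3)) (fun x hx hx' => by
        have hx2 := mem_Rel.1 hx
        refine ⟨mem_filter.2 ⟨mem_fs.2 (mem_Rel.2 ⟨hx2.1.2, hx2.2.1.2, hx2.2.2.2⟩),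
          d.lag.iso hx2.1.1 hx2.2.1.1⟩, hx, fun h => hx' (mem_Rel.2 ⟨h, hx2.2⟩)⟩)
    have hle : Rel S (w ⊓ L2) (w ⊓ L3) ≤ Rel (w ⊓ L1) (w ⊓ L2) (w ⊓ L3) := fun x hx => by
      rw [mem_Rel] at hx ⊢
      exact ⟨⟨d.le hx.1, hR.s1 hx.1⟩, hx.2⟩
    have hS2 : S ≤ w ⊓ L2 := le_inf d.le hR.s2
    rwa [inf_eq_right.2 hle, rk_Rel, rk_Rel, inf_eq_right.2 (hW w hw).2, ← inf_inf, d.e12, d.e3,
      inf_eq_left.2 hS2, sup_eq_right.2 hS2, ← inf_inf, d.e23, hs] at this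
  · rcases (W.filter fun w => x ∈ Rel (w ⊓ L1) (w ⊓ L2) (w ⊓ L3) ∧ x.1 ∉ S).eq_empty_or_nonempty
      with h0 | ⟨w0, hw0⟩
    · rw [h0, card_empty, Nat.cast_zero]; exact hb0
    · have hw0' := mem_filter.1 hw0
      obtain ⟨hS', hR', -⟩ := rel_data hB hs hR (hW w0 hw0'.1).1 hw0'.2.1 hw0'.2.2
      refine hb _ _ _ _ _ hS' hR' fun w hw => ?_
      have hw' := mem_filter.1 hw
      exact (rel_data hB hs hR (hW w hw'.1).1 hw'.2.1 hw'.2.2).2.2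

/-- the form `(x, y) ↦ B x.1 y.2` on pairs -/
def bt (B : LinearMap.BilinForm F Ω) : LinearMap.BilinForm F (Ω × Ω) :=
  B.compl₁₂ (LinearMap.fst F Ω Ω) (LinearMap.snd F Ω Ω)

omit [Fintype F] in
theorem exists_rel {s k : ℕ} {w : Submodule F Ω} (hs : finrank F S = s) (hR : Ref B S L1 L2 L3)
    (d : Dat B S L1 L2 L3 k k k s s s s w) (h : w ⊓ L3 ≤ w ⊓ L1 ⊔ w ⊓ L2) (hk : s < k) :
    ∃ x ∈ Rel (w ⊓ L1) (w ⊓ L2) (w ⊓ L3), x.1 ∉ L2 := by
  by_contra hcon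
  push Not at hcon
  have hle : w ⊓ L3 ≤ w ⊓ L2 ⊓ L3 := by
    intro z hz
    obtain ⟨a, ha, b, hb, rfl⟩ := mem_sup.1 (h hz)
    have := hcon (a, b) (mem_Rel.2 ⟨ha, hb, hz⟩)
    exact ⟨⟨hz.1, add_mem this hb.2⟩, hz.2⟩
  have := finrank_mono hle
  rw [d.e3, d.e23] at this
  omega

open Classical in
theorem rel_zeros (hB : Symp B n) (hc : ringChar F ≠ 2) (hR : Ref B S L1 L2 L3) {x : Ω × Ω}
    (hx : x ∈ Rel L1 L2 L3) (hx2 : x.1 ∉ L2) :
    (((fs (Rel L1 L2 L3)).filter fun x => B x.1 x.2 = 0).card : ℝ) * Fintype.card F ≤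
      2 * (Fintype.card F : ℝ) ^ (n + finrank F ↥(L1 ⊓ L3)) := by
  have hq := two_le_q (F := F)
  have ha : L1 ⊓ L2 ⊓ L3 ≤ L1 ⊓ L3 := le_inf (inf_le_left.trans inf_le_left) inf_le_right
  by_cases h0 : ∀ v ∈ Rel L1 L2 L3, bt B v v = 0
  · have hp := polar_zero hc (bt B) _
      (fun x hx y hy => Rel_symm hB hR.l1 hR.l2 hR.l3 hx hy) h0
    have hx1 : x.1 ∈ L2 ⊔ L1 ⊓ L3 := by
      have : x.1 ∈ B.orthogonal (L2 ⊓ (L1 ⊔ L3)) := by
        rintro y ⟨hy2, hy⟩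
        obtain ⟨a, ha, b, hb, rfl⟩ := mem_sup.1 hy
        have := hp x hx (-a, a + b) (mem_Rel.2 ⟨neg_mem ha, hy2, by simpa using hb⟩)
        exact hB.alt.isRefl _ _ this
      rwa [orth_inf hB, orth_sup, show B.orthogonal L1 = L1 from hR.l1,
        show B.orthogonal L2 = L2 from hR.l2, show B.orthogonal L3 = L3 from hR.l3] at this
    have hlt : finrank F ↥(L1 ⊓ L2 ⊓ L3) < finrank F ↥(L1 ⊓ L3) := by
      refine finrank_lt_finrank_of_lt (lt_of_le_of_ne ha fun h => hx2 ?_)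
      have : L1 ⊓ L3 ≤ L2 := by rw [← h]; exact inf_le_left.trans inf_le_right
      exact (sup_le le_rfl this) hx1
    have h1 : (((fs (Rel L1 L2 L3)).filter fun x => B x.1 x.2 = 0).card : ℝ) ≤
        (fs (Rel L1 L2 L3)).card := by exact_mod_cast card_filter_le _ _
    rw [card_fs, rk_Rel_lag hB hR.l1 hR.l2 hR.l3] at h1
    have h2 : (Fintype.card F : ℝ) ^ (n + finrank F ↥(L1 ⊓ L2 ⊓ L3)) * Fintype.card F ≤
        (Fintype.card F : ℝ) ^ (n + finrank F ↥(L1 ⊓ L3)) := by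
      rw [← pow_succ]; exact pow_le_pow_right₀ (by linarith) (by omega)
    have h3 : (0 : ℝ) ≤ (Fintype.card F : ℝ) ^ (n + finrank F ↥(L1 ⊓ L3)) := by positivity
    nlinarith
  · push Not at h0
    obtain ⟨v, hv, hvv⟩ := h0
    have h1 := zeros_two (bt B) _ hv hvv
    rw [card_fs, rk_Rel_lag hB hR.l1 hR.l2 hR.l3] at h1
    have h2 : (Fintype.card F : ℝ) ^ (n + finrank F ↥(L1 ⊓ L2 ⊓ L3)) ≤
        (Fintype.card F : ℝ) ^ (n + finrank F ↥(L1 ⊓ L3)) :=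
      pow_le_pow_right₀ (by linarith) (by have := finrank_mono ha; omega)
    have h3 : (((fs (Rel L1 L2 L3)).filter fun x => B x.1 x.2 = 0).card : ℝ) * Fintype.card F ≤
      (Fintype.card F : ℝ) ^ (n + finrank F ↥(L1 ⊓ L2 ⊓ L3)) * 2 := h1
    linarith

end P050
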