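import Vale.Agent.P050.SpE

namespace P050
open Module Submodule Finset

variable {F : Type} [Field F] [Fintype F] {Ω : Type} [AddCommGroup Ω] [Module F Ω] [Fintype Ω]
  {B : LinearMap.BilinForm F Ω} {n : ℕ}
  {S L1 L2 L3 : Submodule F Ω} {r e k1 k2 k3 c12 c13 c23 i : ℕ} {W : Finset (Submodule F Ω)}

omit [Fintype F] in
theorem Dat.c3 (hB : Symp B n) (hR : Ref B S L1 L2 L3) {w : Submodule F Ω}
    (d : Dat B S L1 L2 L3 k1 k2 k3 c12 c13 c23 i w) :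
    k1 + k3 + finrank F ↥(L1 ⊓ L3) ≤ n + 2 * c13 := by
  have := P050.c3 hB d.lag hR.l1 hR.l3
  rwa [d.e1, d.e3, d.e13] at this

omit [Fintype F] [Fintype Ω] in
theorem Rel_mono {w : Submodule F Ω} {x : Ω × Ω} (hx : x ∈ Rel (w ⊓ L1) (w ⊓ L2) (w ⊓ L3)) :
    x ∈ Rel L1 L2 L3 := by
  rw [mem_Rel] at hx ⊢
  exact ⟨hx.1.2, hx.2.1.2, hx.2.2.2⟩

theorem rel_move (hB : Symp B n) (hc : ringChar F ≠ 2) (ih : Bd B n r) {s k : ℕ}
    (hs : finrank F S = s) (hS : s + (r + 2) = n) (hR : Ref B S L1 L2 L3) (he : k ≤ s + 1 + e)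
    (hk : s < k)
    (hW : ∀ w ∈ W, Dat B S L1 L2 L3 k k k s s s s w ∧ w ⊓ L3 ≤ w ⊓ L1 ⊔ w ⊓ L2) :
    (W.card : ℝ) ≤ 2 * (th (Fintype.card F) ^ (r + 1) * 3 ^ e *
      (Fintype.card F : ℝ) ^ ER n S L1 L2 L3 k k k s s s s) := by
  classical
  have hq := two_le_q (F := F)
  have hq0 : (0 : ℝ) < Fintype.card F := by linarith
  have hth := one_le_th hq
  rcases W.eq_empty_or_nonempty with h0 | ⟨w0, hw0⟩
  · rw [h0, card_empty, Nat.cast_zero]; positivity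
  obtain ⟨x, hx, hx2⟩ := exists_rel hs hR (hW w0 hw0).1 (hW w0 hw0).2 hk
  have hz := rel_zeros hB hc hR (Rel_mono hx) hx2
  have h3 := (hW w0 hw0).1.c3 hB hR
  obtain ⟨J, hJ⟩ : ∃ J, J + 1 + 2 * k = 2 * n + 2 * s := ⟨2 * n + 2 * s - 1 - 2 * k, by omega⟩
  have hJ' : (J : ℝ) = 2 * n + 2 * s - 1 - 2 * k := by
    have : ((J + 1 + 2 * k : ℕ) : ℝ) = ((2 * n + 2 * s : ℕ) : ℝ) := by rw [hJ]
    push_cast at this; linarith
  have h := rel_count hB hs hR hW (th (Fintype.card F) ^ r * 3 ^ e * (Fintype.card F : ℝ) ^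
      (ER n S L1 L2 L3 k k k s s s s - (J - (s + k : ℕ)))) (by positivity)
    (fun S' M1 M2 M3 W' hS' hR' hW' => ?_)
  · have hz2 : (((fs (Rel L1 L2 L3)).filter fun x => B x.1 x.2 = 0).card : ℝ) ≤
        2 * (Fintype.card F : ℝ) ^ J := by
      have : (Fintype.card F : ℝ) ^ (n + finrank F ↥(L1 ⊓ L3)) ≤
          (Fintype.card F : ℝ) ^ J * Fintype.card F := by
        rw [← pow_succ]; exact pow_le_pow_right₀ (by linarith) (by omega)
      exact le_of_mul_le_mul_right (by linarith) hq0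
    have h' := h.trans (mul_le_mul_of_nonneg_right hz2 (by positivity))
    refine (fin_step (K := 2 * (th (Fintype.card F) ^ r * 3 ^ e)) (j := J)
      (E := ER n S L1 L2 L3 k k k s s s s) hq (show s + s < s + k by omega) (by positivity)
      (h'.trans (le_of_eq (by ring)))).trans (le_of_eq (by ring))
  · refine (ih S' M1 M2 M3 e _ _ _ _ _ _ _ W' (by omega) hR' (by omega) hW').trans (le_of_eq ?_)
    congr 2
    simp only [ER, Ex, pr, Tn, dm, hS', hs, hJ']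
    push_cast; ring

omit [Fintype F] in
theorem not_le_of_lt {s : ℕ} {w : Submodule F Ω} (d : Dat B S L1 L2 L3 k1 k2 k3 s s s s w)
    (h : k1 < k3 ∨ k2 < k3) : ¬ w ⊓ L3 ≤ w ⊓ L1 ⊔ w ⊓ L2 := by
  intro hle
  have e12 := finrank_sup_add_finrank_inf_eq (w ⊓ L1) (w ⊓ L2)
  have e13 := finrank_sup_add_finrank_inf_eq (w ⊓ L1) (w ⊓ L3)
  have e23 := finrank_sup_add_finrank_inf_eq (w ⊓ L2) (w ⊓ L3)
  rw [← inf_inf, d.e12, d.e1, d.e2] at e12
  rw [← inf_inf, d.e13, d.e1, d.e3] at e13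
  rw [← inf_inf, d.e23, d.e2, d.e3] at e23
  have m1 := finrank_mono (sup_le le_sup_left hle : w ⊓ L1 ⊔ w ⊓ L3 ≤ w ⊓ L1 ⊔ w ⊓ L2)
  have m2 := finrank_mono (sup_le le_sup_right hle : w ⊓ L2 ⊔ w ⊓ L3 ≤ w ⊓ L1 ⊔ w ⊓ L2)
  omega

theorem bd_all (hB : Symp B n) (hc : ringChar F ≠ 2) (r : ℕ) : Bd B n r := by
  classical
  have hq := two_le_q (F := F)
  have hq0 : (0 : ℝ) < Fintype.card F := by linarith
  have hth := one_le_th hq
  induction r using Nat.strong_induction_on with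
  | _ r ih =>
  intro S L1 L2 L3 e k1 k2 k3 c12 c13 c23 i W hS hR he hW
  rcases W.eq_empty_or_nonempty with h0 | ⟨w0, hw0⟩
  · rw [h0, card_empty, Nat.cast_zero]; positivity
  have d := hW w0 hw0
  have m0 := finrank_mono (le_inf (le_inf (le_inf d.le hR.s1) hR.s2) hR.s3)
  have m12 := finrank_mono (inf_le_left : w0 ⊓ L1 ⊓ L2 ⊓ L3 ≤ _)
  have m13 := finrank_mono (le_inf (inf_le_left.trans inf_le_left) inf_le_right :
    w0 ⊓ L1 ⊓ L2 ⊓ L3 ≤ w0 ⊓ L1 ⊓ L3)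
  have m23 := finrank_mono (le_inf (le_inf (inf_le_left.trans (inf_le_left.trans inf_le_left))
    (inf_le_left.trans inf_le_right)) inf_le_right : w0 ⊓ L1 ⊓ L2 ⊓ L3 ≤ w0 ⊓ L2 ⊓ L3)
  have m1 := finrank_mono (inf_le_left : w0 ⊓ L1 ⊓ L2 ≤ _)
  have m1' := finrank_mono (inf_le_left : w0 ⊓ L1 ⊓ L3 ≤ _)
  have m2 := finrank_mono (inf_le_left : w0 ⊓ L2 ⊓ L3 ≤ _)
  have m3 := finrank_mono (le_inf (inf_le_left.trans inf_le_left) inf_le_right :
    w0 ⊓ L2 ⊓ L3 ≤ w0 ⊓ L3)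
  have n1 := finrank_mono (inf_le_left : w0 ⊓ L1 ≤ _)
  have n2 := finrank_mono (inf_le_left : w0 ⊓ L2 ≤ _)
  have n3 := finrank_mono (inf_le_left : w0 ⊓ L3 ≤ _)
  have n0 := d.lag.rk hB
  simp only [d.e1, d.e2, d.e3, d.e12, d.e13, d.e23, d.e123, n0] at m0 m12 m13 m23 m1 m1' m2 m3 n1 n2 n3
  have hall : ∀ k1 k2 k3 : ℕ, k1 = finrank F S → k2 = finrank F S → k3 = finrank F S →
      (W.card : ℝ) ≤ th (Fintype.card F) ^ r * 3 ^ e * (Fintype.card F : ℝ) ^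
        ER n S L1 L2 L3 k1 k2 k3 (finrank F S) (finrank F S) (finrank F S) (finrank F S) := by
    rintro _ _ _ rfl rfl rfl
    refine (cnt0 hB r S W hS fun w hw => ⟨(hW w hw).lag, (hW w hw).le⟩).trans ?_
    have : ER n S L1 L2 L3 (finrank F S) (finrank F S) (finrank F S) (finrank F S) (finrank F S)
        (finrank F S) (finrank F S) = Tn r := by
      simp only [ER, Ex, pr, Tn, dm, ← hS]
      push_cast; ring
    rw [this]
    have h3 : (1 : ℝ) ≤ 3 ^ e := one_le_pow₀ (by norm_num)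
    have h4 : 0 ≤ th (Fintype.card F) ^ r * (Fintype.card F : ℝ) ^ Tn r := by positivity
    nlinarith
  rcases r with _ | r
  · obtain rfl : i = finrank F S := by omega
    obtain rfl : c12 = finrank F S := by omega
    obtain rfl : c13 = finrank F S := by omega
    obtain rfl : c23 = finrank F S := by omega
    exact hall _ _ _ (by omega) (by omega) (by omega)
  have ih1 := ih r (by omega)
  rcases m0.lt_or_eq with hi | rfl
  · exact triple_move ih1 hS hR he hW hi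
  rcases m12.lt_or_eq with hi | rfl
  · exact pair_move hB ih1 hS hR he hW hi
  rcases m13.lt_or_eq with hi | rfl
  · rw [← ER_sw23]
    exact pair_move hB ih1 hS hR.sw23 (by omega) (fun w hw => (hW w hw).sw23) hi
  rcases m23.lt_or_eq with hi | rfl
  · rw [← ER_sw12, ← ER_sw23]
    exact pair_move hB ih1 hS hR.sw12.sw23 (by omega) (fun w hw => (hW w hw).sw12.sw23) hi
  by_cases h3 : k1 < k3 ∨ k2 < k3
  · exact single_move hB ih1 rfl hS hR (by omega) fun w hw => ⟨hW w hw, not_le_of_lt (hW w hw) h3⟩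
  by_cases h2 : k1 < k2 ∨ k3 < k2
  · rw [← ER_sw23]
    exact single_move hB ih1 rfl hS hR.sw23 (by omega)
      fun w hw => ⟨(hW w hw).sw23, not_le_of_lt (hW w hw).sw23 h2⟩
  by_cases h1 : k2 < k1 ∨ k3 < k1
  · rw [← ER_sw12, ← ER_sw23]
    exact single_move hB ih1 rfl hS hR.sw12.sw23 (by omega)
      fun w hw => ⟨(hW w hw).sw12.sw23, not_le_of_lt (hW w hw).sw12.sw23 h1⟩
  obtain rfl : k2 = k1 := by omega
  obtain rfl : k3 = k2 := by omega
  rcases m1.lt_or_eq with hk | hk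
  swap
  · exact hall _ _ _ hk.symm hk.symm hk.symm
  obtain ⟨e, rfl⟩ : ∃ e', e = e' + 1 := ⟨e - 1, by omega⟩
  have h13 := d.c3 hB hR
  have h13' := finrank_mono (le_inf hR.s1 hR.s3)
  obtain ⟨r, rfl⟩ : ∃ r', r = r' + 1 := ⟨r - 1, by omega⟩
  have hA := single_move (W := W.filter fun w => ¬ w ⊓ L3 ≤ w ⊓ L1 ⊔ w ⊓ L2) (e := e) hB ih1 rfl
    hS hR (by omega) fun w hw => ⟨hW w (mem_filter.1 hw).1, (mem_filter.1 hw).2⟩
  have hB' := rel_move (W := W.filter fun w => w ⊓ L3 ≤ w ⊓ L1 ⊔ w ⊓ L2) (e := e) hB hc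
    (ih r (by omega)) rfl hS hR (by omega) hk
    fun w hw => ⟨hW w (mem_filter.1 hw).1, (mem_filter.1 hw).2⟩
  have hsum := card_filter_add_card_filter_not (s := W) fun w => w ⊓ L3 ≤ w ⊓ L1 ⊔ w ⊓ L2
  have hsum' : ((W.filter fun w => w ⊓ L3 ≤ w ⊓ L1 ⊔ w ⊓ L2).card : ℝ) +
      ((W.filter fun w => ¬ w ⊓ L3 ≤ w ⊓ L1 ⊔ w ⊓ L2).card : ℝ) = W.card := by
    exact_mod_cast hsum
  set X := (Fintype.card F : ℝ) ^ ER n S L1 L2 L3 k3 k3 k3 (finrank F S) (finrank F S)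
    (finrank F S) (finrank F S)
  have hX : 0 ≤ th (Fintype.card F) ^ (r + 1) * 3 ^ e * X := by positivity
  have e1 : th (Fintype.card F) ^ (r + 1 + 1) * 3 ^ e * X =
    th (Fintype.card F) * (th (Fintype.card F) ^ (r + 1) * 3 ^ e * X) := by ring
  have e2 : th (Fintype.card F) ^ (r + 1 + 1) * 3 ^ (e + 1) * X =
    3 * (th (Fintype.card F) * (th (Fintype.card F) ^ (r + 1) * 3 ^ e * X)) := by ring
  rw [e1] at hA
  rw [e2]
  nlinarith

end P050
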