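import Vale.Agent.P050.SpF

namespace P050
open Module Submodule Finset

variable {F : Type} [Field F] [Fintype F] {Ω : Type} [AddCommGroup Ω] [Module F Ω] [Fintype Ω]
  {B : LinearMap.BilinForm F Ω} {n : ℕ} {S L1 L2 L3 : Submodule F Ω}

open Classical in
theorem rel_zeros2 (hB : Symp B n) (hc : ringChar F ≠ 2) (hR : Ref B S L1 L2 L3) {s : ℕ}
    (hs : finrank F S = s) (h12 : finrank F ↥(L1 ⊓ L2) = s) (h13 : finrank F ↥(L1 ⊓ L3) = s)
    (h23 : finrank F ↥(L2 ⊓ L3) = s) (hn : s + 3 ≤ n) {u : Ω × Ω}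
    (hu : u ∈ Rel L1 L2 L3) (huu : B u.1 u.2 = 0) (hu2 : u.1 ∉ L2) :
    (((fs (Rel L1 L2 L3)).filter fun x => B x.1 x.2 = 0).card : ℝ) * Fintype.card F *
      Fintype.card F ≤ (Fintype.card F : ℝ) ^ (n + s) * (Fintype.card F + 2) := by
  have hq := two_le_q (F := F)
  have hsy : ∀ x ∈ Rel L1 L2 L3, ∀ y ∈ Rel L1 L2 L3, bt B x y = bt B y x :=
    fun x hx y hy => Rel_symm hB hR.l1 hR.l2 hR.l3 hx hy
  have hP : finrank F (Rel L1 L2 L3) = n + s := by
    rw [rk_Rel_lag hB hR.l1 hR.l2 hR.l3,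
      rk_sandwich (le_inf (le_inf hR.s1 hR.s2) hR.s3) inf_le_left hs h12]
  set P0 := Rel L1 L2 L3 ⊓ LinearMap.ker (bt B u) with hP0
  have hlt : finrank F P0 < n + s := by
    rw [← hP]
    refine finrank_lt_finrank_of_lt (inf_lt_left.2 fun hle => hu2 ?_)
    have : u.1 ∈ B.orthogonal (L2 ⊓ (L1 ⊔ L3)) := by
      rintro y ⟨hy2, hy⟩
      obtain ⟨a, ha, b, hb, rfl⟩ := mem_sup.1 hy
      have := hle (mem_Rel.2 ⟨neg_mem ha, hy2, by simpa using hb⟩ : (-a, a + b) ∈ Rel L1 L2 L3)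
      exact hB.alt.isRefl _ _ this
    rw [orth_inf hB, orth_sup, show B.orthogonal L1 = L1 from hR.l1,
      show B.orthogonal L2 = L2 from hR.l2, show B.orthogonal L3 = L3 from hR.l3,
      eq_of_rk (le_inf hR.s1 hR.s3) (h13.trans hs.symm), sup_eq_left.2 hR.s2] at this
    exact this
  have hge : n + s ≤ finrank F P0 + 1 := by
    have e := rk_map_ker (bt B u) (Rel L1 L2 L3)
    have e' := finrank_le ((Rel L1 L2 L3).map (bt B u))
    rw [finrank_self] at e'
    rw [← hP0] at e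
    omega
  obtain ⟨v, hv, hvv⟩ : ∃ v ∈ P0, bt B v v ≠ 0 := by
    by_contra hcon
    push Not at hcon
    have hp := polar_zero hc (bt B) P0 (fun x hx y hy => hsy x hx.1 y hy.1) hcon
    have e1 := rk_map_ker (LinearMap.fst F Ω Ω) P0
    have e2 := rk_map_ker (LinearMap.snd F Ω Ω) P0
    have k1 : finrank F ↥(P0 ⊓ LinearMap.ker (LinearMap.fst F Ω Ω)) ≤ s := by
      rw [← h23]
      refine le_trans (finrank_mono ?_) (finrank_map_le (LinearMap.inr F Ω Ω) _)
      rintro ⟨a, b⟩ ⟨⟨hx, -⟩, h0⟩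
      obtain rfl : a = 0 := h0
      have := mem_Rel.1 hx
      exact ⟨b, ⟨this.2.1, by simpa using this.2.2⟩, rfl⟩
    have k2 : finrank F ↥(P0 ⊓ LinearMap.ker (LinearMap.snd F Ω Ω)) ≤ s := by
      rw [← h13]
      refine le_trans (finrank_mono ?_) (finrank_map_le (LinearMap.inl F Ω Ω) _)
      rintro ⟨a, b⟩ ⟨⟨hx, -⟩, h0⟩
      obtain rfl : b = 0 := h0
      have := mem_Rel.1 hx
      exact ⟨a, ⟨this.1, by simpa using this.2.2⟩, rfl⟩
    have e3 := rk_inf_orth hB hR.l2 (P0.map (LinearMap.fst F Ω Ω))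
    have k3 : finrank F ↥(L2 ⊓ P0.map (LinearMap.fst F Ω Ω)) ≤ s := by
      rw [← h12]
      refine finrank_mono ?_
      rintro z ⟨hz, x, hx, rfl⟩
      exact ⟨(mem_Rel.1 hx.1).1, hz⟩
    have k4 : finrank F ↥(P0.map (LinearMap.snd F Ω Ω)) ≤
        finrank F ↥(L2 ⊓ B.orthogonal (P0.map (LinearMap.fst F Ω Ω))) := by
      refine finrank_mono ?_
      rintro z ⟨y, hy, rfl⟩
      refine ⟨(mem_Rel.1 hy.1).2.1, ?_⟩
      rintro z ⟨x, hx, rfl⟩
      exact hp x hx y hy
    omega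
  have z2 := zeros_two (bt B) P0 hv hvv
  have z1 := zeros_one hc (bt B) _ hu huu fun x hx => hsy x hx u hu
  rw [card_fs] at z1 z2
  rw [hP] at z1
  have z3 : (Fintype.card F : ℝ) ^ finrank F P0 * Fintype.card F ≤
      (Fintype.card F : ℝ) ^ (n + s) := by
    rw [← pow_succ]; exact pow_le_pow_right₀ (by linarith) (by omega)
  have z4 : ((fs (Rel L1 L2 L3)).filter fun x => B x.1 x.2 = 0) ⊆
      ((fs P0).filter fun x => bt B x x = 0) ∪
        ((fs (Rel L1 L2 L3)).filter fun x => bt B x x = 0 ∧ bt B u x ≠ 0) := by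
    intro x hx
    have hx' := mem_filter.1 hx
    by_cases h : bt B u x = 0
    · exact mem_union_left _ (mem_filter.2 ⟨mem_fs.2 ⟨mem_fs.1 hx'.1, h⟩, hx'.2⟩)
    · exact mem_union_right _ (mem_filter.2 ⟨hx'.1, hx'.2, h⟩)
  have z5 := (card_le_card z4).trans (card_union_le _ _)
  have z6 : (((fs (Rel L1 L2 L3)).filter fun x => B x.1 x.2 = 0).card : ℝ) ≤
      (((fs P0).filter fun x => bt B x x = 0).card : ℝ) +
        (((fs (Rel L1 L2 L3)).filter fun x => bt B x x = 0 ∧ bt B u x ≠ 0).card : ℝ) := by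
    exact_mod_cast z5
  have hq0 : (0 : ℝ) ≤ Fintype.card F := by linarith
  have a1 := mul_le_mul_of_nonneg_right (mul_le_mul_of_nonneg_right z6 hq0) hq0
  have a2 := mul_le_mul_of_nonneg_right z1 hq0
  have a3 := mul_le_mul_of_nonneg_right z2 hq0
  nlinarith

theorem tri (hB : Symp B n) (hc : ringChar F ≠ 2) (ρ : ℕ) :
    ∀ (S L1 L2 L3 : Submodule F Ω) (W : Finset (Submodule F Ω)) (s : ℕ), finrank F S = s →
    s + 2 * ρ = n → Ref B S L1 L2 L3 →
    (∀ w ∈ W, Dat B S L1 L2 L3 (s + ρ) (s + ρ) (s + ρ) s s s s w) →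
    (W.card : ℝ) ≤ (if ρ = 0 then 1 else 2) * th (Fintype.card F) ^ (3 * ρ) *
      (Fintype.card F : ℝ) ^ (Tn ρ - ρ) := by
  classical
  have hq := two_le_q (F := F)
  have hq0 : (0 : ℝ) < Fintype.card F := by linarith
  have hth := one_le_th hq
  induction ρ with
  | zero =>
    intro S L1 L2 L3 W s hs hn hR hW
    simpa [Tn] using card_le_one_of_rk hB (by omega) W fun w hw => ⟨(hW w hw).lag, (hW w hw).le⟩
  | succ ρ ih =>
    intro S L1 L2 L3 W s hs hn hR hW
    rcases W.eq_empty_or_nonempty with h0 | ⟨w0, hw0⟩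
    · rw [h0, card_empty, Nat.cast_zero]; positivity
    have hcl : ∀ w ∈ W, w ⊓ L3 ≤ w ⊓ L1 ⊔ w ⊓ L2 := by
      intro w hw
      have d := hW w hw
      have e12 := finrank_sup_add_finrank_inf_eq (w ⊓ L1) (w ⊓ L2)
      rw [← inf_inf, d.e12, d.e1, d.e2] at e12
      have := eq_of_le_of_finrank_le (sup_le inf_le_left inf_le_left : w ⊓ L1 ⊔ w ⊓ L2 ≤ w)
        (by rw [d.lag.rk hB]; omega)
      rw [this]; exact inf_le_left
    have d := hW w0 hw0
    obtain ⟨x, hx, hx2⟩ := exists_rel hs hR d (hcl w0 hw0) (by omega)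
    have h13 := d.c3 hB hR
    have h12 := d.sw23.c3 hB hR.sw23
    have h23 := d.sw12.c3 hB hR.sw12
    have m13 := finrank_mono (le_inf hR.s1 hR.s3)
    have m12 := finrank_mono (le_inf hR.s1 hR.s2)
    have m23 := finrank_mono (le_inf hR.s2 hR.s3)
    obtain ⟨J, hJ⟩ : ∃ J, J + 1 = n + s := ⟨n + s - 1, by omega⟩
    have hJ' : (J : ℝ) = 2 * s + 2 * ρ + 1 := by
      have : J = 2 * s + 2 * ρ + 1 := by omega
      rw [this]; push_cast; ring
    have h := rel_count hB hs hR (fun w hw => ⟨hW w hw, hcl w hw⟩)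
      ((if ρ = 0 then 1 else 2) * th (Fintype.card F) ^ (3 * ρ) *
        (Fintype.card F : ℝ) ^ (Tn ρ - ρ)) (by positivity)
      (fun S' M1 M2 M3 W' hS' hR' hW' => ih S' M1 M2 M3 W' (s + 2) hS' (by omega) hR'
        fun w hw => by
          have := hW' w hw
          rwa [show s + (ρ + 1) + 1 = s + 2 + ρ by omega] at this)
    have hz : (((fs (Rel L1 L2 L3)).filter fun x => B x.1 x.2 = 0).card : ℝ) *
        (if ρ = 0 then 1 else 2) ≤
          2 * th (Fintype.card F) ^ 2 * (Fintype.card F : ℝ) ^ J := by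
      have hp : (0 : ℝ) < (Fintype.card F : ℝ) ^ J := by positivity
      have hth2 : 1 ≤ th (Fintype.card F) ^ 2 := one_le_pow₀ hth
      split_ifs with hρ
      · have hz := rel_zeros hB hc hR (Rel_mono hx) hx2
        rw [show n + finrank F ↥(L1 ⊓ L3) = J + 1 by omega, pow_succ] at hz
        have : (((fs (Rel L1 L2 L3)).filter fun x => B x.1 x.2 = 0).card : ℝ) ≤
          2 * (Fintype.card F : ℝ) ^ J := le_of_mul_le_mul_right (by linarith) hq0
        nlinarith
      · have hz := rel_zeros2 hB hc hR hs (by omega) (by omega) (by omega) (by omega)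
          (Rel_mono hx) (d.lag.iso (mem_Rel.1 hx).1.1 (mem_Rel.1 hx).2.1.1) hx2
        rw [← hJ, pow_succ] at hz
        have h1 : (((fs (Rel L1 L2 L3)).filter fun x => B x.1 x.2 = 0).card : ℝ) *
            Fintype.card F ≤ (Fintype.card F : ℝ) ^ J * (Fintype.card F + 2) :=
          le_of_mul_le_mul_right (by linarith) hq0
        have h2 : (Fintype.card F : ℝ) + 2 ≤ th (Fintype.card F) ^ 2 * Fintype.card F := by
          unfold th
          rw [div_pow, div_mul_eq_mul_div, le_div_iff₀ (by apply pow_pos; linarith)]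
          nlinarith
        have h3 : (((fs (Rel L1 L2 L3)).filter fun x => B x.1 x.2 = 0).card : ℝ) ≤
            th (Fintype.card F) ^ 2 * (Fintype.card F : ℝ) ^ J :=
          le_of_mul_le_mul_right (by nlinarith) hq0
        linarith
    have hfin := fin_step (x := W.card) (K := 2 * th (Fintype.card F) ^ 2 *
      th (Fintype.card F) ^ (3 * ρ)) (j := J) (E := Tn ((ρ + 1 : ℕ) : ℝ) - (ρ + 1 : ℕ)) hq
      (show s + s < s + (s + (ρ + 1)) by omega) (by positivity) (h.trans ?_)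
    · refine hfin.trans (le_of_eq ?_)
      rw [if_neg (by omega)]; ring
    · have e : Tn ((ρ + 1 : ℕ) : ℝ) - (ρ + 1 : ℕ) - (J - ((s + (s + (ρ + 1)) : ℕ) : ℝ)) =
          Tn ρ - ρ := by
        rw [hJ']; unfold Tn; push_cast; ring
      rw [e]
      have := mul_le_mul_of_nonneg_right hz
        (show 0 ≤ th (Fintype.card F) ^ (3 * ρ) * (Fintype.card F : ℝ) ^ (Tn ρ - ρ) by positivity)
      linarith

end P050
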